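import Vale.Agent.P322.General.Weight
import Vale.Agent.P322.General.SlopePoly
import Vale.Agent.P322.Reduce

/-!
The slope condition of the lowered weight.
-/

noncomputable section
namespace Vale.Agent.P322.General
open Real Set

lemma WC_split (t : ℝ) :
    WC t = 1 - 5 / 4 * t ^ 2 + t ^ 4 / 4 + (5 / 4 - 1 / (2 * log 2)) * (33 / 1024 - t ^ 2 / 32)
      - 33 * (5 / 4 - 1 / (2 * log 2)) / 1024 * (1 / (1 + 32 * t ^ 2)) := by
  have h : (1:ℝ) + 32 * t ^ 2 ≠ 0 := by positivity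
  have key : (1 - t ^ 2) * (t ^ 2 / (1 + 32 * t ^ 2))
      = 33 / 1024 - t ^ 2 / 32 - 33 / 1024 * (1 / (1 + 32 * t ^ 2)) := by
    field_simp; ring
  simp only [WC]
  linear_combination (5 / 4 - 1 / (2 * log 2)) * key

lemma recip_gap (m d : ℝ) :
    (1 / (1 + 32 * (m + d) ^ 2) + 1 / (1 + 32 * (m - d) ^ 2)) / 2 - 1 / (1 + 32 * m ^ 2)
      = 32 * d ^ 2 * (96 * m ^ 2 - 1 - 32 * d ^ 2)
        / ((1 + 32 * m ^ 2) * ((1 + 32 * m ^ 2 - 32 * d ^ 2) ^ 2 + 128 * d ^ 2)) := by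
  have n1 : (1:ℝ) + 32 * (m + d) ^ 2 ≠ 0 := by positivity
  have n2 : (1:ℝ) + 32 * (m - d) ^ 2 ≠ 0 := by positivity
  have n3 : (1:ℝ) + 32 * m ^ 2 ≠ 0 := by positivity
  rw [show (1 + 32 * m ^ 2 - 32 * d ^ 2) ^ 2 + 128 * d ^ 2
      = (1 + 32 * (m + d) ^ 2) * (1 + 32 * (m - d) ^ 2) by ring,
    div_add_div _ _ n1 n2, div_div, div_sub_div _ _ (by positivity) n3,
    div_eq_div_iff (by positivity) (by positivity)]
  ring

/-- the loss of the lowered weight at the middle is small against the artanh distance. -/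
theorem WC_slope {mu mv x : ℝ} (a1 : -1 < mv) (hlt : mv < mu) (b2 : mu < 1)
    (hx : (At mu - At mv) / 2 ≤ x) :
    (WC ((mu + mv) / 2) - (WC mu + WC mv) / 2) * Lc x ≤ (mu - mv) / 2 * x := by
  obtain ⟨hp, hdt⟩ := half_diff_le_tanh a1 hlt b2
  set p := (At mu - At mv) / 2 with hpd
  set m := (mu + mv) / 2 with hm
  set d := (mu - mv) / 2 with hd
  have hd0 : 0 < d := by rw [hd]; linarith
  have hmu : mu = m + d := by rw [hm, hd]; ring
  have hmv : mv = m - d := by rw [hm, hd]; ring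
  set t := tanh p with ht
  have t1 : t < 1 := tanh_lt_one' p
  have t0 : 0 < t := tanh_pos' hp
  have l0 := log_two_gt_d9
  have l1 := log_two_lt_d9
  set b := 5 / 4 - 1 / (2 * log 2) with hb
  have b0 : 5286 / 10000 ≤ b := by
    rw [hb, le_sub_comm, div_le_iff₀ (by positivity)]; linarith
  have b1 : b ≤ 5287 / 10000 := by
    rw [hb, sub_le_comm, le_div_iff₀ (by positivity)]; linarith
  have hxy : m ^ 2 + d ^ 2 ≤ 1 := by
    nlinarith [sq_nonneg (m + d), sq_nonneg (m - d)]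
  have hP := slopeP_nonneg b0 b1 (sq_nonneg m) (sq_nonneg d) hxy
  set D := (1 + 32 * m ^ 2) * ((1 + 32 * m ^ 2 - 32 * d ^ 2) ^ 2 + 128 * d ^ 2) with hD
  have e0 : (1 + 32 * m ^ 2 - 32 * d ^ 2) ^ 2 + 128 * d ^ 2
      = (1 + 32 * (m + d) ^ 2) * (1 + 32 * (m - d) ^ 2) := by ring
  have Dpos : 0 < D := by rw [hD, e0]; positivity
  set K := 5 / 4 + b / 32 - 3 / 2 * m ^ 2 - d ^ 2 / 4 + 33 * b / 32 * (96 * m ^ 2 - 1 - 32 * d ^ 2) / D
    with hK
  have eGap : WC m - (WC mu + WC mv) / 2 = d ^ 2 * K := by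
    simp only [WC_split, ← hb, hmu, hmv, hK, hD]
    linear_combination (33 * b / 1024) * recip_gap m d
  have hKl : K * (694 / 1000 * (1 - d ^ 2) + d ^ 2) ≤ 1 := by
    refine le_of_mul_le_mul_left ?_ Dpos
    have : D * (K * (694 / 1000 * (1 - d ^ 2) + d ^ 2)) = D - slopeP b (m ^ 2) (d ^ 2) := by
      have := Dpos.ne'
      simp only [hK, slopeP]
      rw [← hD]
      field_simp
      ring
    linarith
  rcases le_or_gt K 0 with hK0 | hK0
  · rw [eGap]
    have := mul_nonneg (mul_nonneg (sq_nonneg d) (neg_nonneg.2 hK0)) (Lc_pos x).le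
    have := mul_nonneg hd0.le (hp.le.trans hx)
    linarith
  have e1 : t * Lc p = p * (Ez p * (1 - t ^ 2) + t ^ 2) := by
    have hc := cosh_ne p
    have h2 := cosh_sq_sub_sinh_sq p
    have e2 : 1 - t ^ 2 = 1 / cosh p ^ 2 := by
      rw [ht, tanh_eq_sinh_div_cosh]; field_simp; linarith
    rw [e2, ht, Ez, Sz_of_ne hp.ne', sinh_two_mul, tanh_eq_sinh_div_cosh, xz, tanh_eq_sinh_div_cosh]
    field_simp
    ring
  -- `d * l(t²) ≤ t * l(d²)` lets the bound at `d` control the one at `t`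
  set l := fun s : ℝ => 694 / 1000 * (1 - s) + s with hl
  have hdl : d * l (t ^ 2) ≤ t * l (d ^ 2) := by
    have h1 : 0 ≤ (t - d) * (694 / 1000 - 306 / 1000 * (t * d)) := by
      refine mul_nonneg (by linarith) ?_
      have := mul_le_one₀ t1.le hd0.le (hdt.trans t1.le)
      linarith
    simp only [hl]; linarith
  have hEl : Ez p * (1 - t ^ 2) + t ^ 2 ≤ l (t ^ 2) := by
    have := mul_le_mul_of_nonneg_right (show Ez p ≤ 694 / 1000 by linarith [Ez_le_log_two hp.le])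
      (sub_nonneg.2 (pow_le_one₀ t0.le t1.le : t ^ 2 ≤ 1))
    simp only [hl]; linarith
  have main : K * d * Lc p ≤ p := by
    refine le_of_mul_le_mul_left ?_ t0
    calc t * (K * d * Lc p) = K * d * (t * Lc p) := by ring
      _ = K * d * (p * (Ez p * (1 - t ^ 2) + t ^ 2)) := by rw [e1]
      _ ≤ K * d * (p * l (t ^ 2)) := by
        refine mul_le_mul_of_nonneg_left ?_ (by positivity)
        exact mul_le_mul_of_nonneg_left hEl hp.le
      _ = K * p * (d * l (t ^ 2)) := by ring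
      _ ≤ K * p * (t * l (d ^ 2)) := mul_le_mul_of_nonneg_left hdl (by positivity)
      _ = t * p * (K * l (d ^ 2)) := by ring
      _ ≤ t * p * 1 := mul_le_mul_of_nonneg_left hKl (by positivity)
      _ = t * p := mul_one _
  have hL : Lc x * p ≤ Lc p * x := by
    have h := Lc_div_antitone (show p ∈ Ioi (0:ℝ) from hp)
      (show x ∈ Ioi (0:ℝ) from hp.trans_le hx) hx
    simpa [div_le_div_iff₀ (hp.trans_le hx) hp] using h
  refine le_of_mul_le_mul_right ?_ hp
  rw [eGap]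
  calc d ^ 2 * K * Lc x * p = d ^ 2 * K * (Lc x * p) := by ring
    _ ≤ d ^ 2 * K * (Lc p * x) := mul_le_mul_of_nonneg_left hL (by positivity)
    _ = d * x * (K * d * Lc p) := by ring
    _ ≤ d * x * p := mul_le_mul_of_nonneg_left main (mul_nonneg hd0.le (hp.le.trans hx))

end Vale.Agent.P322.General
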