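import Vale.Agent.P322.General.Tensor

/-!
The tangent line of the dissipation at the means, and the tensorisation that only uses it.
-/

noncomputable section
namespace Vale.Agent.P322.General
open Real Set Finset

/-- the dissipation of a pair of functions lies above the tangent at the means. -/
lemma Ex_dd_ge_tangent {n : ℕ} (U V : Cube n → ℝ) (hU : ∀ x, -1 < U x ∧ U x < 1)
    (hV : ∀ x, -1 < V x ∧ V x < 1) (hlt : Ex V < Ex U) (hs : 0 ≤ Ex U + Ex V) :
    dd (Ex U) (Ex V) + lam (Ex U) (Ex V) * ((hh (Ex U) + hh (Ex V)) / 2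
        - (Ex (fun x => hh (U x)) + Ex (fun x => hh (V x))) / 2)
      ≤ Ex (fun x => dd (U x) (V x)) := by
  obtain ⟨a1, a2⟩ := Ex_mem hU
  obtain ⟨b1, b2⟩ := Ex_mem hV
  obtain ⟨σ, A, B, hσ, heq, hmin⟩ := dd_plane b1 hlt a2 hs
  have h := Ex_le (n := n) (fun x => hmin (U x) (V x) (hU x).1 (hU x).2 (hV x).1 (hV x).2)
  have e1 : (fun x => A * ((U x - V x) / 2) + B * (1 - (U x + V x) / 2))
      = fun x => (A / 2 * (U x - V x) + (-(B / 2)) * (U x + V x)) + B := by funext x; ring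
  have e2 : (fun x => dd (U x) (V x) + σ * ((hh (U x) + hh (V x)) / 2))
      = fun x => dd (U x) (V x) + σ / 2 * (hh (U x) + hh (V x)) := by funext x; ring
  rw [e1, e2, Ex_add, Ex_add, Ex_mul_left, Ex_mul_left, Ex_sub, Ex_add, Ex_const, Ex_add,
    Ex_mul_left, Ex_add] at h
  rw [← hσ]
  linarith

/-- the scalar two point inequality, with the tangent line. -/
def TPL (W : ℝ → ℝ) : Prop :=
  ∀ mu mv η C : ℝ, -1 < mv → mv < mu → mu < 1 → 0 ≤ mu + mv → 0 < η →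
    η ≤ (hh mu + hh mv) / 2 → dd mu mv ≤ C →
    (∀ z, 0 < z → |mu - mv| / 2 * (z + sg z * gz z) - sg z * η ≤ C) →
    dd mu mv + lam mu mv * ((hh mu + hh mv) / 2 - η) ≤ C →
    2 * hh ((mu + mv) / 2) - (hh mu + hh mv) + Pi2 (W ((mu + mv) / 2)) η
      ≤ C + Pi2 ((W mu + W mv) / 2) η

lemma core_of_TPL {W : ℝ → ℝ} (h : TPL W) : Core W := by
  intro n U V hU hV hlt hs
  obtain ⟨a1, a2⟩ := Ex_mem hU
  obtain ⟨b1, b2⟩ := Ex_mem hV
  have eu0 : 0 < Ex (fun x => hh (U x)) := Ex_pos fun x => hh_pos (hU x).1 (hU x).2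
  have ev0 : 0 < Ex (fun x => hh (V x)) := Ex_pos fun x => hh_pos (hV x).1 (hV x).2
  have hh1 := hh_concave_mem U hU
  have hh2 := hh_concave_mem V hV
  exact h _ _ _ _ b1 hlt a2 hs (by linarith) (by linarith) (Ex_dd_ge_mean U V hU hV)
    (fun z hz => Ex_dd_ge_line U V hU hV hz) (Ex_dd_ge_tangent U V hU hV hlt hs)

theorem disGe_of_TPL {W : ℝ → ℝ} (hpos : ∀ m, -1 < m → m < 1 → 0 < W m ∧ W m * log 2 ≤ hh m)
    (hev : ∀ m, W (-m) = W m) (hK : TPL W) : DisGe W :=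
  disGe_of_core hpos hev (core_of_TPL hK)

end Vale.Agent.P322.General
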