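import Vale.Agent.P322.General.GapShape
import Vale.Agent.P322.GoalAll
import Vale.Agent.P322.Edge
import Vale.Agent.P322.General.SlopeWC
import Vale.Agent.P322.General.Tangent

/-!
The two point inequality of the lowered weight from two boundary cases.
-/

noncomputable section
namespace Vale.Agent.P322.General
open Real Set Filter Topology

/-- the case where the entropy is the average of the entropies of the means. -/
def AvgCase (W : ℝ → ℝ) : Prop :=
  ∀ mu mv : ℝ, -1 < mv → mv < mu → mu < 1 → 0 ≤ mu + mv →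
    2 * hh ((mu + mv) / 2) - (hh mu + hh mv) + Pi2 (W ((mu + mv) / 2)) ((hh mu + hh mv) / 2)
      ≤ (mu - mv) / 2 * ((At mu - At mv) / 2)
        + Pi2 ((W mu + W mv) / 2) ((hh mu + hh mv) / 2)

/-- the case at one point of the curve of equality, using the gain of the tangent. -/
def JoinCase (W : ℝ → ℝ) : Prop :=
  ∀ mu mv : ℝ, -1 < mv → mv < mu → mu < 1 → 0 ≤ mu + mv →
    ∃ z, (At mu - At mv) / 2 ≤ z ∧
      (mu - mv) / 2 * (z - (At mu - At mv) / 2)
        ≤ lam mu mv * ((hh mu + hh mv) / 2 - (mu - mv) / 2 * gz z) ∧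
      2 * hh ((mu + mv) / 2) - (hh mu + hh mv) + Pi2 (W ((mu + mv) / 2)) ((mu - mv) / 2 * gz z)
        ≤ (mu - mv) / 2 * z + Pi2 ((W mu + W mv) / 2) ((mu - mv) / 2 * gz z)

lemma lam_pos {mu mv : ℝ} (a1 : -1 < mv) (hlt : mv < mu) (b2 : mu < 1) : 0 < lam mu mv := by
  have hp : 0 < (1 + mu) * (1 + mv) := mul_pos (by linarith) (by linarith)
  have h1 : log ((1 + mu) * (1 + mv)) < log 4 := log_lt_log hp (by nlinarith)
  rw [show log 4 = 2 * log 2 by rw [show (4:ℝ) = 2 ^ 2 by norm_num, log_pow]; norm_num] at h1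
  have : 0 < ((mu - mv) / 2) ^ 2 := pow_pos (by linarith) 2
  unfold lam
  positivity

/-- the two point inequality from its boundary cases. -/
theorem tpl_of_cases {W : ℝ → ℝ} (hW : ∀ m, -1 < m → m < 1 → 0 < W m)
    (hslope : ∀ mu mv x : ℝ, -1 < mv → mv < mu → mu < 1 → (At mu - At mv) / 2 ≤ x →
      (W ((mu + mv) / 2) - (W mu + W mv) / 2) * Lc x ≤ (mu - mv) / 2 * x)
    (hA : AvgCase W) (hJ : JoinCase W) : TPL W := by
  intro mu mv η C a1 hlt b2 hs hη hηA hdd hline htan
  obtain ⟨hp, -⟩ := half_diff_le_tanh a1 hlt b2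
  have hA' := hA mu mv a1 hlt b2 hs
  obtain ⟨z1, hpz, hgain, hJ'⟩ := hJ mu mv a1 hlt b2 hs
  have hsl := fun x => hslope mu mv x a1 hlt b2
  have hlam := lam_pos a1 hlt b2
  set d := (mu - mv) / 2 with hd
  set p := (At mu - At mv) / 2 with hpd
  set Wm := W ((mu + mv) / 2) with hWm
  set V := (W mu + W mv) / 2 with hV
  set A := (hh mu + hh mv) / 2 with hAd
  set lm := lam mu mv with hlm
  have hd0 : 0 < d := by rw [hd]; linarith
  have hddp : dd mu mv = d * p := by simp only [dd, hd, hpd]; ring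
  have hW0 : 0 < Wm := hW _ (by linarith) (by linarith)
  have hV0 : 0 < V := by
    have := hW mu (by linarith) b2
    have := hW mv a1 (by linarith)
    rw [hV]; linarith
  have hgp : ∀ z, 0 < z → 0 < gz z := fun z hz =>
    div_pos (xz_pos_of_nonneg hz.le) (tanh_pos' hz)
  have hz1 : 0 < z1 := hp.trans_le hpz
  have hη1 : 0 < d * gz z1 := mul_pos hd0 (hgp z1 hz1)
  rcases le_or_gt Wm V with hWV | hWV
  · have h1 := Pi2_mono hW0 hη hWV
    have hA0 : 0 < A := hη.trans_le hηA
    have : 2 * hh ((mu + mv) / 2) - (hh mu + hh mv) ≤ d * p := by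
      exact (edgeIneq_of_goal Cert.goal_all mu mv a1 hlt b2).1
    linarith
  rcases le_or_gt (d * gz z1) η with hη' | hη'
  · have hmax := gap_line_le_max (lm := lm) hV0 hWV.le hη1 ⟨hη', hηA⟩
    have h1 : d * (z1 - p) ≤ lm * A - lm * (d * gz z1) := by linarith
    rcases le_max_iff.1 hmax with h | h <;> linarith
  -- below the joining point
  obtain ⟨z, hz1z, hz⟩ : ∃ z, z1 ≤ z ∧ d * gz z = η := by
    obtain ⟨b, hb, hb'⟩ := ((gz_tendsto.eventually (gt_mem_nhds (div_pos hη hd0))).and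
      (eventually_ge_atTop z1)).exists
    obtain ⟨z, hz, hz'⟩ := intermediate_value_Icc' hb'
      (fun x hx => (hasDerivAt_gz (hz1.trans_le hx.1)).continuousAt.continuousWithinAt)
      (show η / d ∈ Icc (gz b) (gz z1) from
        ⟨hb.le, (div_le_iff₀ hd0).2 (by linarith [mul_comm d (gz z1)])⟩)
    exact ⟨z, hz.1, by rw [hz']; field_simp⟩
  have hz0 : 0 < z := hz1.trans_le hz1z
  have hCz : d * z ≤ C := by
    have h := hline z hz0
    rw [abs_of_pos (by linarith : 0 < mu - mv), ← hd, ← hz] at h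
    linarith
  let D : ℝ → ℝ := fun x => Pi2 Wm x - Pi2 V x
  let F : ℝ → ℝ := fun x => d * x - D (d * gz x)
  have hDd : ∀ x, 0 < x → HasDerivAt D (Sz (Zi (x / V)) - Sz (Zi (x / Wm))) x := fun x hx =>
    ((hasDerivAt_Pi2 hW0 hx).sub (hasDerivAt_Pi2 hV0 hx)).congr_deriv (by ring)
  have hFd : ∀ x, 0 < x → HasDerivAt F
      (d * (1 - (Sz (Zi (d * gz x / Wm)) - Sz (Zi (d * gz x / V))) / sg x)) x := fun x hx => by
    have h1 := (hDd (d * gz x) (mul_pos hd0 (hgp x hx))).comp x ((hasDerivAt_gz hx).const_mul d)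
    exact (((hasDerivAt_id x).const_mul d).sub h1).congr_deriv (by ring)
  have hF : MonotoneOn F (Ici z1) := by
    refine monotoneOn_of_deriv_nonneg (convex_Ici z1)
      (fun x hx => (hFd x (hz1.trans_le hx)).continuousAt.continuousWithinAt) ?_ ?_ <;>
      intro x hx <;> rw [interior_Ici] at hx <;> have hx0 : 0 < x := hz1.trans hx
    · exact (hFd x hx0).differentiableAt.differentiableWithinAt
    rw [(hFd x hx0).deriv]
    have hsg : 0 < sg x := div_pos (pow_pos (sinh_pos_iff.2 hx0) 2) (Lc_pos x)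
    refine mul_nonneg hd0.le ?_
    rw [sub_nonneg, div_le_one hsg]
    exact slope_gap_le hV0 hWV hd0 hx0 (hsl x (hpz.trans (le_of_lt hx)))
  have := hF self_mem_Ici hz1z hz1z
  simp only [F, D, hz] at this
  linarith

/-- the two point inequality of the lowered weight from its boundary cases. -/
theorem tpl_WC_of_cases (hA : AvgCase WC) (hJ : JoinCase WC) : TPL WC :=
  tpl_of_cases (fun _ a b => WC_pos a b) (fun _ _ _ a b c d => WC_slope a b c d) hA hJ

end Vale.Agent.P322.General
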