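import Vale.Agent.P322.Edge
import Vale.Agent.P322.General.TPLAsm

/-!
The two point inequality at the average of the entropies.
-/

noncomputable section
namespace Vale.Agent.P322.General
open Real Set

/-- the geometry of a pair in the edge coordinates. -/
lemma coord_eqs {t s mu mv : ℝ} (h : Box t s) (hmu : mu = (s + t) / (1 + s * t))
    (hmv : mv = (s - t) / (1 - s * t)) :
    (mu - mv) / 2 = (1 - s ^ 2) / (1 - t ^ 2 * s ^ 2) * t ∧
    (mu - mv) / 2 * At t - (2 * hh ((mu + mv) / 2) - (hh mu + hh mv))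
      = (1 - s ^ 2) / (1 - t ^ 2 * s ^ 2) * Ne t s ∧
    1 - ((mu + mv) / 2) ^ 2 = (1 - s ^ 2) / (1 - t ^ 2 * s ^ 2) * Re t s := by
  obtain ⟨t0, t1, s0, s1⟩ := h
  have h : Box t s := ⟨t0, t1, s0, s1⟩
  have hD := h.D0; have hD' := h.D1; have hA := sub_pos.2 h.A1; have hB := sub_pos.2 h.B1
  have hst : s * t < 1 := by nlinarith
  have hst0 : 0 ≤ s * t := by positivity
  have p1 : 0 < 1 + s * t := by linarith
  have p2 : 0 < 1 - s * t := by linarith
  set k := (1 - s ^ 2) / (1 - t ^ 2 * s ^ 2) with hk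
  have k0 : 0 < k := div_pos hB hD
  have eD : (1 - t ^ 2 * s ^ 2) = (1 + s * t) * (1 - s * t) := by ring
  have em : (mu + mv) / 2 = s * (1 - t ^ 2) / (1 - t ^ 2 * s ^ 2) := by
    rw [hmu, hmv, eD]; field_simp; ring
  have ed : (mu - mv) / 2 = k * t := by
    rw [hk, hmu, hmv, eD]; field_simp; ring
  have a1 : 1 + mu = (1 + t) * (1 + s) / (1 + s * t) := by rw [hmu]; field_simp; ring
  have a2 : 1 - mu = (1 - t) * (1 - s) / (1 + s * t) := by rw [hmu]; field_simp; ring
  have a3 : 1 + mv = (1 - t) * (1 + s) / (1 - s * t) := by rw [hmv]; field_simp; ring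
  have a4 : 1 - mv = (1 + t) * (1 - s) / (1 - s * t) := by rw [hmv]; field_simp; ring
  have q1 : (0:ℝ) < 1 + s := by linarith
  have q2 : (0:ℝ) < 1 - s := by linarith
  have q3 : (0:ℝ) < 1 + t := by linarith
  have q4 : (0:ℝ) < 1 - t := by linarith
  have q5 : 0 < 1 + t ^ 2 * s := by linarith [h.as1.1]
  have q6 : 0 < 1 - t ^ 2 * s := by linarith [h.as1.2]
  set m := (mu + mv) / 2 with hm
  have a5 : 1 + m = (1 + s) * (1 - t ^ 2 * s) / (1 - t ^ 2 * s ^ 2) := by
    rw [em, eq_div_iff hD.ne', add_mul, div_mul_cancel₀ _ hD.ne']; ring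
  have a6 : 1 - m = (1 - s) * (1 + t ^ 2 * s) / (1 - t ^ 2 * s ^ 2) := by
    rw [em, eq_div_iff hD.ne', sub_mul, div_mul_cancel₀ _ hD.ne']; ring
  have hmu1 : -1 < mu ∧ mu < 1 := by
    constructor
    · have : 0 < 1 + mu := a1 ▸ by positivity
      linarith
    · have : 0 < 1 - mu := a2 ▸ by positivity
      linarith
  have hmv1 : -1 < mv ∧ mv < 1 := by
    constructor
    · have : 0 < 1 + mv := a3 ▸ by positivity
      linarith
    · have : 0 < 1 - mv := a4 ▸ by positivity
      linarith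
  have hm1 : -1 < m ∧ m < 1 := by constructor <;> linarith [hm]
  have Amu : At mu = At t + At s := by
    simp only [At]
    rw [a1, a2, log_div (by positivity) p1.ne', log_div (by positivity) p1.ne',
      log_mul q3.ne' q1.ne', log_mul q4.ne' q2.ne']
    ring
  have Amv : At mv = At s - At t := by
    simp only [At]
    rw [a3, a4, log_div (by positivity) p2.ne', log_div (by positivity) p2.ne',
      log_mul q4.ne' q1.ne', log_mul q3.ne' q2.ne']
    ring
  have Am : At m = At s - At (t ^ 2 * s) := by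
    simp only [At]
    rw [a5, a6, log_div (by positivity) hD.ne', log_div (by positivity) hD.ne',
      log_mul q1.ne' q6.ne', log_mul q2.ne' q5.ne']
    ring
  have key : (mu - mv) / 2 * At t - (2 * hh m - (hh mu + hh mv)) = k * Ne t s := by
    have lm : log (1 + m) + log (1 - m)
        = log (1 - s ^ 2) + log (1 - (t ^ 2) ^ 2 * s ^ 2) - 2 * log (1 - t ^ 2 * s ^ 2) := by
      rw [a5, a6, log_div (by positivity) hD.ne', log_div (by positivity) hD.ne',
        log_mul q1.ne' q6.ne', log_mul q2.ne' q5.ne',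
        show 1 - s ^ 2 = (1 + s) * (1 - s) by ring, log_mul q1.ne' q2.ne',
        show 1 - (t ^ 2) ^ 2 * s ^ 2 = (1 + t ^ 2 * s) * (1 - t ^ 2 * s) by ring,
        log_mul q5.ne' q6.ne']
      ring
    have ls : log (1 + mu) + log (1 - mu) + (log (1 + mv) + log (1 - mv))
        = 2 * (log (1 - t ^ 2) + log (1 - s ^ 2) - log (1 - t ^ 2 * s ^ 2)) := by
      rw [a1, a2, a3, a4, log_div (by positivity) p1.ne', log_div (by positivity) p1.ne',
        log_div (by positivity) p2.ne', log_div (by positivity) p2.ne', log_mul q3.ne' q1.ne',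
        log_mul q4.ne' q2.ne', log_mul q4.ne' q1.ne', log_mul q3.ne' q2.ne',
        show 1 - s ^ 2 = (1 + s) * (1 - s) by ring, log_mul q1.ne' q2.ne',
        show 1 - t ^ 2 = (1 + t) * (1 - t) by ring, log_mul q3.ne' q4.ne',
        eD, log_mul p1.ne' p2.ne']
      ring
    simp only [hh, phi_eq_At hm1.1 hm1.2, phi_eq_At hmu1.1 hmu1.2, phi_eq_At hmv1.1 hmv1.2,
      Amu, Amv, Am]
    have e1 : mu = m + k * t := by rw [← ed, hm]; ring
    have e2 : mv = m - k * t := by rw [← ed, hm]; ring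
    rw [lm]
    have e3 : k * Ne t s
        = (-log (1 - t ^ 2) + log (1 - (t ^ 2) ^ 2 * s ^ 2) - log (1 - t ^ 2 * s ^ 2))
          - 2 * m * At (t ^ 2 * s) - k * t * At t := by
      rw [hk, Ne, em]
      generalize 1 - t ^ 2 * s ^ 2 = D at hD ⊢
      generalize 1 - s ^ 2 = E at hB ⊢
      field_simp
    rw [e3, ed, e1, e2]
    rw [e1, e2] at ls
    linear_combination (-(1 / 2) : ℝ) * ls
  refine ⟨ed, key, ?_⟩
  rw [show 1 - m ^ 2 = (1 + m) * (1 - m) by ring, a5, a6, hk, Re]
  field_simp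
  ring

/-- edge coordinates of an ordered pair with nonnegative sum. -/
lemma coord_exists : ∀ mu mv : ℝ, -1 < mv → mv < mu → mu < 1 → 0 ≤ mu + mv →
    ∃ t s, Box t s ∧ At t = (At mu - At mv) / 2 ∧ mu = (s + t) / (1 + s * t) ∧
      mv = (s - t) / (1 - s * t) := by
  intro mu mv a1 a2 a3 hs
  set p := (At mu - At mv) / 2 with hp
  set q := (At mu + At mv) / 2 with hq
  have p0 : 0 < p := by
    have h1 := log_lt_log (show 0 < 1 + mv by linarith) (show 1 + mv < 1 + mu by linarith)
    have h2 := log_lt_log (show 0 < 1 - mu by linarith) (show 1 - mu < 1 - mv by linarith)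
    simp only [hp, At]; linarith
  have q0 : 0 ≤ q := by
    have h1 := At_mono (show -1 < -mv by linarith) (show -mv ≤ mu by linarith) a3
    have h2 : At (-mv) = -At mv := by simp only [At]; ring_nf
    rw [hq]; linarith
  have hb : Box (tanh p) (tanh q) := ⟨tanh_pos' p0, tanh_lt_one' p, by
    rcases q0.eq_or_lt with e | e
    · simp [← e]
    · exact (tanh_pos' e).le, tanh_lt_one' q⟩
  have hadd : ∀ a b : ℝ, tanh (a + b) = (tanh a + tanh b) / (1 + tanh a * tanh b) := fun a b => by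
    have := cosh_pos a; have := cosh_pos b; have := cosh_pos (a + b)
    simp only [tanh_eq_sinh_div_cosh, sinh_add, cosh_add]
    field_simp
  have e1 : mu = (tanh q + tanh p) / (1 + tanh q * tanh p) := by
    rw [← hadd, show q + p = At mu by rw [hp, hq]; ring, tanh_At (by linarith) a3]
  have e2 : mv = (tanh q - tanh p) / (1 - tanh q * tanh p) := by
    have := hadd q (-p)
    rw [tanh_neg, show q + -p = At mv by rw [hp, hq]; ring, tanh_At a1 (by linarith)] at this
    rw [this]; ring_nf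
  exact ⟨tanh p, tanh q, hb, At_tanh p, e1, e2⟩

lemma Qz_le_log_two_mul_Sz {z : ℝ} (hz : 0 ≤ z) : Qz z ≤ log 2 * Sz z := by
  have hm : MonotoneOn (fun x => log 2 * Sz x - Qz x) (Ici 0) := by
    refine monotoneOn_of_deriv_nonneg (convex_Ici 0)
      ((continuous_const.mul continuous_Sz).sub continuous_Qz).continuousOn ?_ ?_ <;>
      intro x hx <;> rw [interior_Ici] at hx
    · exact (((hasDerivAt_Sz hx).const_mul _).sub (hasDerivAt_Qz hx)).differentiableAt.differentiableWithinAt
    · have hd : HasDerivAt (fun x => log 2 * Sz x - Qz x) _ x :=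
        ((hasDerivAt_Sz hx).const_mul _).sub (hasDerivAt_Qz hx)
      rw [hd.deriv, ← sub_mul]
      exact mul_nonneg (sub_nonneg.2 (xz_le_log_two (le_of_lt hx))) (Sd_pos hx).le
  have := hm self_mem_Ici hz hz
  simp [Qz_zero, Sz_zero] at this
  linarith

lemma Ne_start_le {t s : ℝ} (h : Box t s) : Ne t 0 ≤ Ne t s := by
  have bx : ∀ u, 0 ≤ u → u < 1 → Box t u := fun u a b => ⟨h.t0, h.t1, a, b⟩
  have hm : MonotoneOn (Ne t) (Icc 0 s) := by
    refine monotoneOn_of_deriv_nonneg (convex_Icc _ _) ?_ ?_ ?_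
    · intro u hu
      have hh := bx u hu.1 (lt_of_le_of_lt hu.2 h.s1)
      refine ContinuousAt.continuousWithinAt ?_
      have hAt : ContinuousAt (fun x => At (t ^ 2 * x)) u :=
        ((hasDerivAt_At hh.as1.1 hh.as1.2).comp u (h := fun x => t ^ 2 * x)
          ((hasDerivAt_id u).const_mul (t ^ 2))).continuousAt
      have := hh.D0.ne'; have := hh.D1.ne'; have := (sub_pos.2 hh.B1).ne'
      unfold Ne; fun_prop (disch := assumption)
    all_goals intro u hu; rw [interior_Icc] at hu; have b := bx u hu.1.le (hu.2.trans h.s1)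
    · exact (b.hasDerivAt_Ne hu.1).differentiableAt.differentiableWithinAt
    · rw [(b.hasDerivAt_Ne hu.1).deriv]
      have := sub_pos.2 b.A1; have := hu.1
      refine mul_nonneg (by positivity) (div_nonneg
        (mul_nonneg (sq_nonneg _) (TT_nonneg b.A0.le b.A1 hu.1 b.s1))
        (mul_nonneg b.A0.le (sq_nonneg _)))
  exact hm ⟨le_rfl, h.s0⟩ ⟨h.s0, le_rfl⟩ h.s0

/-- the case at the average, for every weight below `hh / log 2`. -/
theorem avgCase {W : ℝ → ℝ} (hW : ∀ m, -1 < m → m < 1 → 0 < W m ∧ W m * log 2 ≤ hh m) :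
    AvgCase W := by
  intro mu mv a1 hlt b2 hs
  obtain ⟨t, s, hb, hAt, hmu, hmv⟩ := coord_exists mu mv a1 hlt b2 hs
  obtain ⟨ed, key, em⟩ := coord_eqs hb hmu hmv
  rw [← hAt]
  set k := (1 - s ^ 2) / (1 - t ^ 2 * s ^ 2) with hk
  have k0 : 0 < k := div_pos (sub_pos.2 hb.B1) hb.D0
  have hmu1 : -1 < (mu + mv) / 2 := by linarith
  have hmv1 : (mu + mv) / 2 < 1 := by linarith
  obtain ⟨hw0, hwL⟩ := hW _ hmu1 hmv1
  obtain ⟨hu0, huL⟩ := hW mu (by linarith) b2
  obtain ⟨hv0, hvL⟩ := hW mv a1 (by linarith)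
  set m := (mu + mv) / 2 with hm
  set A := (hh mu + hh mv) / 2 with hA
  rw [Pi2_of_le (Y := (W mu + W mv) / 2) (by linarith) (by rw [hA]; linarith)]
  -- the start of the curve
  have hN := Ne_start_le hb
  have h0 := edge_start (t := t) ⟨hb.t0, hb.t1, le_rfl, zero_lt_one⟩
  have hX : Xe t 0 = 1 := by simp [Xe, Re]
  rw [hX] at h0
  have hp := (At_pos hb.t0 hb.t1).le
  set x0 := xz (At t) with hx0
  have x0p : 0 < x0 := xz_pos_of_nonneg hp
  have hphi : x0 = log 2 - phi t := by
    rw [hx0, ← hh_tanh, tanh_At (by linarith [hb.t0]) hb.t1, hh]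
  have hN0 : Ne t 0 = t * At t - 2 * phi t := by
    rw [h0.1]
    have e := Pi2_eq_param (Y := 1) one_pos hp
    simp only [one_mul] at e
    rw [e, Qz, tanh_At (by linarith [hb.t0]) hb.t1, ← hx0, hphi]
    ring
  have hG : hh m - A ≤ k * phi t := by
    have h1 := mul_le_mul_of_nonneg_left (hN0 ▸ hN) k0.le
    rw [ed] at key
    linarith
  have hH : k * log 2 ≤ hh m := by
    refine le_trans ?_ (log_two_mul_le_hh hmu1 hmv1)
    rw [em]
    exact mul_le_mul_of_nonneg_right (le_mul_of_one_le_right k0.le hb.one_le_Re) (log_pos one_lt_two).le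
  have i1 : k * x0 ≤ A := by rw [hphi]; linarith
  have i2 : W m * log 2 - A ≤ k * log 2 - k * x0 := by rw [hphi]; linarith
  -- comparison with the start
  have main : Pi2 (W m) A ≤ k * Pi2 1 x0 := by
    have hA0 : 0 < A := lt_of_lt_of_le (mul_pos k0 x0p) i1
    set z := Zi (A / W m) with hz
    have z0 : 0 ≤ z := Zi_nonneg _
    have hle : k * Qz z - k * x0 * Sz z ≤ Pi2 k (k * x0) := le_Pi2 k0 (mul_pos k0 x0p) z0
    rw [show Pi2 k (k * x0) = k * Pi2 1 x0 by rw [← Pi2_homog k0.ne', mul_one]] at hle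
    have e : Pi2 (W m) A = W m * Qz z - A * Sz z := rfl
    rcases le_or_gt (W m) k with h | h
    · have := mul_le_mul_of_nonneg_right h (Qz_nonneg z0)
      have := mul_le_mul_of_nonneg_right i1 (Sz_nonneg z0)
      linarith
    · have := mul_le_mul_of_nonneg_left (Qz_le_log_two_mul_Sz z0) (sub_nonneg.2 h.le)
      have := mul_le_mul_of_nonneg_right i2 (Sz_nonneg z0)
      linarith
  rw [← h0.1] at main
  have := mul_le_mul_of_nonneg_left hN k0.le
  linarith

end Vale.Agent.P322.General
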