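import Vale.Agent.P322.General.Final
import Vale.Agent.P322.Bridge

/-!
The inequality of Courtade and Kumar for every Boolean function, given the tensorised bound.
-/

noncomputable section
namespace Vale.Agent.P322.General
open Real Set Finset

lemma jointLaw_nonneg {n : ℕ} (f : Cube n → Bool) {ε : ℝ} (h0 : 0 ≤ ε) (h1 : ε ≤ 1) (b : Bool)
    (y : Cube n) : 0 ≤ jointLaw f ε b y := by
  refine div_nonneg (Finset.sum_nonneg fun x _ => Finset.prod_nonneg fun i _ => ?_) (by positivity)
  split_ifs <;> linarith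

lemma mul_log_div_eq {a c : ℝ} (h : c = 0 → a = 0) : a * log (a / c) = a * log a - a * log c := by
  rcases eq_or_ne a 0 with ha | ha
  · simp [ha]
  · rw [log_div ha fun hc => ha (h hc)]; ring

lemma mutualInfo_eq_all {n : ℕ} (f : Cube n → Bool) {ε : ℝ} (h0 : 0 ≤ ε) (h1 : ε ≤ 1) :
    mutualInfo f ε = (Info (1 - 2 * ε) (fun x => sgn (f x)) - phi (Ex fun x => sgn (f x))) / log 2 := by
  set F : Cube n → ℝ := fun x => sgn (f x) with hF
  set t : Cube n → ℝ := fun y => Tn (1 - 2 * ε) F y with ht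
  set m := Ex F with hm
  have hp : (2 : ℝ) ^ n ≠ 0 := by positivity
  have hY : ∀ y, ∑ b, jointLaw f ε b y = 1 / 2 ^ n := fun y => by
    simp only [Fintype.sum_bool, jointLaw_eq]
    simp [sgn]
    ring
  have hEx : ∑ y, t y = m * 2 ^ n := by
    have h := Ex_Tn (1 - 2 * ε) F
    rw [← hm, Ex, div_eq_iff hp] at h
    exact h
  have hB : ∀ b, ∑ y, jointLaw f ε b y = (1 + sgn b * m) / 2 := fun b => by
    simp only [jointLaw_eq, ← Finset.sum_div, Finset.sum_add_distrib, ← Finset.mul_sum]
    rw [show (∑ y, Tn (1 - 2 * ε) (fun x => sgn (f x)) y) = m * 2 ^ n from hEx]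
    simp
    field_simp
  have hz : ∀ b y, 1 + sgn b * m = 0 → 1 + sgn b * t y = 0 := by
    intro b y hb
    have hs : ∑ y', jointLaw f ε b y' = 0 := by rw [hB, hb, zero_div]
    have := (Finset.sum_eq_zero_iff_of_nonneg fun y' _ => jointLaw_nonneg f h0 h1 b y').1 hs y
      (mem_univ y)
    rw [jointLaw_eq, div_eq_zero_iff, div_eq_zero_iff] at this
    rcases this with (h | h) | h
    · exact h
    · norm_num at h
    · exact absurd h hp
  have hterm : ∀ b y, jointLaw f ε b y *
      logb 2 (jointLaw f ε b y / ((∑ y', jointLaw f ε b y') * ∑ b', jointLaw f ε b' y))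
      = ((1 + sgn b * t y) * log (1 + sgn b * t y)
          - (1 + sgn b * t y) * log (1 + sgn b * m)) / 2 / 2 ^ n / log 2 := fun b y => by
    rw [hY, hB, jointLaw_eq, logb,
      show (1 + sgn b * Tn (1 - 2 * ε) (fun x => sgn (f x)) y) / 2 / 2 ^ n
        / ((1 + sgn b * m) / 2 * (1 / 2 ^ n)) = (1 + sgn b * t y) / (1 + sgn b * m) by
        field_simp; rfl,
      ← mul_log_div_eq (hz b y)]
    ring
  unfold mutualInfo
  simp only [hterm]
  rw [Finset.sum_comm]
  simp only [← Finset.sum_div, Fintype.sum_bool]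
  congr 1
  simp only [Info, Ex, phi]
  simp only [show sgn true = 1 from rfl, show sgn false = -1 from rfl, one_mul, neg_one_mul,
    ← sub_eq_add_neg, Finset.sum_add_distrib, Finset.sum_sub_distrib, ← Finset.sum_mul,
    ← Finset.sum_div]
  simp only [← ht, hEx, Finset.sum_const, Finset.card_univ, Fintype.card_fun, Fintype.card_bool, Fintype.card_fin,
    nsmul_eq_mul, Nat.cast_pow, Nat.cast_ofNat, mul_one]
  field_simp
  ring

/-- the inequality of Courtade and Kumar for every Boolean function, given the tensorised bound. -/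
theorem CK_of {W : ℝ → ℝ} (hW : GoodW W) (hK : DisGe W) :
    ∀ (n : ℕ) (f : (Fin n → Bool) → Bool) (ε : ℝ), 0 ≤ ε → ε ≤ 1 / 2 →
      mutualInfo f ε ≤ 1 - binEntropy ε / log 2 := by
  intro n f ε h0 h1
  have hl : 0 < log 2 := log_pos one_lt_two
  rw [mutualInfo_eq_all f h0 (by linarith), one_sub_div hl.ne', ← phi_one_sub_two h0 h1]
  gcongr
  refine Info_sub_le_phi hW hK (fun x => ?_) (by linarith) (by linarith)
  cases f x <;> simp [sgn]

end Vale.Agent.P322.General
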