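import Vale.Agent.P322.General.Cert0ap0
import Vale.Agent.P322.General.Cert0ap1


/-!
A subdivision certificate for `cell0`.
-/

namespace Vale.Agent.P322.IV

def trC0a : Tr := (.snd 39614081257132168796771975168 (.fst 24259663361794875532052004864 (.snd 19807040628566084398385987584 (.fst 12288288005886190649304154112 (.snd 9903520314283042199192993792 trC0a_0 (.fst 6302600327967877004949192704 (.snd 14855280471424563298789490688 (.fst 3309756489008720182771712000 (.snd 12379400392853802748991242240 (.fst 1813334569493112974664007680 (.snd 11141460353568422474092118016 (.fst 1065123609735309370610155520 (.snd 10522490333925732336642555904 trC0a_1 trC0a_2) trC0a_3) (.fst 1065123609735309370610155520 (.snd 11760430373211112611541680128 (.fst 691018129892436365602193408 trC0a_4 trC0a_5) (.fst 691018129892436365602193408 trC0a_6 trC0a_7)) trC0a_8)) trC0a_9) (.fst 1813334569493112974664007680 (.snd 13617340432139183023890366464 (.fst 1065123609735309370610155520 (.snd 12998370412496492886440804352 (.fst 691018129892436365602193408 trC0a_10 (.snd 12688885402675147817716023296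 trC0a_11 trC0a_12)) (.fst 691018129892436365602193408 trC0a_13 (.snd 13307855422317837955165585408 trC0a_14 trC0a_15))) trC0a_16) (.fst 1065123609735309370610155520 (.snd 14236310451781873161339928576 trC0a_17 trC0a_18) trC0a_19)) trC0a_20)) trC0a_21) (.fst 3309756489008720182771712000 (.snd 17331160549995323848587739136 trC0a_22 trC0a_23) trC0a_24)) trC0a_25)) trC0a_26) (.fst 12288288005886190649304154112 trC0a_27 trC0a_28)) (.snd 19807040628566084398385987584 trC0a_29 trC0a_30)) (.fst 24259663361794875532052004864 trC0a_31 (.snd 59421121885698253195157962752 (.fst 36231038717703560414799855616 (.snd 49517601571415210995964968960 trC0a_32 trC0a_33) (.snd 49517601571415210995964968960 trC0a_34 (.fst 42216726395621874059154817024 trC0a_35 trC0a_36))) (.fst 36231038717703560414799855616 trC0a_37 (.snd 69324642199981295394350956544 (.fst 42216726395621874059154817024 trC0a_38 trC0a_39) trC0a_40)))))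

lemma trC0a_ok : trC0a.check cell0 316912650049563360594231296 48202414073678422991912139385 0 79228162514264337593543950336 = true := by
  simp only [trC0a, Tr.check, trC0a_0_ok, trC0a_1_ok, trC0a_2_ok, trC0a_3_ok, trC0a_4_ok, trC0a_5_ok, trC0a_6_ok, trC0a_7_ok, trC0a_8_ok, trC0a_9_ok, trC0a_10_ok, trC0a_11_ok, trC0a_12_ok, trC0a_13_ok, trC0a_14_ok, trC0a_15_ok, trC0a_16_ok, trC0a_17_ok, trC0a_18_ok, trC0a_19_ok, trC0a_20_ok, trC0a_21_ok, trC0a_22_ok, trC0a_23_ok, trC0a_24_ok, trC0a_25_ok, trC0a_26_ok, trC0a_27_ok, trC0a_28_ok, trC0a_29_ok, trC0a_30_ok, trC0a_31_ok, trC0a_32_ok, trC0a_33_ok, trC0a_34_ok, trC0a_35_ok, trC0a_36_ok, trC0a_37_ok, trC0a_38_ok, trC0a_39_ok, trC0a_40_ok, Bool.and_self]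

end Vale.Agent.P322.IV
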