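import Vale.Agent.P322.General.Conds

/-!
A subdivision certificate for `cellK`.
-/

namespace Vale.Agent.P322.IV

def trK_0 : Tr :=
.leaf

lemma trK_0_ok : trK_0.check cellK 0 316912650049563360594231296 0 1980704062827785402223427584 = true := by decide +kernel

def trK : Tr := trK_0

lemma trK_ok : trK.check cellK 0 316912650049563360594231296 0 1980704062827785402223427584 = true := trK_0_ok

end Vale.Agent.P322.IV
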