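import Vale.Agent.P322.General.CertRp0
import Vale.Agent.P322.General.CertRp1
import Vale.Agent.P322.General.CertRp2


/-!
A subdivision certificate for `cellR`.
-/

namespace Vale.Agent.P322.IV

def trR : Tr := (.snd 39614081257132168796771975168 trR_0 (.snd 59421121885698253195157962752 (.fst 39614081257132168796771975168 (.snd 49517601571415210995964968960 trR_1 (.fst 19807040628566084398385987584 trR_2 (.snd 54469361728556732095561465856 trR_3 trR_4))) (.snd 49517601571415210995964968960 (.fst 59421121885698253195157962752 trR_5 (.snd 44565841414273689896368472064 trR_6 trR_7)) trR_8)) (.fst 39614081257132168796771975168 (.snd 69324642199981295394350956544 (.fst 19807040628566084398385987584 trR_9 trR_10) (.fst 19807040628566084398385987584 (.snd 74276402357122816493947453440 trR_11 trR_12) trR_13)) trR_14)))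

lemma trR_ok : trR.check cellR 0 79228162514264337593543950336 0 79228162514264337593543950336 = true := by
  simp only [trR, Tr.check, trR_0_ok, trR_1_ok, trR_2_ok, trR_3_ok, trR_4_ok, trR_5_ok, trR_6_ok, trR_7_ok, trR_8_ok, trR_9_ok, trR_10_ok, trR_11_ok, trR_12_ok, trR_13_ok, trR_14_ok, Bool.and_self]

end Vale.Agent.P322.IV
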