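import Vale.Agent.P322.General.Conds

/-!
A subdivision certificate for `cellT`.
-/

namespace Vale.Agent.P322.IV

def trT_0 : Tr :=
(.snd 39614081257132168796771975168
(.snd 19807040628566084398385987584
.leaf (.snd 29710560942849126597578981376
.leaf .leaf)) (.snd 59421121885698253195157962752
(.snd 49517601571415210995964968960
(.snd 44565841414273689896368472064
.leaf .leaf) (.snd 54469361728556732095561465856
(.snd 51993481649985971545763217408
.leaf .leaf) (.snd 56945241807127492645359714304
.leaf (.fst 76122418543692147546874970112
.leaf .leaf)))) (.snd 69324642199981295394350956544
(.snd 64372882042839774294754459648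
(.snd 61897001964269013744956211200
(.fst 76122418543692147546874970112
.leaf .leaf) (.fst 76122418543692147546874970112
(.snd 63134942003554394019855335424
.leaf .leaf) .leaf)) (.snd 66848762121410534844552708096
(.fst 76122418543692147546874970112
(.snd 65610822082125154569653583872
.leaf .leaf) .leaf) (.fst 76122418543692147546874970112
(.snd 68086702160695915119451832320
.leaf .leaf) .leaf))) (.snd 74276402357122816493947453440
(.snd 71800522278552055944149204992
(.fst 76122418543692147546874970112
(.snd 70562582239266675669250080768
.leaf .leaf) .leaf) (.fst 76122418543692147546874970112
(.snd 73038462317837436219048329216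
.leaf .leaf) .leaf)) .leaf))))

lemma trT_0_ok : trT_0.check cellT 73016674573146013526210104629 79228162514264337593543950336 0 79228162514264337593543950336 = true := by decide +kernel

def trT : Tr := trT_0

lemma trT_ok : trT.check cellT 73016674573146013526210104629 79228162514264337593543950336 0 79228162514264337593543950336 = true := trT_0_ok

end Vale.Agent.P322.IV
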