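import Vale.Agent.P322.General.Interval

/-!
The scalar conditions checked by certificates, as expressions over reals or intervals.
-/

namespace Vale.Agent.P322.IV

variable {α : Type} [Alg α]

/-- a natural number constant. -/
def nc (n : ℕ) : α := cst n 1

def beE : α := cst 5 4 - cst 1 2 / l2
def rE : α := cst 49 75

/-! functions of the squared half gap `d2` and the squared middle mean `m2` -/

def pP (d2 : α) : α := nc 1 + nc 32 * d2
def pPi (d2 m2 : α) : α :=
  ((nc 1 + nc 32 * (m2 + d2)) * (nc 1 + nc 32 * (m2 + d2)) - nc 4096 * (m2 * d2))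
    * (nc 1 + nc 32 * m2)
def pPoly (d2 m2 : α) : α :=
  nc 2 * pP d2 - nc 128 * d2 + pP d2 * pP d2 + nc 99
    + m2 * ((nc 32 + nc 64 * pP d2) - nc 4096 * d2 + nc 1024 * m2)
def pPhi (d2 m2 : α) : α :=
  mx (nc 0) ((cst 5 4 + beE * cst 1 32) - d2 * cst 1 4 - cst 3 2 * m2
    + beE * cst 33 32 * ((nc 96 * m2 - (nc 1 + nc 32 * d2)) / pPi d2 m2))

/-! the bound on the slope, in the coordinates `A`, `k` -/

def uA (A : α) : α := nc 1 - (nc 1 - l2) * (nc 1 - A)
def rak (A k : α) : α := nc 1 - A * k
def mak (A k : α) : α := (nc 1 - k) * rak A k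
def c1E (A k : α) : α := cst 1 4 - beE * (pP (k * k * A) / pPi (k * k * A) (mak A k))
def c2E (A k : α) : α := beE * (pPoly (k * k * A) (mak A k) / pPi (k * k * A) (mak A k)) - cst 3 2
def brA (A k : α) : α := nc 1 - k * (uA A * ((nc 1 + k) * c1E A k + rak A k * c2E A k))
def brB (A k : α) : α := (nc 1 - l2) - k * k * (uA A * c1E A k)
def rhoD (A k : α) : α := nc 1 - pPhi (k * k * A) (mak A k) * k * uA A
def rhoC (A k : α) : α := (nc 1 - k) * brA A k + k * ((nc 1 - A) * brB A k)

/-! the coordinates `A`, `s` -/

def rAs (A s : α) : α := nc 1 / (nc 1 + (nc 1 / (nc 1 - A) - nc 1) * (nc 1 - s * s))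
def kFst (A s : α) : α := (nc 1 - s * s) / (nc 1 - A * (s * s))
def kSnd (A s : α) : α := nc 1 / (nc 1 + (nc 1 - A) * (nc 1 / (nc 1 - s * s) - nc 1))
def m2s (A s : α) : α := s * s * (rAs A s * rAs A s)
def fs (A s : α) : α := nc 1 / (nc 1 + nc 32 * m2s A s)
def rs (A s : α) : α := nc 1 + A * (s * s * rAs A s)
def Xs (A s : α) : α :=
  rs A s * (nc 1 + beE * cst 1 32 * (nc 1 - fs A s) - m2s A s * cst 1 4)
def Phis (A s k : α) : α := pPhi (k * k * A) (m2s A s)
def rhos (A s k : α) : α := Phis A s k * k * uA A
def qhA (A : α) : α := (nc 0 - lg (nc 1 - A)) * cst 1 2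
def qlA (A : α) : α := mx (nc 0) (qhA A - (l2 - cst 1 2))
def xlo (A : α) : α := l2 + qhA A - (A + A * A / (nc 3 * (nc 1 - A)))
def eE (s : α) : α := cst 306 1000 * ((nc 1 - s) * (nc 1 + s * cst 1 2))
def TE (A s : α) : α := beE * s * rs A s * fs A s * (rAs A s * rAs A s)
def lnX (A s : α) : α := rE * lg (mx (nc 1) (Xs A s))
def lnXl (A s : α) : α := rE * lg (mx (nc 1) (Xs A s * l2 / xlo A))
def x1E (A s : α) : α := xlo A - s * (eE s * ((nc 1 - A) * (l2 + qhA A)))

/-- small `A`, crossing, first bound. -/
def condA (A s k : α) : α :=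
  A * (eE s * (nc 1 - rhos A s k)) - TE A s * (qhA A + lnX A s)
/-- small `A`, crossing, second bound. -/
def condB (A s k : α) : α := A * (eE s * (nc 1 - rhos A s k)) - TE A s * lnXl A s
/-- small `A`, crossing, direct bound. -/
def condC (A s k : α) : α :=
  s * eE s + A * cst 1 6 - k * Phis A s k * (rE * lg (mx (nc 1) (Xs A s * l2 / x1E A s)))

def n0A (A : α) : α :=
  A * (cst 1 6 + A * (cst 2 15 + A * (cst 3 28 + A * (cst 4 45 + A * (cst 5 66 + A * (cst 6 91
    + A * (cst 7 120 + A * (cst 8 153 + A * (cst 9 190 + A * (cst 10 231 + A * (cst 11 276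
    + A * cst 12 325)))))))))))

/-- no crossing. -/
def condD (A s k : α) : α := n0A A - k * Phis A s k * (qhA A + lnX A s)

def c1c : α := cst 65 1000
def c2c : α := cst 9 100

/-- middle `A`, linear in the profile value `q`. -/
def condL (A s k e q : α) : α :=
  s * rAs A s * (c1c * A - beE * rs A s * fs A s * rAs A s) * q
    + A * (e * (nc 1 - rhos A s k)) - TE A s * lnX A s

/-! large `A`, in the coordinates `A`, `k` -/

def fak (A k : α) : α := nc 1 / (nc 1 + nc 32 * mak A k)
def rrk (A k : α) : α := nc 1 + A * (nc 1 - k)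
def Xak (A k : α) : α :=
  rrk A k * (nc 1 + beE * cst 1 32 * (nc 1 - fak A k) - mak A k * cst 1 4)
def condT (A k : α) : α :=
  c2c * A - beE * rrk A k * fak A k * rak A k * (nc 1 + rE * lg (mx (nc 1) (Xak A k)) / cst 119 100)

/-! the crossing of the two lines -/

def LgE (s : α) : α :=
  nc 1 + s * (nc 0 - cst 1 2 + s * (cst 1 3 + s * (nc 0 - cst 1 4 + cst 1098 10000 * s)))
def e1E (s : α) : α := cst 306 1000 * (nc 1 + s * cst 1 2)
def DAs (A s : α) : α := nc 1 - A * (s * s)
def mainE (A s : α) : α :=
  (l2 + qhA A) * (nc 1 - e1E s * (nc 1 + s) * ((nc 2 - s * (nc 1 + A))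
      + (nc 1 - s) * (nc 1 - s) * eE s))
    + e1E s * (nc 1 + s) * (DAs A s * (LgE s + A * (s * cst 1 2)))
def yAs (A s : α) : α := s * s * ((nc 1 - A) / DAs A s)
def serE (A s : α) : α :=
  (cst 1 2 + yAs A s * (cst 1 4 + yAs A s * cst 1 6))
    - (nc 1 + s * s * (cst 1 3 + s * s * (cst 1 5 + s * s / (nc 7 * (nc 1 - s * s)))))
def logE (A s : α) : α :=
  lg (DAs A s) / (nc 2 * yAs A s) - lg (nc 1 + s) / s
    + (nc 0 - lg (nc 1 - s * s)) * ((DAs A s - s * (nc 1 - A)) / (nc 2 * (s * s * (nc 1 - A))))
def crossA (A s : α) : α := mainE A s + serE A s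
def crossB (A s : α) : α := mainE A s + logE A s

/-! the corner -/

def cornA (A s k : α) : α :=
  eE s * (nc 1 - rhos A s k) - nc 4 * (beE * rs A s * fs A s * (rAs A s * rAs A s)) * lnXl A s
def cornG (A s : α) : α :=
  l2 * (s * rAs A s * (A * (nc 1 + beE * m2s A s) + beE * rAs A s))
    + cst 1 4 * (cst 1 2 + A / (nc 3 * (nc 1 - A)))
    + eE s * ((nc 1 - A) * (l2 + qhA A))
def cornB (A s k : α) : α :=
  eE s * x1E A s - k * Phis A s k * (rE * cornG A s)

/-! the profile at `t = 24/25` -/

def pAt (t : α) : α := (lg (nc 1 + t) - lg (nc 1 - t)) * cst 1 2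
def qAt (t : α) : α :=
  pAt t * t + (l2 + qhA (t * t) - pAt t * t) * (nc 1 + t / ((nc 1 - t * t) * pAt t)) - nc 2 * l2
def qPt : α := qAt (cst 24 25) - cst 119 100

section mem
variable {A s k e q d2 m2 : ℝ} {iA is ik ie iq id2 im2 : I}

lemma mem_beE : Mem (beE : ℝ) (beE : I) :=
  mem_sub (mem_cst 5 4) (mem_div (mem_cst 1 2) mem_l2)
lemma mem_rE : Mem (rE : ℝ) (rE : I) := mem_cst 49 75

lemma mem_pP (h : Mem d2 id2) : Mem (pP d2) (pP id2) := by
  unfold pP nc
  repeat' (first | assumption | apply mem_cst | apply mem_l2 | apply mem_add | apply mem_sub | apply mem_mul | apply mem_div | apply mem_lg | apply mem_mx)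
lemma mem_pPi (h : Mem d2 id2) (h' : Mem m2 im2) : Mem (pPi d2 m2) (pPi id2 im2) := by
  unfold pPi nc
  repeat' (first | assumption | apply mem_cst | apply mem_l2 | apply mem_add | apply mem_sub | apply mem_mul | apply mem_div | apply mem_lg | apply mem_mx)
lemma mem_pPoly (h : Mem d2 id2) (h' : Mem m2 im2) : Mem (pPoly d2 m2) (pPoly id2 im2) := by
  unfold pPoly pP nc
  repeat' (first | assumption | apply mem_cst | apply mem_l2 | apply mem_add | apply mem_sub | apply mem_mul | apply mem_div | apply mem_lg | apply mem_mx)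
lemma mem_pPhi (h : Mem d2 id2) (h' : Mem m2 im2) : Mem (pPhi d2 m2) (pPhi id2 im2) := by
  unfold pPhi pPi beE nc
  repeat' (first | assumption | apply mem_cst | apply mem_l2 | apply mem_add | apply mem_sub | apply mem_mul | apply mem_div | apply mem_lg | apply mem_mx)

lemma mem_rhoParts (hA : Mem A iA) (hk : Mem k ik) :
    Mem (brA A k) (brA iA ik) ∧ Mem (brB A k) (brB iA ik) ∧ Mem (rhoC A k) (rhoC iA ik) := by
  have hm : Mem (mak A k) (mak iA ik) := by
    unfold mak rak nc
    repeat' (first | assumption | apply mem_cst | apply mem_l2 | apply mem_add | apply mem_sub | apply mem_mul | apply mem_div | apply mem_lg | apply mem_mx)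
  have hu : Mem (uA A) (uA iA) := by
    unfold uA nc
    repeat' (first | assumption | apply mem_cst | apply mem_l2 | apply mem_add | apply mem_sub | apply mem_mul | apply mem_div | apply mem_lg | apply mem_mx)
  have hr : Mem (rak A k) (rak iA ik) := by
    unfold rak nc
    repeat' (first | assumption | apply mem_cst | apply mem_l2 | apply mem_add | apply mem_sub | apply mem_mul | apply mem_div | apply mem_lg | apply mem_mx)
  have h2 := mem_pPi (mem_mul (mem_mul hk hk) hA) hm
  have h3 := mem_pP (mem_mul (mem_mul hk hk) hA)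
  have h4 := mem_pPoly (mem_mul (mem_mul hk hk) hA) hm
  have hb := mem_beE
  have c1 : Mem (c1E A k) (c1E iA ik) := by
    unfold c1E
    repeat' (first | assumption | apply mem_cst | apply mem_l2 | apply mem_add | apply mem_sub | apply mem_mul | apply mem_div | apply mem_lg | apply mem_mx)
  have c2 : Mem (c2E A k) (c2E iA ik) := by
    unfold c2E
    repeat' (first | assumption | apply mem_cst | apply mem_l2 | apply mem_add | apply mem_sub | apply mem_mul | apply mem_div | apply mem_lg | apply mem_mx)
  have a : Mem (brA A k) (brA iA ik) := by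
    unfold brA nc
    repeat' (first | assumption | apply mem_cst | apply mem_l2 | apply mem_add | apply mem_sub | apply mem_mul | apply mem_div | apply mem_lg | apply mem_mx)
  have b : Mem (brB A k) (brB iA ik) := by
    unfold brB nc
    repeat' (first | assumption | apply mem_cst | apply mem_l2 | apply mem_add | apply mem_sub | apply mem_mul | apply mem_div | apply mem_lg | apply mem_mx)
  exact ⟨a, b, by
    unfold rhoC nc
    repeat' (first | assumption | apply mem_cst | apply mem_l2 | apply mem_add | apply mem_sub | apply mem_mul | apply mem_div | apply mem_lg | apply mem_mx)⟩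

lemma mem_rhoD (hA : Mem A iA) (hk : Mem k ik) : Mem (rhoD A k) (rhoD iA ik) := by
  have hm : Mem (mak A k) (mak iA ik) := by
    unfold mak rak nc
    repeat' (first | assumption | apply mem_cst | apply mem_l2 | apply mem_add | apply mem_sub | apply mem_mul | apply mem_div | apply mem_lg | apply mem_mx)
  have := mem_pPhi (mem_mul (mem_mul hk hk) hA) hm
  unfold rhoD uA nc
  repeat' (first | assumption | apply mem_cst | apply mem_l2 | apply mem_add | apply mem_sub | apply mem_mul | apply mem_div | apply mem_lg | apply mem_mx)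

lemma mem_rAs (hA : Mem A iA) (hs : Mem s is) : Mem (rAs A s) (rAs iA is) := by
  unfold rAs nc
  repeat' (first | assumption | apply mem_cst | apply mem_l2 | apply mem_add | apply mem_sub | apply mem_mul | apply mem_div | apply mem_lg | apply mem_mx)
lemma mem_kFst (hA : Mem A iA) (hs : Mem s is) : Mem (kFst A s) (kFst iA is) := by
  unfold kFst nc
  repeat' (first | assumption | apply mem_cst | apply mem_l2 | apply mem_add | apply mem_sub | apply mem_mul | apply mem_div | apply mem_lg | apply mem_mx)
lemma mem_kSnd (hA : Mem A iA) (hs : Mem s is) : Mem (kSnd A s) (kSnd iA is) := by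
  unfold kSnd nc
  repeat' (first | assumption | apply mem_cst | apply mem_l2 | apply mem_add | apply mem_sub | apply mem_mul | apply mem_div | apply mem_lg | apply mem_mx)
lemma mem_m2s (hA : Mem A iA) (hs : Mem s is) : Mem (m2s A s) (m2s iA is) := by
  have := mem_rAs hA hs; unfold m2s
  repeat' (first | assumption | apply mem_cst | apply mem_l2 | apply mem_add | apply mem_sub | apply mem_mul | apply mem_div | apply mem_lg | apply mem_mx)
lemma mem_fs (hA : Mem A iA) (hs : Mem s is) : Mem (fs A s) (fs iA is) := by
  have := mem_m2s hA hs; unfold fs nc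
  repeat' (first | assumption | apply mem_cst | apply mem_l2 | apply mem_add | apply mem_sub | apply mem_mul | apply mem_div | apply mem_lg | apply mem_mx)
lemma mem_rs (hA : Mem A iA) (hs : Mem s is) : Mem (rs A s) (rs iA is) := by
  have := mem_rAs hA hs; unfold rs nc
  repeat' (first | assumption | apply mem_cst | apply mem_l2 | apply mem_add | apply mem_sub | apply mem_mul | apply mem_div | apply mem_lg | apply mem_mx)
lemma mem_Xs (hA : Mem A iA) (hs : Mem s is) : Mem (Xs A s) (Xs iA is) := by
  have := mem_rs hA hs; have := mem_fs hA hs; have := mem_m2s hA hs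
  unfold Xs beE nc
  repeat' (first | assumption | apply mem_cst | apply mem_l2 | apply mem_add | apply mem_sub | apply mem_mul | apply mem_div | apply mem_lg | apply mem_mx)
lemma mem_Phis (hA : Mem A iA) (hs : Mem s is) (hk : Mem k ik) :
    Mem (Phis A s k) (Phis iA is ik) := mem_pPhi (mem_mul (mem_mul hk hk) hA) (mem_m2s hA hs)
lemma mem_rhos (hA : Mem A iA) (hs : Mem s is) (hk : Mem k ik) :
    Mem (rhos A s k) (rhos iA is ik) := by
  have := mem_Phis hA hs hk; unfold rhos uA nc
  repeat' (first | assumption | apply mem_cst | apply mem_l2 | apply mem_add | apply mem_sub | apply mem_mul | apply mem_div | apply mem_lg | apply mem_mx)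
lemma mem_qhA (hA : Mem A iA) : Mem (qhA A) (qhA iA) := by
  unfold qhA nc
  repeat' (first | assumption | apply mem_cst | apply mem_l2 | apply mem_add | apply mem_sub | apply mem_mul | apply mem_div | apply mem_lg | apply mem_mx)
lemma mem_qlA (hA : Mem A iA) : Mem (qlA A) (qlA iA) := by
  have := mem_qhA hA; unfold qlA nc
  repeat' (first | assumption | apply mem_cst | apply mem_l2 | apply mem_add | apply mem_sub | apply mem_mul | apply mem_div | apply mem_lg | apply mem_mx)
lemma mem_xlo (hA : Mem A iA) : Mem (xlo A) (xlo iA) := by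
  have := mem_qhA hA; unfold xlo nc
  repeat' (first | assumption | apply mem_cst | apply mem_l2 | apply mem_add | apply mem_sub | apply mem_mul | apply mem_div | apply mem_lg | apply mem_mx)
lemma mem_eE (hs : Mem s is) : Mem (eE s) (eE is) := by
  unfold eE nc
  repeat' (first | assumption | apply mem_cst | apply mem_l2 | apply mem_add | apply mem_sub | apply mem_mul | apply mem_div | apply mem_lg | apply mem_mx)
lemma mem_TE (hA : Mem A iA) (hs : Mem s is) : Mem (TE A s) (TE iA is) := by
  have := mem_rAs hA hs; have := mem_rs hA hs; have := mem_fs hA hs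
  unfold TE beE
  repeat' (first | assumption | apply mem_cst | apply mem_l2 | apply mem_add | apply mem_sub | apply mem_mul | apply mem_div | apply mem_lg | apply mem_mx)
lemma mem_lnX (hA : Mem A iA) (hs : Mem s is) : Mem (lnX A s) (lnX iA is) := by
  have := mem_Xs hA hs; unfold lnX rE nc
  repeat' (first | assumption | apply mem_cst | apply mem_l2 | apply mem_add | apply mem_sub | apply mem_mul | apply mem_div | apply mem_lg | apply mem_mx)
lemma mem_lnXl (hA : Mem A iA) (hs : Mem s is) : Mem (lnXl A s) (lnXl iA is) := by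
  have := mem_Xs hA hs; have := mem_xlo hA; unfold lnXl rE nc
  repeat' (first | assumption | apply mem_cst | apply mem_l2 | apply mem_add | apply mem_sub | apply mem_mul | apply mem_div | apply mem_lg | apply mem_mx)
lemma mem_x1E (hA : Mem A iA) (hs : Mem s is) : Mem (x1E A s) (x1E iA is) := by
  have := mem_xlo hA; have := mem_eE hs; have := mem_qhA hA; unfold x1E nc
  repeat' (first | assumption | apply mem_cst | apply mem_l2 | apply mem_add | apply mem_sub | apply mem_mul | apply mem_div | apply mem_lg | apply mem_mx)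

lemma mem_condA (hA : Mem A iA) (hs : Mem s is) (hk : Mem k ik) :
    Mem (condA A s k) (condA iA is ik) := by
  have := mem_eE hs; have := mem_rhos hA hs hk; have := mem_TE hA hs; have := mem_qhA hA
  have := mem_lnX hA hs; unfold condA nc
  repeat' (first | assumption | apply mem_cst | apply mem_l2 | apply mem_add | apply mem_sub | apply mem_mul | apply mem_div | apply mem_lg | apply mem_mx)
lemma mem_condB (hA : Mem A iA) (hs : Mem s is) (hk : Mem k ik) :
    Mem (condB A s k) (condB iA is ik) := by
  have := mem_eE hs; have := mem_rhos hA hs hk; have := mem_TE hA hs; have := mem_lnXl hA hs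
  unfold condB nc
  repeat' (first | assumption | apply mem_cst | apply mem_l2 | apply mem_add | apply mem_sub | apply mem_mul | apply mem_div | apply mem_lg | apply mem_mx)
lemma mem_condC (hA : Mem A iA) (hs : Mem s is) (hk : Mem k ik) :
    Mem (condC A s k) (condC iA is ik) := by
  have := mem_eE hs; have := mem_Phis hA hs hk; have := mem_Xs hA hs; have := mem_x1E hA hs
  unfold condC rE nc
  repeat' (first | assumption | apply mem_cst | apply mem_l2 | apply mem_add | apply mem_sub | apply mem_mul | apply mem_div | apply mem_lg | apply mem_mx)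
lemma mem_condD (hA : Mem A iA) (hs : Mem s is) (hk : Mem k ik) :
    Mem (condD A s k) (condD iA is ik) := by
  have := mem_Phis hA hs hk; have := mem_qhA hA; have := mem_lnX hA hs
  unfold condD n0A
  repeat' (first | assumption | apply mem_cst | apply mem_l2 | apply mem_add | apply mem_sub | apply mem_mul | apply mem_div | apply mem_lg | apply mem_mx)
lemma mem_condL (hA : Mem A iA) (hs : Mem s is) (hk : Mem k ik) (he : Mem e ie) (hq : Mem q iq) :
    Mem (condL A s k e q) (condL iA is ik ie iq) := by
  have := mem_rAs hA hs; have := mem_rs hA hs; have := mem_fs hA hs; have := mem_rhos hA hs hk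
  have := mem_TE hA hs; have := mem_lnX hA hs
  unfold condL c1c beE nc
  repeat' (first | assumption | apply mem_cst | apply mem_l2 | apply mem_add | apply mem_sub | apply mem_mul | apply mem_div | apply mem_lg | apply mem_mx)
lemma mem_Xak (hA : Mem A iA) (hk : Mem k ik) : Mem (Xak A k) (Xak iA ik) := by
  unfold Xak rrk fak mak rak beE nc
  repeat' (first | assumption | apply mem_cst | apply mem_l2 | apply mem_add | apply mem_sub | apply mem_mul | apply mem_div | apply mem_lg | apply mem_mx)
lemma mem_condT (hA : Mem A iA) (hk : Mem k ik) : Mem (condT A k) (condT iA ik) := by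
  have := mem_Xak hA hk; unfold condT c2c rrk fak mak rak rE beE nc
  repeat' (first | assumption | apply mem_cst | apply mem_l2 | apply mem_add | apply mem_sub | apply mem_mul | apply mem_div | apply mem_lg | apply mem_mx)
lemma mem_mainE (hA : Mem A iA) (hs : Mem s is) : Mem (mainE A s) (mainE iA is) := by
  have := mem_qhA hA; have := mem_eE hs; unfold mainE e1E DAs LgE nc
  repeat' (first | assumption | apply mem_cst | apply mem_l2 | apply mem_add | apply mem_sub | apply mem_mul | apply mem_div | apply mem_lg | apply mem_mx)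
lemma mem_crossA (hA : Mem A iA) (hs : Mem s is) : Mem (crossA A s) (crossA iA is) := by
  have := mem_mainE hA hs; unfold crossA serE yAs DAs nc
  repeat' (first | assumption | apply mem_cst | apply mem_l2 | apply mem_add | apply mem_sub | apply mem_mul | apply mem_div | apply mem_lg | apply mem_mx)
lemma mem_crossB (hA : Mem A iA) (hs : Mem s is) : Mem (crossB A s) (crossB iA is) := by
  have := mem_mainE hA hs; unfold crossB logE yAs DAs nc
  repeat' (first | assumption | apply mem_cst | apply mem_l2 | apply mem_add | apply mem_sub | apply mem_mul | apply mem_div | apply mem_lg | apply mem_mx)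
lemma mem_cornA (hA : Mem A iA) (hs : Mem s is) (hk : Mem k ik) :
    Mem (cornA A s k) (cornA iA is ik) := by
  have := mem_eE hs; have := mem_rhos hA hs hk; have := mem_rs hA hs; have := mem_fs hA hs
  have := mem_rAs hA hs; have := mem_lnXl hA hs
  unfold cornA beE nc
  repeat' (first | assumption | apply mem_cst | apply mem_l2 | apply mem_add | apply mem_sub | apply mem_mul | apply mem_div | apply mem_lg | apply mem_mx)
lemma mem_cornB (hA : Mem A iA) (hs : Mem s is) (hk : Mem k ik) :
    Mem (cornB A s k) (cornB iA is ik) := by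
  have := mem_eE hs; have := mem_Phis hA hs hk; have := mem_x1E hA hs; have := mem_m2s hA hs
  have := mem_rAs hA hs; have := mem_qhA hA
  unfold cornB cornG rE beE nc
  repeat' (first | assumption | apply mem_cst | apply mem_l2 | apply mem_add | apply mem_sub | apply mem_mul | apply mem_div | apply mem_lg | apply mem_mx)
lemma mem_qPt : Mem (qPt : ℝ) (qPt : I) := by
  unfold qPt qAt pAt qhA nc
  repeat' (first | assumption | apply mem_cst | apply mem_l2 | apply mem_add | apply mem_sub | apply mem_mul | apply mem_div | apply mem_lg | apply mem_mx)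

end mem

/-- `24/25` of the unit. -/
def s96 : ℕ := Cert.PP * 24 / 25

def kI (A s : I) (d : ℕ) : I := if d ≤ s96 then kSnd A s else kFst A s

def cellR (a b c d : ℕ) : Bool :=
  let A := box a b
  let k := box c d
  nn (rhoD A k) || (nn (brA A k) && nn (brB A k)) || nn (rhoC A k)

def cell0 (a b c d : ℕ) : Bool :=
  let A := box a b
  let s := box c d
  let k := kI A s d
  le1 (Xs A s)
    || (decide (d ≤ s96) && (nn (condA A s k) || (pos (xlo A) && nn (condB A s k))
      || (pos (x1E A s) && nn (condC A s k))))
    || nn (condD A s k)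

def cell1 (a b c d : ℕ) : Bool :=
  let A := box a b
  let s := box c d
  let k := kI A s d
  (decide (d ≤ s96) && nn (condL A s k (eE s) (qlA A)) && nn (condL A s k (eE s) (qhA A)))
    || nn (condD A s k)
    || (nn (condL A s k (nc 0) (qlA A)) && nn (condL A s k (nc 0) (qhA A)))

def cellT (a b c d : ℕ) : Bool := nn (condT (box a b) (box c d))

def cellX (a b c d : ℕ) : Bool :=
  nn (crossA (box a b) (box c d)) || nn (crossB (box a b) (box c d))

def cellK (a b c d : ℕ) : Bool :=
  pos (xlo (box a b)) && pos (x1E (box a b) (box c d))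
    && nn (cornA (box a b) (box c d) (kI (box a b) (box c d) d))
    && nn (cornB (box a b) (box c d) (kI (box a b) (box c d) d))

end Vale.Agent.P322.IV
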