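import Vale.Agent.P322.Pair

/-!
The hyperbolic cotangent and the domain of the pair coordinates.
-/

noncomputable section
namespace Vale.Agent.P322.General
open Real Set

/-- hyperbolic cotangent. -/
def ct (x : ℝ) : ℝ := cosh x / sinh x

/-- `exp (-2 c)` in the coordinates `p`, `R`. -/
def Ee (p R : ℝ) : ℝ := R * sinh (2 * p) - cosh (2 * p)

/-- the pair domain. -/
def InD (p R : ℝ) : Prop := 0 < p ∧ 0 < Ee p R ∧ Ee p R ≤ 1

lemma hasDerivAt_ct {x : ℝ} (hx : 0 < x) : HasDerivAt ct (-(1 / sinh x ^ 2)) x := by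
  have hs : sinh x ≠ 0 := (sinh_pos_iff.2 hx).ne'
  refine ((hasDerivAt_cosh x).div (hasDerivAt_sinh x) hs).congr_deriv ?_
  have := cosh_sq_sub_sinh_sq x
  field_simp
  linarith

lemma convexOn_ct : ConvexOn ℝ (Ioi 0) ct := by
  refine MonotoneOn.convexOn_of_deriv (convex_Ioi 0)
    (fun x hx => (hasDerivAt_ct hx).continuousAt.continuousWithinAt)
    (fun x hx => (hasDerivAt_ct (interior_subset hx)).differentiableAt.differentiableWithinAt) ?_
  rw [interior_Ioi]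
  intro x hx y hy hxy
  rw [(hasDerivAt_ct hx).deriv, (hasDerivAt_ct hy).deriv]
  refine neg_le_neg (one_div_le_one_div_of_le (pow_pos (sinh_pos_iff.2 hx) 2) ?_)
  exact pow_le_pow_left₀ (sinh_pos_iff.2 hx).le (sinh_le_sinh.2 hxy) 2

lemma sinh_two_pos {p : ℝ} (hp : 0 < p) : 0 < sinh (2 * p) := sinh_pos_iff.2 (by linarith)

lemma Ee_pos_iff {p R : ℝ} (hp : 0 < p) : 0 < Ee p R ↔ ct (2 * p) < R := by
  rw [Ee, ct, div_lt_iff₀ (sinh_two_pos hp), sub_pos]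

lemma ct_mul {p : ℝ} (hp : 0 < p) : ct p * sinh (2 * p) = 1 + cosh (2 * p) := by
  have := (sinh_pos_iff.2 hp).ne'
  rw [ct, sinh_two_mul, cosh_two_mul]
  field_simp
  linarith [cosh_sq_sub_sinh_sq p]

lemma Ee_le_one_iff {p R : ℝ} (hp : 0 < p) : Ee p R ≤ 1 ↔ R ≤ ct p := by
  have h := mul_le_mul_iff_left₀ (b := R) (c := ct p) (sinh_two_pos hp)
  rw [ct_mul hp] at h
  rw [Ee, ← h]
  constructor <;> intro <;> linarith

lemma Ee_ct {p : ℝ} (hp : 0 < p) : Ee p (ct p) = 1 := by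
  rw [Ee, ct_mul hp]; ring

lemma ct_two_lt {p : ℝ} (hp : 0 < p) : ct (2 * p) < ct p := by
  rw [← Ee_pos_iff hp, Ee_ct hp]; exact one_pos

/-- where a segment runs below, above and below the upper curve. -/
lemma segment_cut {p0 R0 p1 R1 : ℝ} (h0 : InD p0 R0) (h1 : InD p1 R1) :
    (∀ l ∈ Icc (0:ℝ) 1, InD (p0 + l * (p1 - p0)) (R0 + l * (R1 - R0))) ∨
    ∃ l1 l2 : ℝ, 0 ≤ l1 ∧ l1 ≤ l2 ∧ l2 ≤ 1 ∧
      (∀ l ∈ Icc (0:ℝ) l1, InD (p0 + l * (p1 - p0)) (R0 + l * (R1 - R0))) ∧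
      (∀ l ∈ Icc l2 1, InD (p0 + l * (p1 - p0)) (R0 + l * (R1 - R0))) ∧
      R0 + l1 * (R1 - R0) = ct (p0 + l1 * (p1 - p0)) ∧
      R0 + l2 * (R1 - R0) = ct (p0 + l2 * (p1 - p0)) := by
  obtain ⟨p0p, e0, f0⟩ := h0
  obtain ⟨p1p, e1, f1⟩ := h1
  rw [Ee_pos_iff p0p] at e0
  rw [Ee_pos_iff p1p] at e1
  rw [Ee_le_one_iff p0p] at f0
  rw [Ee_le_one_iff p1p] at f1
  set P := fun l : ℝ => p0 + l * (p1 - p0) with hP
  set Q := fun l : ℝ => R0 + l * (R1 - R0) with hQ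
  have hPpos : ∀ l ∈ Icc (0:ℝ) 1, 0 < P l := fun l hl => by
    simp only [hP]
    nlinarith [hl.1, hl.2, mul_nonneg hl.1 p1p.le, mul_nonneg (sub_nonneg.2 hl.2) p0p.le]
  have hlow : ∀ l ∈ Icc (0:ℝ) 1, ct (2 * P l) < Q l := by
    intro l hl
    have hc := convexOn_ct.2 (show 2 * p0 ∈ Ioi (0:ℝ) by simpa using p0p)
      (show 2 * p1 ∈ Ioi (0:ℝ) by simpa using p1p) (sub_nonneg.2 hl.2) hl.1 (by ring)
    simp only [smul_eq_mul] at hc
    rw [show (1 - l) * (2 * p0) + l * (2 * p1) = 2 * P l by simp only [hP]; ring] at hc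
    refine lt_of_le_of_lt hc ?_
    simp only [hQ]
    rcases hl.1.eq_or_lt with e | e
    · subst e; simpa using e0
    · nlinarith [mul_lt_mul_of_pos_left e1 e,
        mul_le_mul_of_nonneg_left e0.le (sub_nonneg.2 hl.2)]
  set ψ := fun l => Q l - ct (P l) with hψ
  have hconc : ∀ x ∈ Icc (0:ℝ) 1, ∀ y ∈ Icc (0:ℝ) 1, ∀ a b : ℝ, 0 ≤ a → 0 ≤ b → a + b = 1 →
      a * ψ x + b * ψ y ≤ ψ (a * x + b * y) := by
    intro x hx y hy a b ha hb hab
    have hc := convexOn_ct.2 (hPpos x hx) (hPpos y hy) ha hb hab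
    simp only [smul_eq_mul] at hc
    have e : a * P x + b * P y = P (a * x + b * y) := by
      simp only [hP]; linear_combination p0 * hab
    rw [e] at hc
    have e' : a * Q x + b * Q y = Q (a * x + b * y) := by
      simp only [hQ]; linear_combination R0 * hab
    simp only [hψ]
    linarith
  have hin : ∀ l ∈ Icc (0:ℝ) 1, ψ l ≤ 0 → InD (P l) (Q l) := fun l hl h =>
    ⟨hPpos l hl, (Ee_pos_iff (hPpos l hl)).2 (hlow l hl),
      (Ee_le_one_iff (hPpos l hl)).2 (by simp only [hψ] at h; linarith)⟩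
  by_cases hall : ∀ l ∈ Icc (0:ℝ) 1, ψ l ≤ 0
  · exact Or.inl fun l hl => hin l hl (hall l hl)
  push Not at hall
  obtain ⟨s, hs, hspos⟩ := hall
  have hψc : ContinuousOn ψ (Icc 0 1) := fun l hl => by
    refine ContinuousAt.continuousWithinAt (ContinuousAt.sub (by fun_prop) ?_)
    exact (hasDerivAt_ct (hPpos l hl)).continuousAt.comp (f := P) (by fun_prop)
  have hz0 : ψ 0 ≤ 0 := by simp only [hψ, hP, hQ]; simpa using f0
  have hz1 : ψ 1 ≤ 0 := by simp only [hψ, hP, hQ]; simpa using f1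
  obtain ⟨l1, hl1, hl1e⟩ := intermediate_value_Icc hs.1
    (hψc.mono (Icc_subset_Icc le_rfl hs.2)) (show (0:ℝ) ∈ Icc (ψ 0) (ψ s) from ⟨hz0, hspos.le⟩)
  obtain ⟨l2, hl2, hl2e⟩ := intermediate_value_Icc' hs.2
    (hψc.mono (Icc_subset_Icc hs.1 le_rfl)) (show (0:ℝ) ∈ Icc (ψ 1) (ψ s) from ⟨hz1, hspos.le⟩)
  have hl1s : l1 < s := lt_of_le_of_ne hl1.2 fun e => by
    rw [e] at hl1e; linarith
  have hsl2 : s < l2 := lt_of_le_of_ne hl2.1 fun e => by
    rw [← e] at hl2e; linarith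
  have hl1' : l1 ∈ Icc (0:ℝ) 1 := ⟨hl1.1, hl1.2.trans hs.2⟩
  have hl2' : l2 ∈ Icc (0:ℝ) 1 := ⟨hs.1.trans hl2.1, hl2.2⟩
  have between : ∀ x ∈ Icc (0:ℝ) 1, ∀ y, (x < y ∧ y < s ∨ s < y ∧ y < x) → ψ y = 0 → ψ x ≤ 0 := by
    intro x hx y hy hye
    by_contra hh
    rw [not_le] at hh
    have hne : x - s ≠ 0 := by rcases hy with h | h <;> intro h' <;> linarith [h.1, h.2]
    set a := (y - s) / (x - s) with ha
    have ha01 : 0 ≤ a ∧ a ≤ 1 := by
      rw [ha]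
      rcases hy with ⟨h, h'⟩ | ⟨h, h'⟩
      · exact ⟨div_nonneg_of_nonpos (by linarith) (by linarith),
          (div_le_one_of_neg (by linarith)).2 (by linarith)⟩
      · exact ⟨div_nonneg (by linarith) (by linarith),
          (div_le_one (by linarith)).2 (by linarith)⟩
    have h := hconc x hx s hs a (1 - a) ha01.1 (by linarith) (by ring)
    rw [show a * x + (1 - a) * s = y by
      rw [ha]; field_simp; ring, hye] at h
    rcases ha01.2.lt_or_eq with h' | h'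
    · linarith [mul_nonneg ha01.1 hh.le, mul_pos (sub_pos.2 h') hspos]
    · rw [h'] at h; linarith
  refine Or.inr ⟨l1, l2, hl1.1, hl1s.le.trans hsl2.le, hl2.2, ?_, ?_, ?_, ?_⟩
  · intro l hl
    have hl' : l ∈ Icc (0:ℝ) 1 := ⟨hl.1, hl.2.trans hl1'.2⟩
    refine hin l hl' ?_
    rcases hl.2.lt_or_eq with h | h
    · exact between l hl' l1 (Or.inl ⟨h, hl1s⟩) hl1e
    · exact (h ▸ hl1e).le
  · intro l hl
    have hl' : l ∈ Icc (0:ℝ) 1 := ⟨hl2'.1.trans hl.1, hl.2⟩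
    refine hin l hl' ?_
    rcases hl.1.lt_or_eq with h | h
    · exact between l hl' l2 (Or.inr ⟨hsl2, h⟩) hl2e
    · exact (h ▸ hl2e).le
  · simp only [hψ] at hl1e; linarith
  · simp only [hψ] at hl2e; linarith

end Vale.Agent.P322.General
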