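import Vale.Agent.P322.General.CurveBound

/-!
The comparison along a curve, for a weight below the quartic one.
-/

noncomputable section
namespace Vale.Agent.P322.General
open Real Set Finset

variable {W : ℝ → ℝ} (hW : GoodW0 W) (hK : DisGe W) {n : ℕ} {F : Cube n → ℝ}
  (hF : ∀ x, |F x| ≤ 1) (hp : ∃ a, F a < 1) (hm : ∃ a, -1 < F a)

/-- the curve. -/
def Tc (e s : ℝ) : ℝ := exp ((Hc e s - Hc e 1) / 2)

lemma Tc_one (e : ℝ) : Tc e 1 = 1 := by simp [Tc]

lemma continuousOn_Hc {e : ℝ} (he : 0 < e) : ContinuousOn (Hc e) (Ici 0) := fun u hu =>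
  (hasDerivAt_Hc (show u + e ≠ 0 by linarith [mem_Ici.1 hu])).continuousAt.continuousWithinAt

lemma continuousOn_Tc {e : ℝ} (he : 0 < e) : ContinuousOn (Tc e) (Ici 0) :=
  continuous_exp.comp_continuousOn (((continuousOn_Hc he).sub continuousOn_const).div_const 2)

lemma Tc_lt_one {e s : ℝ} (he : 0 < e) (he1 : e < 1) (h0 : 0 ≤ s) (h1 : s < 1) : Tc e s < 1 := by
  have hs : StrictMonoOn (Hc e) (Icc 0 1) := by
    refine strictMonoOn_of_deriv_pos (convex_Icc 0 1) ((continuousOn_Hc he).mono fun x hx => hx.1)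
      fun x hx => ?_
    rw [interior_Icc] at hx
    rw [(hasDerivAt_Hc (show x + e ≠ 0 by linarith [hx.1])).deriv]
    exact hc_pos he he1 hx.1.le
  have := hs ⟨h0, h1.le⟩ ⟨zero_le_one, le_rfl⟩ h1
  rw [Tc, exp_lt_one_iff]
  linarith

lemma hasDerivAt_Tc {e s : ℝ} (he : 0 < e) (hs : 0 ≤ s) :
    HasDerivAt (Tc e) (Tc e s * (hc e s / 2)) s :=
  ((((hasDerivAt_Hc (show s + e ≠ 0 by linarith)).sub_const (Hc e 1)).div_const 2).exp)

lemma hasDerivAt_phi_sqrt {s : ℝ} (h0 : 0 < s) (h1 : s < 1) :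
    HasDerivAt (fun s => phi (√s)) (At (√s) / (2 * √s)) s := by
  have ht : √s < 1 := by rw [sqrt_lt' one_pos]; simpa using h1
  exact ((hasDerivAt_phi (by linarith [sqrt_nonneg s]) ht).comp s
    (hasDerivAt_sqrt h0.ne')).congr_deriv (by ring)

/-- `2 phi ≤` the Fenchel term. -/
lemma two_phi_le {t : ℝ} (h0 : 0 ≤ t) (h1 : t < 1) : 2 * phi t ≤ t * At t := by
  have hd : ∀ x ∈ Icc 0 t, HasDerivAt (fun x => x * At x - 2 * phi x)
      (x / (1 - x ^ 2) - At x) x := fun x hx =>
    (((hasDerivAt_id x).mul (hasDerivAt_At (by linarith [hx.1]) (lt_of_le_of_lt hx.2 h1))).sub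
      ((hasDerivAt_phi (by linarith [hx.1]) (lt_of_le_of_lt hx.2 h1)).const_mul 2)).congr_deriv
      (by simp; ring)
  have hm : MonotoneOn (fun x => x * At x - 2 * phi x) (Icc 0 t) := by
    refine monotoneOn_of_deriv_nonneg (convex_Icc 0 t)
      (fun x hx => (hd x hx).continuousAt.continuousWithinAt) ?_ ?_ <;>
      intro x hx <;> rw [interior_Icc] at hx <;> have hx' := Ioo_subset_Icc_self hx
    · exact (hd x hx').differentiableAt.differentiableWithinAt
    · rw [(hd x hx').deriv, sub_nonneg, le_div_iff₀ (by nlinarith [hx.1, hx.2])]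
      exact At_le_div hx.1.le (hx.2.trans h1)
  have := hm ⟨le_rfl, h0⟩ ⟨h0, le_rfl⟩ h0
  simp only [At_zero, phi_zero, mul_zero, sub_zero] at this
  linarith

/-- the rate inequality along the curve. -/
lemma rate_bound {e w s : ℝ} (he : 0 < e) (he1 : e < 1) (hw : 0 < w) (h0 : 0 < s) (h1 : s < 1) :
    w * (At (√s) / √s) ≤ hc e s * (w * e + w * (√s * At (√s))) := by
  have t0 : 0 < √s := sqrt_pos.2 h0
  have t1 : √s < 1 := by rw [sqrt_lt' one_pos]; simpa using h1
  have hA := At_pos t0 t1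
  have h := one_le_hc_mul he he1 t0 t1
  rw [sq_sqrt h0.le] at h
  have e1 : w * e + w * (√s * At (√s)) = w * (At (√s) / √s) * (s + e * (√s / At (√s))) := by
    field_simp
    linear_combination At (√s) * mul_self_sqrt h0.le
  rw [e1]
  have := mul_le_mul_of_nonneg_left h (show 0 ≤ w * (At (√s) / √s) by positivity)
  linarith

include hW hK hF hp hm in
lemma Info_le_on_curve {e : ℝ} (he : 0 < e) (he1 : e < 1)
    (hed : W (Ex F) * e = 2 * (hh (Ex F) - W (Ex F) * log 2)) {s : ℝ} (hs : s ∈ Icc (0:ℝ) 1) :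
    Info (Tc e s) F - phi (Ex F)
      ≤ W (Ex F) * phi (√s) + (hh (Ex F) - W (Ex F) * log 2) := by
  obtain ⟨hma, hmb⟩ := Ex_mem_of hF hp hm
  obtain ⟨hw0, -, -⟩ := hW _ hma hmb
  set m := Ex F with hmd
  set w := W m with hw
  set D : ℝ → ℝ := fun s => w * phi (√s) + (hh m - w * log 2) - (Info (Tc e s) F - phi m) with hD
  have hcont : ContinuousOn D (Icc 0 1) := by
    refine ContinuousOn.sub (((continuous_const.mul (continuous_phi.comp continuous_sqrt)).add
      continuous_const).continuousOn) (ContinuousOn.sub ?_ continuousOn_const)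
    exact (continuous_Info F).comp_continuousOn ((continuousOn_Tc he).mono fun x hx => hx.1)
  have h1 : 0 ≤ D 1 := by
    simp only [hD, Tc_one, sqrt_one, phi_one]
    have : Info 1 F ≤ log 2 := by
      refine le_on_closure (s := Ioo (0:ℝ) 1) (f := fun t => Info t F) (g := fun _ => log 2)
        (fun t ht => ?_) (continuous_Info F).continuousOn continuousOn_const
        (by rw [closure_Ioo zero_ne_one]; exact ⟨zero_le_one, le_rfl⟩)
      calc Info t F ≤ Ex (fun _ : Cube n => log 2) := Ex_le fun x => by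
            obtain ⟨c, d⟩ := Tn_mem ht.1.le ht.2 hF hp hm x
            exact phi_le_log_two (abs_le.2 ⟨c.le, d.le⟩)
        _ = log 2 := Ex_const n _
    rw [hh_eq]; linarith
  by_contra hlt
  have hDs : D s < 0 := by simp only [hD]; linarith [not_le.1 hlt]
  obtain ⟨b, ⟨hb, hb0⟩, hleast⟩ : ∃ b, IsLeast (Icc s 1 ∩ D ⁻¹' Ici 0) b :=
    (isCompact_Icc.of_isClosed_subset ((hcont.mono (Icc_subset_Icc hs.1 le_rfl)).preimage_isClosed_of_isClosed
      isClosed_Icc isClosed_Ici) inter_subset_left).exists_isLeast ⟨1, ⟨hs.2, le_rfl⟩, h1⟩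
  have hb0' : 0 ≤ D b := hb0
  have hsb : s < b := lt_of_le_of_ne hb.1 fun h => by rw [← h] at hb0'; linarith
  have hneg : ∀ x ∈ Ico s b, D x < 0 := fun x hx => by
    by_contra h
    exact absurd (hleast ⟨⟨hx.1, hx.2.le.trans hb.2⟩, not_lt.1 h⟩) (not_le.2 hx.2)
  have hanti : AntitoneOn D (Icc s b) := by
    have hd : ∀ x ∈ Ioo s b, ∃ y, y ≤ 0 ∧ HasDerivAt D y x := by
      intro x hx
      have x0 : 0 < x := lt_of_le_of_lt hs.1 hx.1
      have x1 : x < 1 := lt_of_lt_of_le hx.2 hb.2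
      have T0 : 0 < Tc e x := exp_pos _
      have T1 := Tc_lt_one he he1 x0.le x1
      refine ⟨_, ?_, (((hasDerivAt_phi_sqrt x0 x1).const_mul w).add_const
        (hh m - w * log 2)).sub
        (((hasDerivAt_Info T0 T1 hF hp hm).comp x (hasDerivAt_Tc he x0.le)).sub_const (phi m))⟩
      obtain ⟨hDis, ηpos, -⟩ := dis_bound hW hK hF hp hm T0 T1
      rw [← hmd, ← hw] at hDis
      rw [← hmd] at ηpos
      have t0 : 0 < √x := sqrt_pos.2 x0
      have t1 : √x < 1 := by rw [sqrt_lt' one_pos]; simpa using x1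
      have z0 := (At_pos t0 t1).le
      have hz : tanh (At (√x)) = √x := tanh_At (by linarith) t1
      have hle := le_Pi2 hw0 ηpos z0
      have hxz : xz (At (√x)) = log 2 - phi (√x) := by rw [← hh_tanh, hz, hh]
      have hJ : w * phi (√x) + (hh m - w * log 2) < Info (Tc e x) F - phi m := by
        have := hneg x ⟨hx.1.le, hx.2⟩
        simp only [hD] at this; linarith
      have hη : hh m - (Info (Tc e x) F - phi m) ≤ w * xz (At (√x)) := by
        rw [hxz]; linarith
      have hmul := mul_le_mul_of_nonneg_right hη (Sz_nonneg z0)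
      have eQ : w * Qz (At (√x))
          = w * (√x * At (√x)) - 2 * w * log 2 + 2 * (w * xz (At (√x)))
            + w * xz (At (√x)) * Sz (At (√x)) := by
        rw [Qz, hz]; ring
      have hDis' : w * e + w * (√x * At (√x)) ≤ Dis (Tn (Tc e x) F) := by
        have eX : w * xz (At (√x)) = w * log 2 - w * phi (√x) := by rw [hxz]; ring
        linarith
      have hr := (rate_bound he he1 hw0 x0 x1).trans
        (mul_le_mul_of_nonneg_left hDis' (hc_pos he he1 x0.le).le)
      rw [sub_nonpos]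
      calc w * (At (√x) / (2 * √x)) = w * (At (√x) / √x) / 2 := by ring
        _ ≤ hc e x * Dis (Tn (Tc e x) F) / 2 := by linarith
        _ = _ := by have := T0.ne'; field_simp
    refine antitoneOn_of_deriv_nonpos (convex_Icc s b) (hcont.mono (Icc_subset_Icc hs.1 hb.2)) ?_ ?_ <;>
      intro x hx <;> rw [interior_Icc] at hx <;> obtain ⟨y, hy, hy'⟩ := hd x hx
    · exact hy'.differentiableAt.differentiableWithinAt
    · rwa [hy'.deriv]
  linarith [hanti ⟨le_rfl, hb.1⟩ ⟨hb.1, le_rfl⟩ hb.1]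

lemma phi_mono {a b : ℝ} (h0 : 0 ≤ a) (h : a ≤ b) (h1 : b < 1) : phi a ≤ phi b :=
  phi_monotoneOn ⟨h0, h.trans_lt h1⟩ ⟨h0.trans h, h1⟩ h

/-- where the curve is above the diagonal, `phi` on it beats the affine profile. -/
lemma phi_Tc_ge {e w : ℝ} (he : 0 < e) (he1 : e < 1) (hw : 0 < w) (hw1 : w ≤ 1)
    (h0 : w * e / 2 ≤ phi (Tc e 0)) {b : ℝ} (hb1 : b ≤ 1)
    (hT : ∀ s ∈ Icc 0 b, √s ≤ Tc e s) {s : ℝ} (hs : s ∈ Icc 0 b) :
    w * phi (√s) + w * e / 2 ≤ phi (Tc e s) := by
  set Δ : ℝ → ℝ := fun s => phi (Tc e s) - (w * phi (√s) + w * e / 2) with hΔ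
  have hcont : ContinuousOn (fun s => Δ s * exp (-Hc e s)) (Icc 0 b) := by
    refine ContinuousOn.mul (ContinuousOn.sub ?_ ?_) ?_
    · exact continuous_phi.comp_continuousOn ((continuousOn_Tc he).mono fun x hx => hx.1)
    · exact ((continuous_const.mul (continuous_phi.comp continuous_sqrt)).add
        continuous_const).continuousOn
    · exact continuous_exp.comp_continuousOn ((continuousOn_Hc he).mono fun x hx => hx.1).neg
  have hd : ∀ x ∈ Ioo 0 b, ∃ y, 0 ≤ y ∧ HasDerivAt (fun s => Δ s * exp (-Hc e s)) y x := by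
    intro x hx
    have x1 : x < 1 := hx.2.trans_le hb1
    have T0 : 0 < Tc e x := exp_pos _
    have T1 := Tc_lt_one he he1 hx.1.le x1
    have ht : √x ≤ Tc e x := hT x (Ioo_subset_Icc_self hx)
    refine ⟨_, ?_, ((((hasDerivAt_phi (by linarith) T1).comp x (hasDerivAt_Tc he hx.1.le)).sub
      (((hasDerivAt_phi_sqrt hx.1 x1).const_mul w).add_const (w * e / 2))).mul
      (hasDerivAt_Hc (show x + e ≠ 0 by linarith [hx.1])).neg.exp)⟩
    have t1 : √x < 1 := by rw [sqrt_lt' one_pos]; simpa using x1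
    have hF0 : 0 ≤ √x * At (√x) - 2 * phi (√x) := by
      linarith [two_phi_le (sqrt_nonneg x) t1]
    have hFmono : √x * At (√x) - 2 * phi (√x) ≤ Tc e x * At (Tc e x) - 2 * phi (Tc e x) := by
      have hd : ∀ z ∈ Icc (√x) (Tc e x), HasDerivAt (fun z => z * At z - 2 * phi z)
          (z / (1 - z ^ 2) - At z) z := fun z hz =>
        (((hasDerivAt_id z).mul (hasDerivAt_At (by linarith [hz.1, sqrt_nonneg x])
          (lt_of_le_of_lt hz.2 T1))).sub ((hasDerivAt_phi (by linarith [hz.1, sqrt_nonneg x])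
          (lt_of_le_of_lt hz.2 T1)).const_mul 2)).congr_deriv (by simp; ring)
      have hm : MonotoneOn (fun z => z * At z - 2 * phi z) (Icc (√x) (Tc e x)) := by
        refine monotoneOn_of_deriv_nonneg (convex_Icc _ _)
          (fun z hz => (hd z hz).continuousAt.continuousWithinAt) ?_ ?_ <;>
          intro z hz <;> rw [interior_Icc] at hz <;> have hz' := Ioo_subset_Icc_self hz
        · exact (hd z hz').differentiableAt.differentiableWithinAt
        · have z0 : 0 < z := lt_of_le_of_lt (sqrt_nonneg x) hz.1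
          have z1 : z < 1 := hz.2.trans T1
          rw [(hd z hz').deriv, sub_nonneg, le_div_iff₀ (by nlinarith)]
          exact At_le_div z0.le z1
      exact hm ⟨le_rfl, ht⟩ ⟨ht, le_rfl⟩ ht
    have h1 : w * (√x * At (√x) - 2 * phi (√x))
        ≤ Tc e x * At (Tc e x) - 2 * phi (Tc e x) :=
      le_trans (mul_le_of_le_one_left hF0 hw1) hFmono
    have hr := rate_bound he he1 hw hx.1 x1
    have hc0 := (hc_pos he he1 hx.1.le)
    have h2 := mul_le_mul_of_nonneg_left h1 hc0.le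
    have h3 : w * (At (√x) / (2 * √x)) = w * (At (√x) / √x) / 2 := by ring
    simp only [Pi.sub_apply, Pi.mul_apply, Function.comp_apply, hΔ, Pi.neg_apply]
    rw [h3]
    have hX := exp_pos (-Hc e x)
    have key : 0 ≤ (At (Tc e x) * (Tc e x * (hc e x / 2)) - w * (At (√x) / √x) / 2
        - (phi (Tc e x) - (w * phi (√x) + w * e / 2)) * hc e x) * exp (-Hc e x) :=
      mul_nonneg (by linarith) hX.le
    linarith
  have hm : MonotoneOn (fun s => Δ s * exp (-Hc e s)) (Icc 0 b) := by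
    refine monotoneOn_of_deriv_nonneg (convex_Icc 0 b) hcont ?_ ?_ <;>
      intro x hx <;> rw [interior_Icc] at hx <;> obtain ⟨y, hy, hy'⟩ := hd x hx
    · exact hy'.differentiableAt.differentiableWithinAt
    · rwa [hy'.deriv]
  have h := hm ⟨le_rfl, hs.1.trans hs.2⟩ hs hs.1
  have hΔ0 : 0 ≤ Δ 0 := by simp only [hΔ, sqrt_zero, phi_zero]; linarith
  have : 0 ≤ Δ s * exp (-Hc e s) := le_trans (mul_nonneg hΔ0 (exp_pos _).le) h
  have := nonneg_of_mul_nonneg_left this (exp_pos _)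
  simp only [hΔ] at this
  linarith

include hW hK hF hp hm in
/-- the comparison, given the numerical condition at the mean. -/
lemma Info_le_phi_curve {e : ℝ} (he : 0 < e) (he1 : e < 1)
    (hed : W (Ex F) * e = 2 * (hh (Ex F) - W (Ex F) * log 2))
    (hcond : Hc e 1 - Hc e 0 ≤ -log (W (Ex F) * e)) {r : ℝ} (hr0 : 0 < r) (hr1 : r < 1) :
    Info r F - phi (Ex F) ≤ phi r := by
  obtain ⟨hma, hmb⟩ := Ex_mem_of hF hp hm
  obtain ⟨hw0, hw1, -⟩ := hW _ hma hmb
  set m := Ex F with hmd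
  set w := W m with hw
  have hwe : w * e ≤ Tc e 0 ^ 2 := by
    rw [Tc, ← exp_nat_mul, ← log_le_iff_le_exp (mul_pos hw0 he)]
    push_cast; linarith
  have T00 : 0 < Tc e 0 := exp_pos _
  have T01 := Tc_lt_one he he1 le_rfl one_pos
  have hsq := sq_half_le_phi (show -1 < Tc e 0 by linarith) T01
  obtain ⟨b, ⟨hb, hb0⟩, hleast⟩ : ∃ b,
      IsLeast (Icc (0:ℝ) 1 ∩ (fun s => √s - Tc e s) ⁻¹' Ici 0) b :=
    (isCompact_Icc.of_isClosed_subset
      ((continuous_sqrt.continuousOn.sub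
        ((continuousOn_Tc he).mono fun x hx => hx.1)).preimage_isClosed_of_isClosed
        isClosed_Icc isClosed_Ici) inter_subset_left).exists_isLeast
      ⟨1, ⟨zero_le_one, le_rfl⟩, by simp [Tc_one]⟩
  have hb0' : Tc e b ≤ √b := by simpa using hb0
  have hbelow : ∀ s ∈ Ico 0 b, √s < Tc e s := fun s hs => by
    by_contra h
    exact absurd (hleast ⟨⟨hs.1, hs.2.le.trans hb.2⟩, by simpa using not_lt.1 h⟩) (not_le.2 hs.2)
  have hbpos : 0 < b := lt_of_le_of_ne hb.1 fun h => by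
    rw [← h, sqrt_zero] at hb0'; linarith
  have hbeq : Tc e b = √b := by
    refine le_antisymm hb0' ?_
    have : IsClosed (Icc 0 b ∩ (fun s => Tc e s - √s) ⁻¹' Ici 0) :=
      (((continuousOn_Tc he).mono fun x hx => hx.1).sub
        continuous_sqrt.continuousOn).preimage_isClosed_of_isClosed isClosed_Icc isClosed_Ici
    have hsub : Ico 0 b ⊆ Icc 0 b ∩ (fun s => Tc e s - √s) ⁻¹' Ici 0 := fun s hs =>
      ⟨Ico_subset_Icc_self hs, by simpa using (hbelow s hs).le⟩
    have := (this.closure_subset_iff.2 hsub) (by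
      rw [closure_Ico hbpos.ne]; exact ⟨hb.1, le_rfl⟩ : b ∈ closure (Ico 0 b))
    simpa using this.2
  have hT : ∀ s ∈ Icc 0 b, √s ≤ Tc e s := fun s hs => by
    rcases hs.2.lt_or_eq with h | h
    · exact (hbelow s ⟨hs.1, h⟩).le
    · rw [h, hbeq]
  have hprof : ∀ s ∈ Icc 0 b, w * phi (√s) + w * e / 2 ≤ phi (Tc e s) := fun s hs =>
    phi_Tc_ge he he1 hw0 hw1 (by linarith) hb.2 hT hs
  rcases le_or_gt r (Tc e 0) with h | h
  · have h0 := Info_le_on_curve hW hK hF hp hm he he1 hed (s := 0) ⟨le_rfl, zero_le_one⟩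
    rw [← hmd, ← hw, sqrt_zero, phi_zero, mul_zero, zero_add] at h0
    have hmono := Info_div_sq_mono hW hK hF hp hm ⟨hr0, hr1⟩ ⟨T00, T01⟩ h
    simp only [← hmd] at hmono
    have h2 : (Info (Tc e 0) F - phi m) / Tc e 0 ^ 2 ≤ 1 / 2 := by
      rw [div_le_iff₀ (by positivity)]; linarith
    have h3 := hmono.trans h2
    rw [div_le_iff₀ (by positivity)] at h3
    linarith [sq_half_le_phi (show -1 < r by linarith) hr1]
  rcases le_or_gt r (√b) with h' | h'
  · obtain ⟨s, hs, hse⟩ := intermediate_value_Icc hb.1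
      ((continuousOn_Tc he).mono fun x hx => hx.1) (show r ∈ Icc (Tc e 0) (Tc e b) from
        ⟨h.le, hbeq ▸ h'⟩)
    have := Info_le_on_curve hW hK hF hp hm he he1 hed (s := s) ⟨hs.1, hs.2.trans hb.2⟩
    rw [hse, ← hmd, ← hw] at this
    have := hprof s hs
    rw [hse] at this
    linarith
  · have hA := Info_le_affine hW hK hF hp hm hr0 hr1
    rw [← hmd, ← hw] at hA
    have hb' := hprof b ⟨hb.1, le_rfl⟩
    rw [hbeq] at hb'
    have := mul_le_mul_of_nonneg_left (phi_mono (sqrt_nonneg b) h'.le hr1) (sub_nonneg.2 hw1)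
    rw [hh_eq] at hed
    linarith

end Vale.Agent.P322.General
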