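import Vale.Agent.P322.General.Final

/-!
Elementary bounds for the comparison curve.
-/

noncomputable section
namespace Vale.Agent.P322.General
open Real Set

/-- polynomial lower bound for `√u / artanh √u`. -/
def pg (u : ℝ) : ℝ := 1 - u / 3 - u ^ 2 / 10 - 3 / 5 * u ^ 5

lemma pg_anti {u v : ℝ} (h0 : 0 ≤ u) (h : u ≤ v) : pg v ≤ pg u := by
  have := pow_le_pow_left₀ h0 h 2
  have := pow_le_pow_left₀ h0 h 5
  unfold pg; linarith

lemma pg_ineq {u : ℝ} (h0 : 0 ≤ u) (h1 : u ≤ 1) (hp : 0 ≤ pg u) :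
    pg u ^ 2 ≤ (pg u + 2 * u * (1 / 3 + u / 5 + 3 * u ^ 4)) * (1 - u) := by
  unfold pg at *
  nlinarith [mul_nonneg (sq_nonneg u) (sub_nonneg.2 h1), mul_nonneg (sq_nonneg u) h0,
    mul_nonneg (mul_nonneg (sq_nonneg u) h0) (sub_nonneg.2 h1),
    mul_nonneg (sq_nonneg u) (sq_nonneg (u - 3 / 20)),
    mul_nonneg (sq_nonneg (u ^ 2)) (sub_nonneg.2 h1), mul_nonneg (sq_nonneg (u ^ 2)) hp,
    mul_nonneg (sq_nonneg (u ^ 3)) (sub_nonneg.2 h1), sq_nonneg u, pow_nonneg h0 5,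
    pow_nonneg h0 7]

lemma At_mul_pg_le {τ : ℝ} (h0 : 0 ≤ τ) (h1 : τ < 1) : At τ * pg (τ ^ 2) ≤ τ := by
  rcases le_or_gt (pg (τ ^ 2)) 0 with hp | hp
  · have := At_mono (a := 0) (b := τ) (by norm_num) h0 h1
    rw [At_zero] at this
    linarith [mul_nonpos_of_nonneg_of_nonpos this hp]
  have hpx : ∀ x ∈ Icc 0 τ, 0 < pg (x ^ 2) := fun x hx =>
    hp.trans_le (pg_anti (sq_nonneg x) (pow_le_pow_left₀ hx.1 hx.2 2))
  have hd : ∀ x ∈ Icc 0 τ, HasDerivAt (fun x => x / pg (x ^ 2) - At x)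
      ((pg (x ^ 2) + 2 * x ^ 2 * (1 / 3 + x ^ 2 / 5 + 3 * (x ^ 2) ^ 4)) / pg (x ^ 2) ^ 2
        - 1 / (1 - x ^ 2)) x := by
    intro x hx
    have hA := hasDerivAt_At (show -1 < x by linarith [hx.1]) (lt_of_le_of_lt hx.2 h1)
    have hP : HasDerivAt (fun x => pg (x ^ 2))
        (-(2 * x) * (1 / 3 + x ^ 2 / 5 + 3 * (x ^ 2) ^ 4)) x := by
      have h2 := hasDerivAt_pow 2 x
      have := (((h2.div_const 3).const_sub 1).sub ((h2.pow 2).div_const 10)).sub
        ((h2.pow 5).const_mul (3 / 5 : ℝ))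
      exact this.congr_deriv (by simp; ring)
    refine ((((hasDerivAt_id x).div hP (hpx x hx).ne')).sub hA).congr_deriv ?_
    simp only [id]
    ring
  have hm : MonotoneOn (fun x => x / pg (x ^ 2) - At x) (Icc 0 τ) := by
    refine monotoneOn_of_deriv_nonneg (convex_Icc 0 τ)
      (fun x hx => (hd x hx).continuousAt.continuousWithinAt) ?_ ?_ <;>
      intro x hx <;> rw [interior_Icc] at hx <;> have hx' := Ioo_subset_Icc_self hx
    · exact (hd x hx').differentiableAt.differentiableWithinAt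
    · have hx1 : x ^ 2 < 1 := pow_lt_one₀ hx.1.le (hx.2.trans h1) two_ne_zero
      rw [(hd x hx').deriv, sub_nonneg, div_le_div_iff₀ (by linarith) (pow_pos (hpx x hx') 2),
        one_mul]
      exact pg_ineq (sq_nonneg x) hx1.le (hpx x hx').le
  have := hm ⟨le_rfl, h0⟩ ⟨h0, le_rfl⟩ h0
  simp only [At_zero, zero_div, sub_zero, sub_nonneg] at this
  rwa [le_div_iff₀ hp] at this

lemma At_le_div {τ : ℝ} (h0 : 0 ≤ τ) (h1 : τ < 1) : At τ * (1 - τ ^ 2) ≤ τ := by
  have hd : ∀ x ∈ Icc 0 τ, HasDerivAt (fun x => x / (1 - x ^ 2) - At x)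
      (2 * x ^ 2 / (1 - x ^ 2) ^ 2) x := by
    intro x hx
    have hx1 : (0:ℝ) < 1 - x ^ 2 := by nlinarith [hx.1, hx.2]
    refine (((hasDerivAt_id x).div ((hasDerivAt_pow 2 x).const_sub 1) hx1.ne').sub
      (hasDerivAt_At (by linarith [hx.1]) (lt_of_le_of_lt hx.2 h1))).congr_deriv ?_
    simp only [id, Nat.cast_ofNat, Nat.add_one_sub_one, pow_one]
    field_simp
    ring
  have hm : MonotoneOn (fun x => x / (1 - x ^ 2) - At x) (Icc 0 τ) := by
    refine monotoneOn_of_deriv_nonneg (convex_Icc 0 τ)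
      (fun x hx => (hd x hx).continuousAt.continuousWithinAt) ?_ ?_ <;>
      intro x hx <;> rw [interior_Icc] at hx <;> have hx' := Ioo_subset_Icc_self hx
    · exact (hd x hx').differentiableAt.differentiableWithinAt
    · rw [(hd x hx').deriv]; positivity
  have := hm ⟨le_rfl, h0⟩ ⟨h0, le_rfl⟩ h0
  simp only [At_zero, zero_div, sub_zero, sub_nonneg] at this
  rwa [le_div_iff₀ (by nlinarith)] at this

/-- the rate of the comparison curve. -/
def hc (e u : ℝ) : ℝ :=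
  1 / (u + e) + e / (1 - e) * (u / (3 * (u + e) ^ 2) + 1 / 10 + 3 / 5 * u ^ 3)

/-- an antiderivative of the rate. -/
def Hc (e u : ℝ) : ℝ :=
  log (u + e) + e / (1 - e) * ((log (u + e) + e / (u + e)) / 3 + u / 10 + 3 / 20 * u ^ 4)

lemma hasDerivAt_Hc {e u : ℝ} (h : u + e ≠ 0) : HasDerivAt (Hc e) (hc e u) u := by
  have a := (hasDerivAt_id u).add_const e
  refine ((a.log h).add (((((a.log h).add ((hasDerivAt_const u e).div a h)).div_const 3).add
    ((hasDerivAt_id u).div_const 10)).add ((hasDerivAt_pow 4 u).const_mul (3 / 20 : ℝ))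
      |>.const_mul (e / (1 - e)))).congr_deriv ?_
  simp only [id, hc]
  field_simp
  ring

lemma hc_pos {e u : ℝ} (he : 0 < e) (he1 : e < 1) (hu : 0 ≤ u) : 0 < hc e u := by
  have : 0 < 1 - e := by linarith
  unfold hc; positivity

/-- the rate dominates the exact one. -/
lemma one_le_hc_mul {e τ : ℝ} (he : 0 < e) (he1 : e < 1) (h0 : 0 < τ) (h1 : τ < 1) :
    1 ≤ hc e (τ ^ 2) * (τ ^ 2 + e * (τ / At τ)) := by
  set u := τ ^ 2 with hu
  have u0 : 0 < u := pow_pos h0 2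
  have hA := At_pos h0 h1
  set δ := 1 - τ / At τ with hδ
  have d1 : δ ≤ u := by
    have : 1 - u ≤ τ / At τ := by rw [le_div_iff₀ hA, mul_comm]; exact At_le_div h0.le h1
    linarith
  have d2 : δ ≤ u / 3 + u ^ 2 * (1 / 10 + 3 / 5 * u ^ 3) := by
    have : pg u ≤ τ / At τ := by rw [le_div_iff₀ hA, mul_comm]; exact At_mul_pg_le h0.le h1
    unfold pg at this; linarith
  have e1 : τ / At τ = 1 - δ := by rw [hδ]; ring
  have hk : 0 < 1 - e := by linarith
  have hue : 0 < u + e := by linarith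
  rw [e1]
  set M := u / (3 * (u + e) ^ 2) + 1 / 10 + 3 / 5 * u ^ 3 with hM
  have hMd : δ ≤ M * (u + e) ^ 2 := by
    have h2 : u ^ 2 * (1 / 10 + 3 / 5 * u ^ 3) ≤ (u + e) ^ 2 * (1 / 10 + 3 / 5 * u ^ 3) :=
      mul_le_mul_of_nonneg_right (pow_le_pow_left₀ u0.le (by linarith) 2) (by positivity)
    have h3 : u / (3 * (u + e) ^ 2) * (u + e) ^ 2 = u / 3 := by field_simp
    rw [hM, show (u / (3 * (u + e) ^ 2) + 1 / 10 + 3 / 5 * u ^ 3) * (u + e) ^ 2
      = u / (3 * (u + e) ^ 2) * (u + e) ^ 2 + (u + e) ^ 2 * (1 / 10 + 3 / 5 * u ^ 3) by ring, h3]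
    linarith
  have hden : (1 - e) * (u + e) ≤ u + e * (1 - δ) := by
    have := mul_le_mul_of_nonneg_left d1 he.le
    linarith [mul_pos he he]
  have h4 : e / (1 - e) * M * ((1 - e) * (u + e)) ≤ e / (1 - e) * M * (u + e * (1 - δ)) :=
    mul_le_mul_of_nonneg_left hden (by positivity)
  rw [hc, ← hM, add_mul]
  have h5 : e / (1 - e) * M * ((1 - e) * (u + e)) = e * (M * (u + e)) := by field_simp
  have h6 : e * δ / (u + e) ≤ e * (M * (u + e)) := by
    rw [div_le_iff₀ hue]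
    linarith [mul_le_mul_of_nonneg_left hMd he.le]
  have h7 : 1 / (u + e) * (u + e * (1 - δ)) = 1 - e * δ / (u + e) := by field_simp; ring
  linarith

end Vale.Agent.P322.General
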