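import Vale.Agent.P322.General.Final

/-!
The lowered weight.
-/

noncomputable section
namespace Vale.Agent.P322.General
open Real

/-- the lowered weight. -/
def WC (m : ℝ) : ℝ :=
  (1 - m ^ 2) * (1 - m ^ 2 / 4 + (5 / 4 - 1 / (2 * log 2)) * m ^ 2 / (1 + 32 * m ^ 2))

lemma WC_neg (m : ℝ) : WC (-m) = WC m := by simp [WC]

lemma WC_pos {m : ℝ} (h1 : -1 < m) (h2 : m < 1) : 0 < WC m := by
  have hx : m ^ 2 < 1 := by nlinarith
  have hl := log_two_gt_d9
  have hb : 0 ≤ 5 / 4 - 1 / (2 * log 2) := by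
    rw [sub_nonneg, div_le_iff₀ (by positivity)]; linarith
  have : 0 ≤ (5 / 4 - 1 / (2 * log 2)) * m ^ 2 / (1 + 32 * m ^ 2) := by positivity
  exact mul_pos (by linarith) (by linarith)

lemma WC_le_Wk {m : ℝ} (h1 : -1 < m) (h2 : m < 1) : WC m ≤ Wk m := by
  have hx : m ^ 2 < 1 := by nlinarith
  refine mul_le_mul_of_nonneg_left ?_ (by linarith)
  have hl := log_two_gt_d9
  have h : (5 / 4 - 1 / (2 * log 2)) * m ^ 2 / (1 + 32 * m ^ 2)
      ≤ (5 / 4 - 1 / (2 * log 2)) * m ^ 2 := by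
    refine div_le_self (mul_nonneg ?_ (sq_nonneg m)) (by linarith [sq_nonneg m])
    rw [sub_nonneg, div_le_iff₀ (by positivity)]; linarith
  linarith

lemma WC_le_one {m : ℝ} (h1 : -1 < m) (h2 : m < 1) : WC m ≤ 1 :=
  (WC_le_Wk h1 h2).trans (goodW_Wk m h1 h2).2.1

lemma WC_mul_log_two_le {m : ℝ} (h1 : -1 < m) (h2 : m < 1) : WC m * log 2 ≤ hh m :=
  (mul_le_mul_of_nonneg_right (WC_le_Wk h1 h2) (log_pos one_lt_two).le).trans
    (goodW_Wk m h1 h2).2.2.1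

end Vale.Agent.P322.General
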