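import Vale.Agent.P322.General.CurveBound
import Vale.Agent.P322.General.Weight
import Vale.Agent.P322.Cell

/-!
The numerical condition of the curve comparison for the lowered weight.
-/

noncomputable section
namespace Vale.Agent.P322.General
open Real Set Vale.Agent.P322.Cert

/-- the condition, as a function of the parameter. -/
def psiC (e : ℝ) : ℝ := e / 4 + (e * log (1 + 1 / e) - e / (1 + e)) / 3

lemma Hc_diff {e : ℝ} (he : 0 < e) (he1 : e < 1) :
    Hc e 1 - Hc e 0 + log e = log (1 + e) + psiC e / (1 - e) := by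
  have h1 : log (1 + 1 / e) = log (1 + e) - log e := by
    rw [← log_div (by linarith) he.ne']; congr 1; field_simp; ring
  have : (1:ℝ) - e ≠ 0 := by linarith
  simp only [Hc, psiC, h1, zero_add]
  field_simp
  ring

lemma psiC_rate {e : ℝ} (he : 0 < e) (he1 : e < 1) :
    0 ≤ 1 / 4 + (log (1 + 1 / e) - 1 / (1 + e) - 1 / (1 + e) ^ 2) / 3 := by
  have h := le_log_one_add_of_nonneg (show 0 ≤ 1 / e by positivity)
  have h2 : 2 / (2 * e + 1) ≤ log (1 + 1 / e) := by
    refine le_trans (le_of_eq ?_) h
    field_simp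
    ring
  have h3 : 1 / (1 + e) + 1 / (1 + e) ^ 2 ≤ 2 / (2 * e + 1) + 3 / 4 := by
    rw [div_add_div _ _ (by linarith) (by positivity), div_add_div _ _ (by linarith) (by norm_num),
      div_le_div_iff₀ (by positivity) (by positivity)]
    nlinarith [pow_pos he 2, pow_pos he 3, pow_pos he 4, sq_nonneg (1 - e)]
  linarith

lemma psiC_nonneg {e : ℝ} (he : 0 < e) : 0 ≤ psiC e := by
  have h := le_log_one_add_of_nonneg (show 0 ≤ 1 / e by positivity)
  have h2 : 2 / (2 * e + 1) ≤ log (1 + 1 / e) := by
    refine le_trans (le_of_eq ?_) h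
    field_simp
    ring
  have h3 : 1 / (1 + e) ≤ 2 / (2 * e + 1) := by
    rw [div_le_div_iff₀ (by positivity) (by positivity)]; linarith
  have := mul_le_mul_of_nonneg_left (h3.trans h2) he.le
  rw [mul_one_div] at this
  unfold psiC
  linarith

lemma condLhs_mono {e e' : ℝ} (he : 0 < e) (h : e ≤ e') (he1 : e' < 1) :
    log (1 + e) + psiC e / (1 - e) ≤ log (1 + e') + psiC e' / (1 - e') := by
  have hd : ∀ x ∈ Icc e e', HasDerivAt psiC
      (1 / 4 + (log (1 + 1 / x) - 1 / (1 + x) - 1 / (1 + x) ^ 2) / 3) x := by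
    intro x hx
    have x0 : 0 < x := he.trans_le hx.1
    refine (((hasDerivAt_id x).div_const 4).add ((((hasDerivAt_id x).mul
      ((((hasDerivAt_const x 1).div (hasDerivAt_id x) x0.ne').const_add 1).log
        (by simp only [Pi.div_apply, id]; positivity))).sub
      ((hasDerivAt_id x).div ((hasDerivAt_id x).const_add 1) (by simp only [id]; linarith))).div_const
        3)).congr_deriv ?_
    simp only [Pi.div_apply, id]
    field_simp
    ring
  have hm : MonotoneOn psiC (Icc e e') := by
    refine monotoneOn_of_deriv_nonneg (convex_Icc e e')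
      (fun x hx => (hd x hx).continuousAt.continuousWithinAt) ?_ ?_ <;>
      intro x hx <;> rw [interior_Icc] at hx <;> have hx' := Ioo_subset_Icc_self hx
    · exact (hd x hx').differentiableAt.differentiableWithinAt
    · rw [(hd x hx').deriv]
      exact psiC_rate (he.trans hx.1) (hx.2.trans he1)
  refine add_le_add (log_le_log (by linarith) (by linarith)) ?_
  exact div_le_div₀ (psiC_nonneg (he.trans_le h)) (hm ⟨le_rfl, h⟩ ⟨h, le_rfl⟩ h) (by linarith)
    (by linarith)

/-- the fourth order coefficient of the deficit. -/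
def D2 (x : ℝ) : ℝ :=
  log 2 * (-(1 / 4) + 165 / 4 / (1 + 32 * x)) - 33 / 2 / (1 + 32 * x) - 1 / 12 - x / 30 - x ^ 2 / 56

lemma phi_series {m : ℝ} (h0 : 0 ≤ m) (h1 : m < 1) :
    m ^ 2 / 2 + m ^ 4 / 12 + m ^ 6 / 30 + m ^ 8 / 56 ≤ phi m := by
  have hd : ∀ x ∈ Icc 0 m, HasDerivAt (fun x => phi x - (x ^ 2 / 2 + x ^ 4 / 12 + x ^ 6 / 30 + x ^ 8 / 56))
      (At x - oddSum x 4) x := by
    intro x hx
    refine ((hasDerivAt_phi (by linarith [hx.1]) (lt_of_le_of_lt hx.2 h1)).sub
      (((((hasDerivAt_pow 2 x).div_const 2).add ((hasDerivAt_pow 4 x).div_const 12)).add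
        ((hasDerivAt_pow 6 x).div_const 30)).add ((hasDerivAt_pow 8 x).div_const 56))).congr_deriv ?_
    simp [oddSum, Finset.sum_range_succ]
    ring
  have hm : MonotoneOn (fun x => phi x - (x ^ 2 / 2 + x ^ 4 / 12 + x ^ 6 / 30 + x ^ 8 / 56)) (Icc 0 m) := by
    refine monotoneOn_of_deriv_nonneg (convex_Icc 0 m)
      (fun x hx => (hd x hx).continuousAt.continuousWithinAt) ?_ ?_ <;>
      intro x hx <;> rw [interior_Icc] at hx <;> have hx' := Ioo_subset_Icc_self hx
    · exact (hd x hx').differentiableAt.differentiableWithinAt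
    · rw [(hd x hx').deriv, sub_nonneg]
      exact oddSum_le hx.1.le (hx.2.trans h1) 4
  have := hm ⟨le_rfl, h0⟩ ⟨h0, le_rfl⟩ h0
  simp [phi_zero] at this
  linarith

lemma deficit_le {m : ℝ} (h0 : 0 ≤ m) (h1 : m < 1) :
    hh m - WC m * log 2 ≤ (m ^ 2) ^ 2 * D2 (m ^ 2) := by
  have hp := phi_series h0 h1
  have : (1:ℝ) + 32 * m ^ 2 ≠ 0 := by positivity
  have hl : log 2 ≠ 0 := (log_pos one_lt_two).ne'
  have e : log 2 - WC m * log 2 - (m ^ 2 / 2 + m ^ 4 / 12 + m ^ 6 / 30 + m ^ 8 / 56)
      = (m ^ 2) ^ 2 * D2 (m ^ 2) := by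
    simp only [WC, D2]
    field_simp
    ring
  rw [hh_eq]; linarith

lemma x_lt_of_half_lt {m : ℝ} (h0 : 0 ≤ m) (h1 : m < 1) (h : 1 / 2 < hh m) : m ^ 2 ≤ 37 / 100 := by
  have hp := phi_series h0 h1
  rw [hh_eq] at h
  have := log_two_lt_d9
  by_contra hx
  rw [not_le] at hx
  nlinarith [pow_nonneg h0 6, pow_nonneg h0 8]

/-- one cell of the certificate. -/
def cvOk (x0 x1 : ℕ) : Bool :=
  let d0 := PP + 32 * x0
  let d1 := PP + 32 * x1
  let D := mU l2Hi (165 * PP * PP / (4 * d0) + 1)
    - (l2Lo / 4 + 33 * PP * PP / (2 * d0) + PP / 12 + x0 / 30 + mD x0 x0 / 56)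
  let blo := 5 * PP / 4 - (PP * PP / (2 * l2Lo) + 1)
  let bhi := (5 * PP / 4 + 1) - PP * PP / (2 * l2Hi)
  let Wl := mD (PP - x1) ((PP - (x1 / 4 + 1)) + mD blo (x0 * PP / d0))
  let Wh := mU (PP - x0) ((PP - x0 / 4) + mU bhi (x1 * PP / d1 + 1))
  let e := 2 * mU (mU x1 x1) D * PP / Wl + 1
  let psi := e / 4 + 1 + ((mU e (lHi (PP + e) e) - e * PP / (PP + e)) / 3 + 1)
  Nat.ble x0 x1 && Nat.ble x1 PP && Nat.ble 1 Wl && Nat.ble (e + 1) PP
    && Nat.ble (lHi (PP + e) PP + (psi * PP / (PP - e) + 1)) (lLo PP Wh)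

def cvAll : List ℕ → Bool
  | a :: b :: l => cvOk a b && cvAll (b :: l)
  | _ => true

def cvPts : List ℕ := [
237684487542793012780631851,
259717839538009925065383474,
395007849847367707940112378,
554026694829747659924106512,
728067199424832130315835830,
909578919745011727742635970,
1093055498495545080741755902,
1274892054282033161952689556,
1452909812635333702091614582,
1625928273933984162528387234,
1793392841040384692899852732,
1955145057629506764530823996,
2111264151863864641758894566,
2261979885414749691163085708,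
2407585402483464690792493520,
2548421384168820977298770224,
2684836434385881313767327396,
2817179157049708463283576612,
2945790233259113762499170094,
3070986575664154268764482002,
3193077174098635612996127142,
3312347249947609146809442258,
3429074101779874795386004740,
3543503336899226778172354562,
3655880562609459314615031698,
3766427617765612344859298060,
3875350495590222956182896852,
3982855189305828235863571278,
4089131846502462418311545834,
4194354769137656885069526308,
4298698259168943017680218488,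
4402328695737600771252568808,
4505404535168658674461764348,
4608084233787145255982992188,
4710510402285586191623920700,
4812833574172758583625977610,
4915196360141188107796831290,
5017741370883400439944150112,
5120611217091921255875602448,
5223948509459276231398856670,
5327887935861739615887821796,
5432580029808088511583925552,
5538167401990848594294836310,
5644792663102545539828222442,
5752606346651956450425511674,
5861758986147858428328131732,
5972416960731531428645029050,
6084738726728003980051390708,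
6198898586094807464089922494,
6315070840789473262303330196,
6433437715585784182668078956,
6554197280890025886028152624,
6677555529924735459661294404,
6803718455912449990845247500,
6932923743340712272592792532,
7065401153880813671482950766,
7201412140469051259829780884,
7341226078857973536381100922,
7485136113248883279186006978,
7633443310659334692727354504,
7786480429371887687223036368,
7944603996117856452192223500,
8108194306077309456455364892,
8277655422879069448134187598,
8453423101416964881085456088,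
8635972710666081341334731602,
8825811310866510120642612796,
9023493499155851069372254450,
9229605563936709743621848760,
9444789253325451684525903400,
9669733852335950991821482168,
9905199951328344603149483048,
10151987754744026588319600794,
10410976695186905281479123700,
10683125433423403281112933600,
10969448089933703170742227806,
11271069704625507503960834586,
11589178699936530245832657040,
11925074417732005331494229224,
12280143350855932386853438088,
12655890834396082434324560892,
13053909354418992187093227790,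
13475910239234969754851459246,
13923699890949340364496387972,
14399187708278697786564018282,
14904370240918401482361707384,
15441307421093822324666887318,
16012098795111588318425786894,
16618859754910830321452153630,
17263650232716919206523419566,
17948411318511454449910626432,
18674909800318504146342110170,
19444587630695827906762073208,
20258458930123608314691712858,
21116967376311925250421552944,
22019788133794470230167459952,
22965669397603517877395455950,
23952218477231137409110216030,
24975751263120415533613640582,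
26031125847524176495395908860,
27111694987607473516532922858,
28209306105447588796686307310,
29314420130277804909611261625]

lemma cvAll_ok : cvAll cvPts = true := by decide +kernel

lemma cv_sound {x0 x1 : ℕ} (h : cvOk x0 x1 = true) {m e : ℝ} (hm0 : 0 ≤ m) (hm1 : m < 1)
    (hx0 : rv x0 ≤ m ^ 2) (hx1 : m ^ 2 ≤ rv x1) (he : 0 < e)
    (hed : WC m * e = 2 * (hh m - WC m * log 2)) :
    e < 1 ∧ log (1 + e) + psiC e / (1 - e) ≤ -log (WC m) := by
  simp only [cvOk, Bool.and_eq_true, Nat.ble_eq] at h
  obtain ⟨⟨⟨⟨hxx, hx1P⟩, hWl⟩, he1⟩, hfin⟩ := h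
  set x := m ^ 2 with hx
  have x0n := rv_nonneg x0
  have xn : 0 ≤ x := x0n.trans hx0
  have xlt : x < 1 := pow_lt_one₀ hm0 hm1 two_ne_zero
  have hL := l2Lo_le
  have hL' := le_l2Hi
  have hLd := log_two_gt_d9
  set d0 := PP + 32 * x0 with hd0
  set d1 := PP + 32 * x1 with hd1
  have pp : 0 < PP := one_le_PP
  have rd0 : rv d0 = 1 + 32 * rv x0 := by rw [hd0, rv_add, rv_PP, rv_mul_nat]; norm_num
  have rd1 : rv d1 = 1 + 32 * rv x1 := by rw [hd1, rv_add, rv_PP, rv_mul_nat]; norm_num
  -- the deficit coefficient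
  set D := mU l2Hi (165 * PP * PP / (4 * d0) + 1)
    - (l2Lo / 4 + 33 * PP * PP / (2 * d0) + PP / 12 + x0 / 30 + mD x0 x0 / 56) with hD
  have hD2 : D2 x ≤ rv D := by
    have h1 : 165 / 4 / (1 + 32 * rv x0) ≤ rv (165 * PP * PP / (4 * d0) + 1) := by
      refine le_trans (le_of_eq ?_) (le_rv_mulPP_div _ _)
      rw [← rd0, rv]; push_cast
      have := PP_pos
      field_simp
    have h2 : rv (33 * PP * PP / (2 * d0)) ≤ 33 / 2 / (1 + 32 * rv x0) := by
      refine (rv_mulPP_div_le _ _).trans_eq ?_
      rw [← rd0, rv]; push_cast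
      have := PP_pos
      field_simp
    have h3 : rv (PP / 12) ≤ 1 / 12 := by simpa [rv_PP] using rv_div_le PP 12
    have h4 := rv_div_le x0 30
    have h5 := rv_div_le (mD x0 x0) 56
    have h6 := rv_mD_le x0 x0
    have h7 := rv_div_le l2Lo 4
    push_cast at h4 h5 h7
    have hr : 1 / (1 + 32 * x) ≤ 1 / (1 + 32 * rv x0) :=
      one_div_le_one_div_of_le (by linarith) (by linarith)
    have hcoef : 0 ≤ 165 / 4 * log 2 - 33 / 2 := by linarith
    have a1 := mul_le_mul_of_nonneg_left hr hcoef
    have a2 := mul_le_mul hL' h1 (by positivity) (rv_nonneg _)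
    have a3 := le_rv_mU l2Hi (165 * PP * PP / (4 * d0) + 1)
    have a4 := le_rv_sub (mU l2Hi (165 * PP * PP / (4 * d0) + 1))
      (l2Lo / 4 + 33 * PP * PP / (2 * d0) + PP / 12 + x0 / 30 + mD x0 x0 / 56)
    rw [← hD] at a4
    simp only [rv_add] at a4
    have a5 : rv x0 ^ 2 ≤ x ^ 2 := pow_le_pow_left₀ x0n hx0 2
    unfold D2
    have eA : ∀ t : ℝ, 165 / 4 / t = 165 / 4 * (1 / t) := fun t => div_eq_mul_one_div _ t
    have eB : ∀ t : ℝ, 33 / 2 / t = 33 / 2 * (1 / t) := fun t => div_eq_mul_one_div _ t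
    simp only [eA, eB] at a2 h2 ⊢
    linarith
  -- the weight
  set blo := 5 * PP / 4 - (PP * PP / (2 * l2Lo) + 1)
  set bhi := (5 * PP / 4 + 1) - PP * PP / (2 * l2Hi)
  set b := 5 / 4 - 1 / (2 * log 2) with hb
  have b0 : 0 ≤ b := by rw [hb, sub_nonneg, div_le_iff₀ (by positivity)]; linarith
  have l2pos : 0 < rv l2Hi := lt_of_lt_of_le (by linarith) hL'
  have hblo : rv blo ≤ b := by
    have z : 0 < l2Lo := Nat.le_of_ble_eq_true (by decide +kernel : Nat.ble 1 l2Lo = true)
    simp only [blo]
    rw [rv_sub]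
    refine max_le b0 ?_
    have h1 : rv (5 * PP / 4) ≤ 5 / 4 := by
      refine (rv_div_le _ _).trans_eq ?_; rw [rv_mul_nat, rv_PP]; norm_num
    have h2 : 1 / (2 * log 2) ≤ rv (PP * PP / (2 * l2Lo) + 1) := by
      refine le_trans ?_ (le_rv_mulPP_div _ _)
      rw [show ((PP : ℕ) : ℝ) / ((2 * l2Lo : ℕ) : ℝ) = 1 / (2 * rv l2Lo) by
        rw [rv]; push_cast; have := PP_pos; field_simp]
      exact one_div_le_one_div_of_le (by have := one_le_rv z; positivity) (by linarith)
    linarith
  have hbhi : b ≤ rv bhi := by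
    refine le_trans ?_ (le_rv_sub _ _)
    have h1 : 5 / 4 ≤ rv (5 * PP / 4 + 1) := by
      refine le_trans ?_ (rv_le_div_add _ _); rw [rv_mul_nat, rv_PP]; norm_num
    have h2 : rv (PP * PP / (2 * l2Hi)) ≤ 1 / (2 * log 2) := by
      refine (rv_mulPP_div_le _ _).trans ?_
      rw [show ((PP : ℕ) : ℝ) / ((2 * l2Hi : ℕ) : ℝ) = 1 / (2 * rv l2Hi) by
        rw [rv]; push_cast; have := PP_pos; field_simp]
      exact one_div_le_one_div_of_le (by positivity) (by linarith)
    linarith
  have frac0 : rv (x0 * PP / d0) ≤ x / (1 + 32 * x) := by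
    refine (rv_mulPP_div_le _ _).trans ?_
    rw [cast_div_cast, rd0, div_le_div_iff₀ (by linarith) (by linarith)]
    linarith
  have frac1 : x / (1 + 32 * x) ≤ rv (x1 * PP / d1 + 1) := by
    refine le_trans ?_ (le_rv_mulPP_div _ _)
    rw [cast_div_cast, rd1, div_le_div_iff₀ (by linarith) (by linarith [rv_nonneg x1])]
    linarith
  have hWC : WC m = (1 - x) * (1 - x / 4 + b * (x / (1 + 32 * x))) := by
    simp only [WC, hb, hx]; ring
  have q0 : 0 ≤ x / (1 + 32 * x) := by positivity
  set Wl := mD (PP - x1) ((PP - (x1 / 4 + 1)) + mD blo (x0 * PP / d0))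
  set Wh := mU (PP - x0) ((PP - x0 / 4) + mU bhi (x1 * PP / d1 + 1))
  have hlo : rv Wl ≤ WC m := by
    refine (rv_mD_le _ _).trans ?_
    rw [hWC]
    have u1 : rv (PP - x1) ≤ 1 - x := by
      rw [rv_sub, rv_PP]; exact max_le (by linarith) (by linarith)
    have u2 : rv (PP - (x1 / 4 + 1)) ≤ 1 - x / 4 := by
      rw [rv_sub, rv_PP]
      refine max_le (by linarith) ?_
      have := rv_le_div_add x1 4
      push_cast at this; linarith
    have u3 : rv (mD blo (x0 * PP / d0)) ≤ b * (x / (1 + 32 * x)) :=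
      (rv_mD_le _ _).trans (mul_le_mul hblo frac0 (rv_nonneg _) b0)
    refine mul_le_mul u1 ?_ (rv_nonneg _) (by linarith)
    rw [rv_add]; linarith
  have hhi : WC m ≤ rv Wh := by
    refine le_trans ?_ (le_rv_mU _ _)
    rw [hWC]
    have u1 : 1 - x ≤ rv (PP - x0) := by
      refine le_trans ?_ (le_rv_sub _ _); rw [rv_PP]; linarith
    have u2 : 1 - x / 4 ≤ rv (PP - x0 / 4) := by
      refine le_trans ?_ (le_rv_sub _ _); rw [rv_PP]
      have := rv_div_le x0 4; push_cast at this; linarith
    have u3 : b * (x / (1 + 32 * x)) ≤ rv (mU bhi (x1 * PP / d1 + 1)) :=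
      (mul_le_mul hbhi frac1 q0 (rv_nonneg _)).trans (le_rv_mU _ _)
    refine mul_le_mul u1 ?_ (by linarith [mul_nonneg b0 q0]) (rv_nonneg _)
    rw [rv_add]; linarith
  have Wlp : 0 < rv Wl := one_le_rv hWl
  have W0 : 0 < WC m := Wlp.trans_le hlo
  set E := 2 * mU (mU x1 x1) D * PP / Wl + 1
  have hE : e ≤ rv E := by
    refine le_trans ?_ (le_rv_mulPP_div _ _)
    rw [cast_div_cast, rv_two_mul, le_div_iff₀ Wlp]
    have hd := deficit_le hm0 hm1
    rw [← hx] at hd
    have h1 : x ^ 2 * D2 x ≤ rv (mU (mU x1 x1) D) := by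
      refine le_trans ?_ (le_rv_mU _ _)
      calc x ^ 2 * D2 x ≤ x ^ 2 * rv D := mul_le_mul_of_nonneg_left hD2 (sq_nonneg x)
        _ ≤ _ := mul_le_mul_of_nonneg_right
          ((by rw [sq]; exact mul_le_mul hx1 hx1 xn (rv_nonneg _) : x ^ 2 ≤ rv x1 * rv x1).trans
            (le_rv_mU x1 x1)) (rv_nonneg _)
    have := mul_le_mul_of_nonneg_left hlo he.le
    linarith
  have hE1 : rv E < 1 := rv_lt_one he1
  refine ⟨hE.trans_lt hE1, (condLhs_mono he hE hE1).trans ?_⟩
  have E0 : 0 < E := Nat.succ_pos _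
  have rE0 : 0 < rv E := one_le_rv E0
  have rPE : rv (PP + E) = 1 + rv E := by rw [rv_add, rv_PP]
  have l1 : log (1 + rv E) ≤ rv (lHi (PP + E) PP) := by
    have := le_lHi (num := PP + E) (den := PP) (by omega) pp
    rwa [cast_div_cast, rPE, rv_PP, div_one] at this
  have l2 : log (1 + 1 / rv E) ≤ rv (lHi (PP + E) E) := by
    have := le_lHi (num := PP + E) (den := E) (by omega) E0
    rw [cast_div_cast, rPE] at this
    refine le_trans (le_of_eq ?_) this
    congr 1; field_simp; ring
  set psi := E / 4 + 1 + ((mU E (lHi (PP + E) E) - E * PP / (PP + E)) / 3 + 1)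
  have hpsi : psiC (rv E) ≤ rv psi := by
    simp only [psi, psiC]
    rw [rv_add (E / 4 + 1)]
    refine add_le_add ?_ ?_
    · have := rv_le_div_add E 4; push_cast at this; exact this
    · refine le_trans ?_ (rv_le_div_add _ 3)
      push_cast
      refine div_le_div_of_nonneg_right (le_trans ?_ (le_rv_sub _ _)) (by norm_num)
      refine sub_le_sub ((mul_le_mul_of_nonneg_left l2 rE0.le).trans (le_rv_mU _ _)) ?_
      refine (rv_mulPP_div_le _ _).trans_eq ?_
      rw [cast_div_cast, rPE]
  have l3 : psiC (rv E) / (1 - rv E) ≤ rv (psi * PP / (PP - E) + 1) := by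
    refine le_trans ?_ (le_rv_mulPP_div _ _)
    rw [cast_div_cast, rv_sub_of_le (by omega), rv_PP]
    exact div_le_div_of_nonneg_right hpsi (by linarith)
  have h4 := rv_le hfin
  rw [rv_add] at h4
  have Whp : 0 < rv Wh := W0.trans_le hhi
  have Wh0 : 0 < Wh := Nat.pos_of_ne_zero fun z => by simp [z, rv] at Whp
  have h5 := lLo_le (num := PP) (den := Wh) Wh0
  rw [cast_div_cast, rv_PP, one_div, log_inv] at h5
  have h6 : max 0 (-log (rv Wh)) ≤ -log (WC m) := by
    refine max_le ?_ (neg_le_neg (log_le_log W0 hhi))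
    linarith [log_nonpos W0.le (WC_le_one (by linarith) hm1)]
  linarith

lemma cvAll_cover : ∀ (l : List ℕ) (a : ℕ), cvAll (a :: l) = true → ∀ x : ℝ, rv a ≤ x →
    x ≤ rv ((a :: l).getLast (List.cons_ne_nil a l)) →
    x = rv a ∧ l = [] ∨ ∃ x0 x1, cvOk x0 x1 = true ∧ rv x0 ≤ x ∧ x ≤ rv x1 := by
  intro l
  induction l with
  | nil => intro a _ x h1 h2; exact Or.inl ⟨le_antisymm (by simpa using h2) h1, rfl⟩
  | cons b l ih =>
    intro a h x h1 h2
    simp only [cvAll, Bool.and_eq_true] at h
    rcases le_total x (rv b) with hb | hb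
    · exact Or.inr ⟨a, b, h.1, h1, hb⟩
    · rw [List.getLast_cons (List.cons_ne_nil b l)] at h2
      rcases ih b h.2 x hb h2 with ⟨e, -⟩ | h'
      · exact Or.inr ⟨a, b, h.1, h1, e.le⟩
      · exact Or.inr h'

lemma small_case {m e : ℝ} (hm0 : 0 ≤ m) (hm1 : m < 1) (hx : m ^ 2 ≤ 3 / 1000) (he : 0 < e)
    (hed : WC m * e = 2 * (hh m - WC m * log 2)) :
    e < 1 ∧ log (1 + e) + psiC e / (1 - e) ≤ -log (WC m) := by
  have hd := deficit_le hm0 hm1
  have hl := log_two_gt_d9
  have hl' := log_two_lt_d9
  set x := m ^ 2 with hxd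
  have x0 : 0 < x := by
    refine lt_of_le_of_ne (sq_nonneg m) fun h => ?_
    have : m = 0 := by simpa [hxd] using h.symm
    subst this
    simp [WC, hh_eq, phi_zero] at hed
    linarith
  set b := 5 / 4 - 1 / (2 * log 2) with hb
  have b0 : 0 ≤ b := by rw [hb, sub_nonneg, div_le_iff₀ (by positivity)]; linarith
  have b1 : b ≤ 53 / 100 := by
    rw [hb, sub_le_iff_le_add, ← sub_le_iff_le_add', le_div_iff₀ (by positivity)]; linarith
  have hWC : WC m = (1 - x) * (1 - x / 4 + b * (x / (1 + 32 * x))) := by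
    simp only [WC, hb, hxd]; ring
  have q0 : 0 ≤ x / (1 + 32 * x) := by positivity
  have q1 : x / (1 + 32 * x) ≤ x := div_le_self x0.le (by linarith)
  have hWlo : 99 / 100 ≤ WC m := by
    rw [hWC]
    have := mul_nonneg (mul_nonneg b0 q0) (show 0 ≤ 1 - x by linarith)
    nlinarith
  have hWhi : WC m ≤ 1 - 7 / 10 * x := by
    rw [hWC]
    have h1 : b * (x / (1 + 32 * x)) ≤ 53 / 100 * x := mul_le_mul b1 q1 q0 (by norm_num)
    nlinarith [mul_le_mul_of_nonneg_left h1 (show 0 ≤ 1 - x by linarith)]
  have hD : D2 x ≤ 119 / 10 := by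
    have hr : 1 / (1 + 32 * x) ≤ 1 := by rw [div_le_one (by positivity)]; linarith
    have := mul_le_mul_of_nonneg_left hr (show 0 ≤ 165 / 4 * log 2 - 33 / 2 by linarith)
    unfold D2
    simp only [fun t : ℝ => div_eq_mul_one_div (165 / 4 : ℝ) t,
      fun t : ℝ => div_eq_mul_one_div (33 / 2 : ℝ) t]
    linarith [sq_nonneg x]
  have hE : e ≤ 25 * x ^ 2 := by
    have h1 := mul_le_mul_of_nonneg_left hWlo he.le
    have h2 := mul_le_mul_of_nonneg_left hD (sq_nonneg x)
    linarith
  set E := 25 * x ^ 2 with hEd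
  have E0 : 0 < E := by positivity
  have E1 : E ≤ 25 * (3 / 1000) * x := by rw [hEd]; nlinarith
  have E2 : E ≤ 1 / 1000 := by linarith
  refine ⟨by linarith, (condLhs_mono he hE (by linarith)).trans ?_⟩
  -- the logarithm
  have hlog : x * log (1 + 1 / E) ≤ 2 * (3 / 1000 * 7) := by
    have e1 : log (1 + 1 / E) ≤ -2 * log x := by
      rw [show (-2 : ℝ) * log x = log ((x ^ 2)⁻¹) by rw [log_inv, log_pow x 2]; push_cast; ring]
      refine log_le_log (by positivity) ?_
      rw [hEd, show 1 + 1 / (25 * x ^ 2) = (25 * x ^ 2 + 1) / (25 * x ^ 2) by field_simp,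
        inv_eq_one_div, div_le_div_iff₀ (by positivity) (by positivity)]
      have : x ^ 2 ≤ 1 / 100 := by nlinarith
      linarith [mul_le_mul_of_nonneg_right this (sq_nonneg x)]
    have e2 := log_le_sub_one_of_pos (show 0 < 3 / 1000 / x by positivity)
    rw [log_div (by norm_num) x0.ne'] at e2
    have e3 : -log (3 / 1000) ≤ 7 := by
      have h9 : log (512:ℝ) = 9 * log 2 := by
        rw [show (512:ℝ) = 2 ^ 9 by norm_num, log_pow]; norm_num
      have := log_le_log (show (0:ℝ) < 1 / 512 by norm_num) (show (1:ℝ) / 512 ≤ 3 / 1000 by norm_num)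
      rw [one_div, log_inv, h9] at this
      linarith
    have e4 : x * (3 / 1000 / x) = 3 / 1000 := by field_simp
    have := mul_le_mul_of_nonneg_left e1 x0.le
    have := mul_le_mul_of_nonneg_left e2 x0.le
    have := mul_le_mul_of_nonneg_left e3 x0.le
    nlinarith
  have hEl : E * log (1 + 1 / E) ≤ 25 * (2 * (3 / 1000 * 7)) * x := by
    rw [hEd, show 25 * x ^ 2 * log (1 + 1 / (25 * x ^ 2)) = 25 * x * (x * log (1 + 1 / E)) by
      rw [hEd]; ring]
    nlinarith
  have hpsi : psiC E ≤ 38 / 100 * x := by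
    have : 0 ≤ E / (1 + E) := by positivity
    unfold psiC; linarith
  have h1 : psiC E / (1 - E) ≤ 39 / 100 * x := by
    rw [div_le_iff₀ (by linarith)]; nlinarith
  have h2 : log (1 + E) ≤ E := by linarith [log_le_sub_one_of_pos (show 0 < 1 + E by linarith)]
  have h3 : 7 / 10 * x ≤ -log (WC m) := by
    linarith [log_le_sub_one_of_pos (show 0 < WC m by linarith)]
  linarith

/-- the condition at every mean where the entropy exceeds one half. -/
theorem curve_cond {m e : ℝ} (hm0 : 0 ≤ m) (hm1 : m < 1) (hH : 1 / 2 < hh m) (he : 0 < e)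
    (hed : WC m * e = 2 * (hh m - WC m * log 2)) :
    e < 1 ∧ Hc e 1 - Hc e 0 ≤ -log (WC m * e) := by
  have key : e < 1 ∧ log (1 + e) + psiC e / (1 - e) ≤ -log (WC m) := by
    rcases le_or_gt (m ^ 2) (3 / 1000) with h | h
    · exact small_case hm0 hm1 h he hed
    · have hx := x_lt_of_half_lt hm0 hm1 hH
      have hP : ((PP : ℕ) : ℝ) = 79228162514264337593543950336 := by unfold PP; norm_num
      obtain ⟨-, h'⟩ | ⟨x0, x1, hok, g0, g1⟩ := cvAll_cover _ _ cvAll_ok (m ^ 2) (by
          refine le_trans ?_ h.le; rw [rv, hP]; norm_num) (by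
          refine le_trans hx ?_; simp only [List.getLast]; rw [rv, hP]; norm_num)
      · exact absurd h' (by simp)
      · exact cv_sound hok hm0 hm1 g0 g1 he hed
  refine ⟨key.1, ?_⟩
  have := Hc_diff he key.1
  rw [log_mul (WC_pos (by linarith) hm1).ne' he.ne']
  linarith [key.2]

end Vale.Agent.P322.General
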