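import Vale.Agent.P322.Edge
import Vale.Agent.P322.Tail
import Vale.Agent.P322.GoalAll
import Vale.Agent.P322.General.SlackTree0
import Vale.Agent.P322.General.SlackTree1
import Vale.Agent.P322.General.SlackTree2
import Vale.Agent.P322.General.SlackTree3

/-!
The slack in the edge inequality.
-/

noncomputable section
namespace Vale.Agent.P322.Cert
open Real

lemma tail_arithC {a b p Lam w T Tt c l ly d : ℝ} (hp : 106 / 10 ≤ p) (h1 : a ≤ p - 21 / 100)
    (hb : b ≤ 9 / 100 * (p - log 2 + 1 / 1000))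
    (h2 : T ≤ Tt) (h3 : Lam - w - 2 * log 2 ≤ T) (h4 : 0 ≤ T) (h5 : c + 73 / 100 - l ≤ ly)
    (h6 : l ≤ 303 / 100 + (2 * p + 101 / 100 - 20) / 20) (h7 : min w Lam - log 2 ≤ c)
    (h8 : 14999 / 20000 * ly ≤ d) (h9 : 2 * p - 2 * log 2 ≤ Lam) : a + b ≤ Tt + d := by
  have hL := log_two_gt_d9
  have hL' := log_two_lt_d9
  rcases le_total w Lam with h | h
  · rw [min_eq_left h] at h7; linarith
  · rw [min_eq_right h] at h7; linarith

/-- the analytic tail with slack. -/
theorem goalC_tail {t s : ℝ} (ht : 1 - 11 / 10000000000 ≤ t) (t1 : t < 1) (s0 : 0 < s) (s1 : s < 1) :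
    GoalC (9 / 100) t s := by
  have hL := log_two_gt_d9
  have hL' := log_two_lt_d9
  have t0 : 0 < t := by linarith
  unfold GoalC
  set A := t ^ 2 with hA
  set B := s ^ 2 with hB
  have A0 : 0 < A := by positivity
  have A1 : A < 1 := by rw [hA]; nlinarith
  have B0 : 0 < B := by positivity
  have B1 : B < 1 := by rw [hB]; nlinarith
  have hA' : 99 / 100 ≤ A := by rw [hA]; nlinarith
  have heps : 1 - A ≤ 22 / 10000000000 := by rw [hA]; nlinarith
  have AB1 : A * B < 1 := by nlinarith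
  have D0 : 0 < 1 - A * B := by linarith
  set p := At t with hp
  set Lam := -log (1 - A) with hLam
  have hLamlow : 19816 / 1000 ≤ Lam := by
    have h1 : log (1 - A) ≤ log (22 / 10000000000) := log_le_log (by linarith) heps
    have h2 : log ((2:ℝ) ^ 28 * (22 / 10000000000)) ≤ (2:ℝ) ^ 28 * (22 / 10000000000) - 1 :=
      log_le_sub_one_of_pos (by norm_num)
    rw [log_mul (by norm_num) (by norm_num), log_pow] at h2
    norm_num at h2 ⊢
    linarith
  have hpL : p = log (1 + t) + Lam / 2 := by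
    rw [hp, At_eq (by linarith) t1, hLam, ← hA]; ring
  have ht2 : log 2 - 1 / 100000 ≤ log (1 + t) := by
    have := log_le_sub_one_of_pos (show 0 < 2 / (1 + t) by positivity)
    rw [log_div two_ne_zero (by linarith)] at this
    have : 2 / (1 + t) ≤ 1 + 1 / 100000 := by rw [div_le_iff₀ (by linarith)]; linarith
    linarith
  have ht3 : log (1 + t) ≤ log 2 := log_le_log (by linarith) (by linarith)
  have hp95 : 106 / 10 ≤ p := by linarith
  have p0 : 0 < p := by linarith
  -- the entropy coordinate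
  have hx : xz p = log 2 - log (1 + t) + p * (1 - t) := by
    rw [hp, xz_At (by linarith) t1, ← hA, one_div, log_inv, ← hLam, ← hp, hpL]; ring
  have hx1 : xz p / (1 - A) ≤ (2 * p + 101 / 100) / (3999 / 1000) := by
    rw [hx, hA, show 1 - t ^ 2 = (1 - t) * (1 + t) by ring, div_le_iff₀ (by nlinarith)]
    have h2 : log 2 - log (1 + t) ≤ (1 - t) / (1 + t) := by
      have := log_le_sub_one_of_pos (show 0 < 2 / (1 + t) by positivity)
      rw [log_div two_ne_zero (by linarith)] at this
      have e : 2 / (1 + t) - 1 = (1 - t) / (1 + t) := by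
        have : (1:ℝ) + t ≠ 0 := by linarith
        field_simp; ring
      linarith
    refine (add_le_add h2 le_rfl).trans ?_
    have h3 : (1 - t) / (1 + t) ≤ (1 - t) / (19999 / 10000) := by gcongr <;> linarith
    nlinarith [mul_nonneg (sub_nonneg.2 t1.le) p0.le, mul_nonneg (mul_nonneg (sub_nonneg.2 t1.le) p0.le) (sub_nonneg.2 t1.le)]
  have hxs : xz p ≤ 1 / 1000 := xz_small (by linarith)
  -- left side
  have hQ : Qz p ≤ p - log 2 + 1 / 1000 := by
    have hE := Ez_le_log_two p0.le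
    have : p * tanh p ≤ p := by nlinarith [tanh_lt_one' p]
    simp only [Ez] at hE
    simp only [Qz]; linarith
  have lhs := lhs_bound A0 A1 B0 B1 (Qz_nonneg p0.le) hQ
  have hTTt := TT_le_TTt A0 A1 s0 s1
  set w := -log (1 - B) with hw
  have hT : Lam - w - 2 * log 2 ≤ TT A s := TT_lower A0 A1 s0 s1
  have hTT0 := TT_nonneg A0.le A1 s0 s1
  have hgy := gy_lower A0 A1 B0 B1 hA' (by linarith)
  set y := (1 + A * B) / (1 - A * B) * phiR A B * log 2 / (xz p / (1 - A)) with hy
  have hy0 := y_lower A0 A1 B0 B1 (div_pos (xz_pos_of_nonneg p0.le) (by linarith : 0 < 1 - A)) p0 hx1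
  rw [← hy] at hy0
  have hln := log_lin p0
  have hcase : min w Lam - log 2 ≤ log (1 / (1 - A * B)) := log_inv_D A0 A1 B0 B1
  have hdn : 14999 / 20000 * log y ≤ max 0 (gyR A B) / 2 * max 0 (log y) := by
    clear_value y
    exact le_trans (mul_le_mul_of_nonneg_left (le_max_right 0 (log y)) (by norm_num))
      (mul_le_mul_of_nonneg_right (by have := le_max_right 0 (gyR A B); linarith) (le_max_left _ _))
  exact tail_arithC hp95 lhs (mul_le_mul_of_nonneg_left hQ (by norm_num)) hTTt hT hTT0 hy0 hln hcase hdn (by linarith)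

lemma GoalC.mono {c c' t s : ℝ} (h : GoalC c t s) (hc : c' ≤ c) (hQ : 0 ≤ Qz (At t)) :
    GoalC c' t s := by
  have := mul_le_mul_of_nonneg_right hc hQ
  unfold GoalC at h ⊢
  linarith

theorem goalC_65 {t s : ℝ} (h1 : 39 / 50 ≤ t) (h2 : t ≤ 24 / 25) (s0 : 0 < s) (s1 : s < 1) :
    GoalC (65 / 1000) t s := by
  have hp : ((PP : ℕ) : ℝ) = 79228162514264337593543950336 := by unfold PP; norm_num
  have a : rv 0 ≤ s := by simp [rv]; exact s0.le
  have b : s ≤ rv PP := by rw [rv_PP]; exact s1.le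
  have hQ := Qz_nonneg (At_pos (show 0 < t by linarith) (show t < 1 by linarith)).le
  have hc : (65 / 1000 : ℝ) ≤ rv 5149830563427181943580356772 := by rw [rv, hp]; norm_num
  refine GoalC.mono ?_ hc hQ
  have lo : rv 61790043944838555153960271872 ≤ t := le_trans (by rw [rv, hp]; norm_num) h1
  have hi : t ≤ rv 76066958829892040842199171072 := h2.trans (by rw [rv, hp]; norm_num)
  rcases le_total t (rv 67343938137081452398089601024) with g0 | g0
  · exact slackTree0.soundC _ _ _ _ _ slackTree0_ok t s lo g0 a b s0 s1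
  rcases le_total t (rv 73016674573119957500205989888) with g1 | g1
  · exact slackTree1.soundC _ _ _ _ _ slackTree1_ok t s g0 g1 a b s0 s1
  rcases le_total t (rv 75662895201116677794311438336) with g2 | g2
  · exact slackTree2.soundC _ _ _ _ _ slackTree2_ok t s g1 g2 a b s0 s1
  exact slackTree3.soundC _ _ _ _ _ slackTree3_ok t s g2 hi a b s0 s1

theorem goalC_90 {t s : ℝ} (h1 : 24 / 25 ≤ t) (h2 : t < 1) (s0 : 0 < s) (s1 : s < 1) :
    GoalC (9 / 100) t s := by
  have hp : ((PP : ℕ) : ℝ) = 79228162514264337593543950336 := by unfold PP; norm_num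
  rcases le_total (1 - 11 / 10000000000) t with hh | hh
  · exact goalC_tail hh h2 s0 s1
  have a : rv 0 ≤ s := by simp [rv]; exact s0.le
  have b : s ≤ rv PP := by rw [rv_PP]; exact s1.le
  have hQ := Qz_nonneg (At_pos (show 0 < t by linarith) h2).le
  have hc : (9 / 100 : ℝ) ≤ rv 7130534626283790383418955531 := by rw [rv, hp]; norm_num
  refine GoalC.mono ?_ hc hQ
  have lo : rv 76051113197429194350890319872 ≤ t := le_trans (by rw [rv, hp]; norm_num) h1
  have hi : t ≤ rv 79228162435000984151823220736 := hh.trans (by rw [rv, hp]; norm_num)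
  rcases le_total t (rv 78435880889104400395039408128) with g0 | g0
  · exact slackTree4.soundC _ _ _ _ _ slackTree4_ok t s lo g0 a b s0 s1
  rcases le_total t (rv 79148934351733932354885910528) with g1 | g1
  · exact slackTree5.soundC _ _ _ _ _ slackTree5_ok t s g0 g1 a b s0 s1
  rcases le_total t (rv 79220239697996885550870560768) with g2 | g2
  · exact slackTree6.soundC _ _ _ _ _ slackTree6_ok t s g1 g2 a b s0 s1
  rcases le_total t (rv 79227370232587152073450061824) with g3 | g3
  · exact slackTree7.soundC _ _ _ _ _ slackTree7_ok t s g2 g3 a b s0 s1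
  rcases le_total t (rv 79228083286075001763323183104) with g4 | g4
  · exact slackTree8.soundC _ _ _ _ _ slackTree8_ok t s g3 g4 a b s0 s1
  rcases le_total t (rv 79228154591387757935291531264) with g5 | g5
  · exact slackTree9.soundC _ _ _ _ _ slackTree9_ok t s g4 g5 a b s0 s1
  rcases le_total t (rv 79228161721919033552488366080) with g6 | g6
  · exact slackTree10.soundC _ _ _ _ _ slackTree10_ok t s g5 g6 a b s0 s1
  exact slackTree11.soundC _ _ _ _ _ slackTree11_ok t s g6 hi a b s0 s1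

end Vale.Agent.P322.Cert

namespace Vale.Agent.P322.General
open Real Set Vale.Agent.P322.Cert

/-- the edge inequality without slack, in the edge coordinates. -/
theorem edge_base0 {t s : ℝ} (h : Box t s) :
    0 ≤ Ne t s + Pi2 (Ye t s) (xz (At t)) - Pi2 (Xe t s) (xz (At t)) := by
  rcases le_or_gt (11 / 25) t with h44 | h44
  · have := Ne_ge_Pi2_large h h44 fun u a b => goal_all t u h44 h.t1 a b
    linarith
  · have := Ne_ge_Pi2_small h (by nlinarith [h.t0])
    linarith [Pi2_nonneg h.Ye_pos (xz_pos_of_nonneg (At_pos h.t0 h.t1).le)]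

lemma edge_deriv_slack {c t u : ℝ} (b : Box t u) (h44 : 11 / 25 ≤ t) (hG : GoalC c t u) :
    c * Qz (At t) ≤ TTt (t ^ 2) u - (1 - kapR (t ^ 2) (u ^ 2) / 4) * Qz (Zi (xz (At t) / Xe t u))
      + gyR (t ^ 2) (u ^ 2) * Qz (Zi (xz (At t) / Ye t u)) := by
  set x := xz (At t) with hxd
  have hp := (At_pos b.t0 b.t1).le
  have hx : 0 < x := xz_pos_of_nonneg hp
  have hX := b.Xe_pos_le
  have hr := b.one_le_Re
  have hr0 : 0 < Re t u := by linarith
  have hg := b.gyR_nonneg (by nlinarith)
  -- above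
  have hQ : Qz (Zi (x / Xe t u)) ≤ Qz (At t) + log 2 * log (Re t u) := by
    have h1 : Zi (x / Xe t u) ≤ Zi (x / Re t u) :=
      Zi_antitone (show (0:ℝ) < x / Re t u from div_pos hx hr0)
        (show (0:ℝ) < x / Xe t u from div_pos hx hX.1) (div_le_div_of_nonneg_left hx.le hX.1 hX.2)
    have h2 := Qz_monotone (Zi_nonneg _) (Zi_nonneg _) h1
    have h3 : xz (Zi (x / Re t u)) = x / Re t u :=
      xz_Zi (div_pos hx hr0) ((div_le_self hx.le hr).trans (xz_le_log_two hp))
    have h4 : At t ≤ Zi (x / Re t u) := by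
      have := Zi_antitone (show (0:ℝ) < x / Re t u from div_pos hx hr0) (show (0:ℝ) < x from hx)
        (div_le_self hx.le hr)
      rwa [hxd, Zi_xz hp] at this
    have h5 := Qz_sub_le_log hp h4
    rw [h3, ← hxd, div_div_cancel₀ hx.ne'] at h5
    linarith
  -- below
  have hY := b.Ye_pos
  have hQY : max 0 (log (Ye t u * log 2 / x)) / 2 ≤ Qz (Zi (x / Ye t u)) := by
    have hz := Zi_nonneg (x / Ye t u)
    rcases le_or_gt (x / Ye t u) (log 2) with hc | hc
    · have h1 := half_log_le_Qz hz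
      have e : log 2 / (x / Ye t u) = Ye t u * log 2 / x := by field_simp
      rw [xz_Zi (div_pos hx hY) hc, e] at h1
      rcases max_choice 0 (log (Ye t u * log 2 / x)) with e' | e' <;> rw [e'] <;>
        linarith [Qz_nonneg hz]
    · have : log (Ye t u * log 2 / x) ≤ 0 := by
        refine log_nonpos (by positivity) ?_
        rw [div_le_one hx]
        rw [lt_div_iff₀ hY] at hc
        linarith
      rw [max_eq_left this]
      linarith [Qz_nonneg hz]
  unfold GoalC at hG
  have e : (1 + t ^ 2 * u ^ 2) / (1 - t ^ 2 * u ^ 2) * phiR (t ^ 2) (u ^ 2) * log 2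
      / (xz (At t) / (1 - t ^ 2)) = Ye t u * log 2 / x := by
    have := (sub_pos.2 b.A1).ne'
    rw [Ye, hxd]; field_simp
  rw [e, max_eq_right hg, ← b.Re_eq] at hG
  have h1 : (1 - kapR (t ^ 2) (u ^ 2) / 4) * Qz (Zi (x / Xe t u))
      ≤ max 0 (1 - kapR (t ^ 2) (u ^ 2) / 4) * (Qz (At t) + log 2 * log (Re t u)) :=
    (mul_le_mul_of_nonneg_right (le_max_right 0 _) (Qz_nonneg (Zi_nonneg _))).trans
      (mul_le_mul_of_nonneg_left hQ (le_max_left _ _))
  have h2 := mul_le_mul_of_nonneg_left hQY hg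
  linarith

lemma hasDerivAt_Re {t s : ℝ} (b : Box t s) : HasDerivAt (Re t)
    (2 * s * t ^ 2 * (1 - t ^ 2) / (1 - t ^ 2 * s ^ 2) ^ 2) s := by
  have hD := b.D0
  have hE' : HasDerivAt (fun x => 1 - (t ^ 2) ^ 2 * x ^ 2) (-((t ^ 2) ^ 2 * (2 * s))) s := by
    simpa using (((hasDerivAt_pow 2 s).const_mul ((t ^ 2) ^ 2)).const_sub 1)
  refine (hE'.div b.hasDerivAt_D hD.ne').congr_deriv ?_
  field_simp
  ring

lemma edge_slack {c t s : ℝ} (h : Box t s) (h44 : 11 / 25 ≤ t)
    (H : ∀ u, 0 < u → u < 1 → GoalC c t u) :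
    c * Qz (At t) * (Re t s - 1) ≤ Ne t s + Pi2 (Ye t s) (xz (At t)) - Pi2 (Xe t s) (xz (At t)) := by
  have hx := xz_pos_of_nonneg (At_pos h.t0 h.t1).le
  have bx : ∀ u, 0 ≤ u → u < 1 → Box t u := fun u a b => ⟨h.t0, h.t1, a, b⟩
  have hm : MonotoneOn (fun u => Ne t u - Pi2 (Xe t u) (xz (At t)) + Pi2 (Ye t u) (xz (At t))
      - c * Qz (At t) * (Re t u - 1)) (Icc 0 s) := by
    refine monotoneOn_of_deriv_nonneg (convex_Icc _ _) ?_ ?_ ?_
    · intro u hu
      have hh := bx u hu.1 (lt_of_le_of_lt hu.2 h.s1)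
      refine ContinuousAt.continuousWithinAt (ContinuousAt.sub (ContinuousAt.add (ContinuousAt.sub ?_
        (continuousAt_Pi2_fst hh.hasDerivAt_Xe hh.Xe_pos_le.1 hx).continuousAt)
        (continuousAt_Pi2_fst hh.hasDerivAt_Ye hh.Ye_pos hx).continuousAt)
        (((hasDerivAt_Re hh).sub_const 1).const_mul _).continuousAt)
      have hAt : ContinuousAt (fun x => At (t ^ 2 * x)) u :=
        ((hasDerivAt_At hh.as1.1 hh.as1.2).comp u (h := fun x => t ^ 2 * x)
          ((hasDerivAt_id u).const_mul (t ^ 2))).continuousAt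
      have := hh.D0.ne'; have := hh.D1.ne'; have := (sub_pos.2 hh.B1).ne'
      unfold Ne; fun_prop (disch := assumption)
    all_goals
      intro u hu; rw [interior_Icc] at hu
      have b := bx u hu.1.le (hu.2.trans h.s1)
      have hd : HasDerivAt (fun u => Ne t u - Pi2 (Xe t u) (xz (At t)) + Pi2 (Ye t u) (xz (At t))
          - c * Qz (At t) * (Re t u - 1))
          _ u := (((b.hasDerivAt_Ne hu.1).sub
        (continuousAt_Pi2_fst b.hasDerivAt_Xe b.Xe_pos_le.1 hx)).add
        (continuousAt_Pi2_fst b.hasDerivAt_Ye b.Ye_pos hx)).sub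
        (((hasDerivAt_Re b).sub_const 1).const_mul _)
    · exact hd.differentiableAt.differentiableWithinAt
    · rw [hd.deriv]
      have hc : 0 ≤ 2 * u * t ^ 2 * (1 - t ^ 2) / (1 - t ^ 2 * u ^ 2) ^ 2 := by
        have := sub_pos.2 b.A1; have := b.s0; positivity
      have := mul_nonneg hc (sub_nonneg.2 (edge_deriv_slack b h44 (H u hu.1 b.s1)))
      linarith
  have h0 := hm ⟨le_rfl, h.s0⟩ ⟨h.s0, le_rfl⟩ h.s0
  have e := edge_start (bx 0 le_rfl zero_lt_one)
  have hR : Re t 0 = 1 := by simp [Re]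
  simp only at h0
  rw [e.1, e.2, hR] at h0
  linarith

/-- slack 0.065 on `0.78 ≤ t ≤ 0.96`. -/
theorem edge_base1 {t s : ℝ} (h : Box t s) (h1 : 39 / 50 ≤ t) (h2 : t ≤ 24 / 25) :
    65 / 1000 * Qz (At t) * (Re t s - 1)
      ≤ Ne t s + Pi2 (Ye t s) (xz (At t)) - Pi2 (Xe t s) (xz (At t)) :=
  edge_slack h (by linarith) fun _ a b => goalC_65 h1 h2 a b

/-- slack 0.09 on `0.96 ≤ t`. -/
theorem edge_base2 {t s : ℝ} (h : Box t s) (h1 : 24 / 25 ≤ t) :
    9 / 100 * Qz (At t) * (Re t s - 1)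
      ≤ Ne t s + Pi2 (Ye t s) (xz (At t)) - Pi2 (Xe t s) (xz (At t)) :=
  edge_slack h (by linarith) fun _ a b => goalC_90 h1 h.t1 a b

end Vale.Agent.P322.General
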