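import Vale.Agent.P322.Noise
import Vale.Agent.P322.Edge0

/-!
The comparison for an arbitrary mean, for a suitable weight.
-/

noncomputable section
namespace Vale.Agent.P322.General
open Real Set Finset

/-- what the comparison needs from a weight. -/
def GoodW (W : ℝ → ℝ) : Prop :=
  ∀ m, -1 < m → m < 1 →
    0 < W m ∧ W m ≤ 1 ∧ W m * log 2 ≤ hh m ∧ (1 - W m) * hh m ≤ m ^ 2 / 2

/-- the part of `GoodW` that every step needs. -/
def GoodW0 (W : ℝ → ℝ) : Prop :=
  ∀ m, -1 < m → m < 1 → 0 < W m ∧ W m ≤ 1 ∧ W m * log 2 ≤ hh m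

lemma GoodW.base {W : ℝ → ℝ} (h : GoodW W) : GoodW0 W :=
  fun m a b => ⟨(h m a b).1, (h m a b).2.1, (h m a b).2.2.1⟩

/-- the tensorised lower bound for a weight. -/
def DisGe (W : ℝ → ℝ) : Prop :=
  ∀ (n : ℕ) (g : Cube n → ℝ), (∀ x, -1 < g x ∧ g x < 1) →
    2 * (hh (Ex g) - Ex (fun x => hh (g x))) + Pi2 (W (Ex g)) (Ex fun x => hh (g x)) ≤ Dis g

lemma phi_neg (t : ℝ) : phi (-t) = phi t := by simp only [phi]; ring_nf

lemma phi_monotoneOn : MonotoneOn phi (Ico 0 1) := by
  refine monotoneOn_of_deriv_nonneg (convex_Ico 0 1) continuous_phi.continuousOn ?_ ?_ <;>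
    intro x hx <;> rw [interior_Ico] at hx
  · exact (hasDerivAt_phi (by linarith [hx.1]) hx.2).differentiableAt.differentiableWithinAt
  · rw [(hasDerivAt_phi (by linarith [hx.1]) hx.2).deriv]
    exact (At_pos hx.1 hx.2).le

lemma le_At {t : ℝ} (h0 : 0 ≤ t) (h1 : t < 1) : t ≤ At t := by
  have hm : MonotoneOn (fun x => At x - x) (Ico 0 1) := by
    refine monotoneOn_of_deriv_nonneg (convex_Ico 0 1)
      (fun x hx => ((hasDerivAt_At (by linarith [hx.1]) hx.2).sub (hasDerivAt_id x)).continuousAt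
        |>.continuousWithinAt) ?_ ?_ <;>
      intro x hx <;> rw [interior_Ico] at hx <;>
      have hd : HasDerivAt (fun x => At x - x) _ x :=
        (hasDerivAt_At (by linarith [hx.1]) hx.2).sub (hasDerivAt_id x)
    · exact hd.differentiableAt.differentiableWithinAt
    · rw [hd.deriv, sub_nonneg, le_div_iff₀ (by nlinarith [hx.1, hx.2])]
      nlinarith
  have := hm ⟨le_rfl, zero_lt_one⟩ ⟨h0, h1⟩ h0
  simp only [At_zero, sub_zero] at this
  linarith

lemma sq_half_le_phi {t : ℝ} (h0 : -1 < t) (h1 : t < 1) : t ^ 2 / 2 ≤ phi t := by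
  have key : ∀ t, 0 ≤ t → t < 1 → t ^ 2 / 2 ≤ phi t := by
    intro t h0 h1
    have hd : ∀ x, 0 ≤ x → x < 1 → HasDerivAt (fun x => phi x - x ^ 2 / 2) (At x - x) x :=
      fun x a b => ((hasDerivAt_phi (by linarith) b).sub
        ((hasDerivAt_pow 2 x).div_const 2)).congr_deriv (by simp)
    have hm : MonotoneOn (fun x => phi x - x ^ 2 / 2) (Ico 0 1) := by
      refine monotoneOn_of_deriv_nonneg (convex_Ico 0 1)
        (fun x hx => (hd x hx.1 hx.2).continuousAt.continuousWithinAt) ?_ ?_ <;>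
        intro x hx <;> rw [interior_Ico] at hx
      · exact (hd x hx.1.le hx.2).differentiableAt.differentiableWithinAt
      · rw [(hd x hx.1.le hx.2).deriv]; linarith [le_At hx.1.le hx.2]
    have := hm ⟨le_rfl, zero_lt_one⟩ ⟨h0, h1⟩ h0
    simp only [phi_zero] at this
    linarith
  rcases le_total 0 t with h | h
  · exact key t h h1
  · simpa [phi_neg] using key (-t) (by linarith) (by linarith)

lemma phi_nonneg_Icc {t : ℝ} (h0 : 0 ≤ t) (h1 : t ≤ 1) : 0 ≤ phi t := by
  rcases h1.lt_or_eq with h | h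
  · exact le_trans (by positivity) (sq_half_le_phi (by linarith) h)
  · rw [h, phi_one]; exact (log_pos one_lt_two).le

/-- `hh` at an abstract mean. -/
lemma hh_eq (m : ℝ) : hh m = log 2 - phi m := rfl

section
variable {W : ℝ → ℝ} (hW : GoodW0 W) (hK : DisGe W) {n : ℕ} {F : Cube n → ℝ}
  (hF : ∀ x, |F x| ≤ 1) (hp : ∃ a, F a < 1) (hm : ∃ a, -1 < F a)
include hF hp hm

lemma Ex_mem_of : -1 < Ex F ∧ Ex F < 1 := by
  have h := Ex_mem (Tn_mem (r := 0) le_rfl one_pos hF hp hm)
  rwa [Ex_Tn] at h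

include hW hK in
lemma dis_bound {t : ℝ} (t0 : 0 < t) (t1 : t < 1) :
    2 * (Info t F - phi (Ex F)) + Pi2 (W (Ex F)) (hh (Ex F) - (Info t F - phi (Ex F)))
      ≤ Dis (Tn t F) ∧ 0 < hh (Ex F) - (Info t F - phi (Ex F)) ∧
    0 ≤ Pi2 (W (Ex F)) (hh (Ex F) - (Info t F - phi (Ex F))) := by
  have hg := Tn_mem t0.le t1 hF hp hm
  have hD := hK n (Tn t F) hg
  rw [Ex_Tn] at hD
  have hη : Ex (fun x => hh (Tn t F x)) = log 2 - Info t F := by
    simp only [hh, Info]; rw [Ex_sub, Ex_const]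
  have e : hh (Ex F) - (Info t F - phi (Ex F)) = log 2 - Info t F := by rw [hh_eq]; ring
  rw [hη, show hh (Ex F) - (log 2 - Info t F) = Info t F - phi (Ex F) by rw [hh_eq]; ring] at hD
  have ηpos : 0 < log 2 - Info t F := hη ▸ Ex_pos fun x => hh_pos (hg x).1 (hg x).2
  rw [e]
  obtain ⟨a, b⟩ := Ex_mem_of hF hp hm
  exact ⟨hD, ηpos, Pi2_nonneg (hW _ a b).1 ηpos⟩

include hW hK in
lemma Info_le_affine {r : ℝ} (hr0 : 0 < r) (hr1 : r < 1) :
    Info r F - phi (Ex F)
      ≤ W (Ex F) * phi r + ((1 - W (Ex F)) * log 2 - phi (Ex F)) := by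
  obtain ⟨hma, hmb⟩ := Ex_mem_of hF hp hm
  obtain ⟨hw0, -, hwb⟩ := hW _ hma hmb
  set m := Ex F with hmd
  set w := W m with hw
  set δ := (1 - w) * log 2 - phi m with hδ
  have hδ0 : 0 ≤ δ := by rw [hδ]; rw [hh_eq] at hwb; linarith
  by_contra hlt
  rw [not_le] at hlt
  have hlim : ∀ᶠ a in nhds r, w * phi a + δ < Info r F - phi m :=
    ((continuous_const.mul continuous_phi).add continuous_const).tendsto r |>.eventually
      (gt_mem_nhds hlt)
  obtain ⟨a, ⟨ha, ha1⟩, hra⟩ : ∃ a, (w * phi a + δ < Info r F - phi m ∧ a < 1) ∧ r < a :=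
    (((hlim.and (gt_mem_nhds hr1)).filter_mono nhdsWithin_le_nhds).and
      (self_mem_nhdsWithin : Ioi r ∈ nhdsWithin r (Ioi r))).exists
  set k := a / r with hk
  have k1 : 1 < k := (one_lt_div hr0).2 hra
  set b := 1 / k with hb
  have hb1 : b < 1 := by rw [hb, div_lt_one (by linarith)]; exact k1
  have hrb : r ≤ b := by
    rw [hb, le_div_iff₀ (by linarith), hk]; field_simp; linarith
  set u : ℝ → ℝ := fun t => Info t F - phi m - (w * phi (k * t) + δ) with hu
  have huc : Continuous u :=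
    ((continuous_Info F).sub continuous_const).sub
      ((continuous_const.mul (continuous_phi.comp (continuous_const.mul continuous_id))).add
        continuous_const)
  have ur : 0 < u r := by
    simp only [hu, hk]; rw [div_mul_cancel₀ _ hr0.ne']; linarith
  have ub : u b ≤ 0 := by
    simp only [hu, hb]
    rw [mul_one_div_cancel (by linarith), phi_one]
    have : Info (1 / k) F ≤ Ex (fun _ : Cube n => log 2) := by
      refine Ex_le fun x => ?_
      obtain ⟨c, d⟩ := Tn_mem (by positivity : (0:ℝ) ≤ 1 / k) hb1 hF hp hm x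
      exact phi_le_log_two (abs_le.2 ⟨c.le, d.le⟩)
    rw [Ex_const] at this
    rw [hδ]
    linarith
  obtain ⟨t1, ⟨⟨ht1, ht1b⟩, hut⟩, hleast⟩ :=
    (isCompact_Icc.inter_right (isClosed_le huc continuous_const) :
      IsCompact (Icc r b ∩ {t | u t ≤ u r / 2})).exists_isLeast ⟨b, ⟨hrb, le_rfl⟩, by
        show u b ≤ u r / 2; linarith⟩
  have hut' : u t1 ≤ u r / 2 := hut
  have hmono : MonotoneOn u (Icc r t1) := by
    have hd : ∀ t ∈ Ioo r t1, ∃ d, 0 ≤ d ∧ HasDerivAt u d t := by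
      intro t ⟨t0, t2⟩
      have tpos : 0 < t := hr0.trans t0
      have tb : t < b := lt_of_lt_of_le t2 ht1b
      have kt0 : 0 < k * t := by positivity
      have kt1 : k * t < 1 := by rw [hb, lt_div_iff₀ (by linarith)] at tb; linarith
      have hutpos : u r / 2 < u t := by
        by_contra hh
        have := hleast ⟨⟨t0.le, tb.le⟩, not_lt.1 hh⟩
        linarith
      refine ⟨Dis (Tn t F) / t - w * (At (k * t) * k), ?_, ?_⟩
      · obtain ⟨hD, ηpos, -⟩ := dis_bound hW hK hF hp hm tpos (tb.trans hb1)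
        rw [← hmd, ← hw] at hD
        rw [← hmd] at ηpos
        set z := At (k * t) with hzd
        have hz : tanh z = k * t := tanh_At (by linarith) kt1
        have z0 : 0 ≤ z := (At_pos kt0 kt1).le
        have hle := le_Pi2 hw0 ηpos z0
        have hx : xz z = log 2 - phi (k * t) := by rw [← hh_tanh, hz, hh]
        have hI : w * phi (k * t) + δ ≤ Info t F - phi m := by
          simp only [hu] at hutpos; linarith
        have hη : hh m - (Info t F - phi m) ≤ w * xz z := by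
          rw [hx, hh_eq]; rw [hδ] at hI; linarith
        have hmul := mul_le_mul_of_nonneg_right hη (Sz_nonneg z0)
        have eQ : w * Qz z
            = w * (z * (k * t)) - 2 * w * log 2 + 2 * (w * xz z) + w * xz z * Sz z := by
          rw [Qz, hz]; ring
        have eX : w * xz z = w * log 2 - w * phi (k * t) := by rw [hx]; ring
        rw [sub_nonneg, le_div_iff₀ tpos]
        linarith
      · exact ((hasDerivAt_Info tpos (tb.trans hb1) hF hp hm).sub_const _).sub
          ((((hasDerivAt_phi (by linarith) kt1).comp t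
            ((hasDerivAt_id t).const_mul k)).const_mul w).add_const δ) |>.congr_deriv (by simp)
    refine monotoneOn_of_deriv_nonneg (convex_Icc _ _) huc.continuousOn ?_ ?_ <;>
      intro t ht <;> rw [interior_Icc] at ht <;> obtain ⟨d, hd0, hd1⟩ := hd t ht
    · exact hd1.differentiableAt.differentiableWithinAt
    · rwa [hd1.deriv]
  have := hmono ⟨le_rfl, ht1⟩ ⟨ht1, le_rfl⟩ ht1
  linarith

include hW hK in
lemma Info_div_sq_mono :
    MonotoneOn (fun t => (Info t F - phi (Ex F)) / t ^ 2) (Ioo 0 1) := by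
  have hd : ∀ t, 0 < t → t < 1 → HasDerivAt (fun t => (Info t F - phi (Ex F)) / t ^ 2)
      ((Dis (Tn t F) - 2 * (Info t F - phi (Ex F))) / t ^ 3) t := fun t t0 t1 =>
    (((hasDerivAt_Info t0 t1 hF hp hm).sub_const _).div (hasDerivAt_pow 2 t)
      (pow_ne_zero 2 t0.ne')).congr_deriv (by simp; field_simp)
  refine monotoneOn_of_deriv_nonneg (convex_Ioo 0 1)
    (fun x hx => (hd x hx.1 hx.2).continuousAt.continuousWithinAt) ?_ ?_ <;>
    intro x hx <;> rw [interior_Ioo] at hx
  · exact (hd x hx.1 hx.2).differentiableAt.differentiableWithinAt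
  · rw [(hd x hx.1 hx.2).deriv]
    obtain ⟨hD, -, hP⟩ := dis_bound hW hK hF hp hm hx.1 hx.2
    exact div_nonneg (by linarith) (pow_nonneg hx.1.le 3)

include hK in
lemma Info_le_phi_aux (hG : GoodW W) {r : ℝ} (hr0 : 0 < r) (hr1 : r < 1) :
    Info r F - phi (Ex F) ≤ phi r := by
  obtain ⟨hma, hmb⟩ := Ex_mem_of hF hp hm
  obtain ⟨hw0, hw1, hwb, hwf⟩ := hG _ hma hmb
  set m := Ex F with hmd
  have hA := Info_le_affine hG.base hK hF hp hm hr0 hr1
  rw [← hmd] at hA
  have hsq := sq_half_le_phi hma hmb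
  have habs : phi |m| = phi m := by
    rcases abs_choice m with h | h <;> rw [h]; exact phi_neg m
  have hab : |m| < 1 := abs_lt.2 ⟨hma, hmb⟩
  rw [hh_eq] at hwf
  rcases le_or_gt |m| r with h | h
  · have := phi_monotoneOn ⟨abs_nonneg m, hab⟩ ⟨hr0.le, hr1⟩ h
    rw [habs] at this
    have := mul_le_mul_of_nonneg_left this (sub_nonneg.2 hw1)
    linarith
  · have ha0 : 0 < |m| := hr0.trans h
    have hB := Info_le_affine hG.base hK hF hp hm ha0 hab
    rw [← hmd, habs] at hB
    have hmono := Info_div_sq_mono hG.base hK hF hp hm ⟨hr0, hr1⟩ ⟨ha0, hab⟩ h.le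
    simp only [← hmd] at hmono
    have h2 : (Info |m| F - phi m) / |m| ^ 2 ≤ 1 / 2 := by
      rw [div_le_iff₀ (by positivity), sq_abs]
      linarith
    have h3 := hmono.trans h2
    rw [div_le_iff₀ (by positivity)] at h3
    linarith [sq_half_le_phi (show -1 < r by linarith) hr1]

end

/-- no Boolean function beats the coordinate, given the tensorised bound. -/
theorem Info_sub_le_phi {W : ℝ → ℝ} (hW : GoodW W) (hK : DisGe W) {n : ℕ} {F : Cube n → ℝ}
    (hF : ∀ x, |F x| ≤ 1) {r : ℝ} (hr0 : 0 ≤ r) (hr1 : r ≤ 1) :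
    Info r F - phi (Ex F) ≤ phi r := by
  have hn := phi_nonneg_Icc hr0 hr1
  have hconst : ∀ c : ℝ, (∀ x, F x = c) → Info r F - phi (Ex F) ≤ phi r := by
    intro c hc
    have e : F = fun _ => c := funext hc
    have h1 : ∀ x, Tn r F x = c := fun x => by
      simp only [Tn, hc, ← Finset.sum_mul, sum_ker, one_mul]
    simp only [Info, h1, Ex_const]
    rw [e, Ex_const]
    simpa using hn
  by_cases hp : ∃ a, F a < 1
  swap
  · exact hconst 1 fun x => le_antisymm (abs_le.1 (hF x)).2 (not_lt.1 fun h => hp ⟨x, h⟩)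
  by_cases hm : ∃ a, -1 < F a
  swap
  · exact hconst (-1) fun x => le_antisymm (not_lt.1 fun h => hm ⟨x, h⟩) (abs_le.1 (hF x)).1
  exact le_on_closure (s := Ioo (0 : ℝ) 1) (f := fun t => Info t F - phi (Ex F)) (g := phi)
    (fun t ht => Info_le_phi_aux hK hF hp hm hW ht.1 ht.2)
    ((continuous_Info F).sub continuous_const).continuousOn continuous_phi.continuousOn
    (by rw [closure_Ioo zero_ne_one]; exact ⟨hr0, hr1⟩)

/-- the quartic weight. -/
def Wk (m : ℝ) : ℝ := (1 - m ^ 2) * (1 + (1 - 1 / (2 * log 2)) * m ^ 2)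

lemma kap_bounds : 0 < 1 - 1 / (2 * log 2) ∧ 1 - 1 / (2 * log 2) ≤ 1 := by
  have := log_two_gt_d9
  constructor
  · rw [sub_pos, div_lt_one (by linarith)]; linarith
  · exact sub_le_self _ (by positivity)

lemma Wk_eq (m : ℝ) :
    1 - Wk m = m ^ 2 * (1 / (2 * log 2) + (1 - 1 / (2 * log 2)) * m ^ 2) := by
  unfold Wk; ring

lemma phi_le_quartic {m : ℝ} (h0 : 0 ≤ m) (h1 : m < 1) :
    phi m ≤ m ^ 2 / 2 + (log 2 - 1 / 2) * m ^ 4 := by
  rcases h0.eq_or_lt with e | e
  · simp [← e, phi_zero]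
  have hq : ∀ x, 0 ≤ x → x < 1 → 0 ≤ x * At x - 4 * phi x + x ^ 2 := by
    intro x x0 x1
    have hd1 : ∀ y, 0 ≤ y → y < 1 → HasDerivAt (fun y => y * At y - 4 * phi y + y ^ 2)
        (y / (1 - y ^ 2) + 2 * y - 3 * At y) y := fun y a b =>
      ((((hasDerivAt_id y).mul (hasDerivAt_At (by linarith) b)).sub
        ((hasDerivAt_phi (by linarith) b).const_mul 4)).add (hasDerivAt_pow 2 y)).congr_deriv
        (by simp; ring)
    have hd2 : ∀ y, 0 ≤ y → y < 1 → HasDerivAt (fun y => y / (1 - y ^ 2) + 2 * y - 3 * At y)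
        (2 * y ^ 4 / (1 - y ^ 2) ^ 2) y := fun y a b => by
      have hne : (1 : ℝ) - y ^ 2 ≠ 0 := by nlinarith
      refine (((hasDerivAt_id y).div ((hasDerivAt_pow 2 y).const_sub 1) hne).add
        ((hasDerivAt_id y).const_mul 2) |>.sub
        ((hasDerivAt_At (by linarith) b).const_mul 3)).congr_deriv ?_
      simp only [id, Nat.cast_ofNat, Nat.add_one_sub_one, pow_one]
      field_simp
      ring
    have hm2 : MonotoneOn (fun y => y / (1 - y ^ 2) + 2 * y - 3 * At y) (Ico 0 1) := by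
      refine monotoneOn_of_deriv_nonneg (convex_Ico 0 1)
        (fun y hy => (hd2 y hy.1 hy.2).continuousAt.continuousWithinAt) ?_ ?_ <;>
        intro y hy <;> rw [interior_Ico] at hy
      · exact (hd2 y hy.1.le hy.2).differentiableAt.differentiableWithinAt
      · rw [(hd2 y hy.1.le hy.2).deriv]; positivity
    have hm1 : MonotoneOn (fun y => y * At y - 4 * phi y + y ^ 2) (Ico 0 1) := by
      refine monotoneOn_of_deriv_nonneg (convex_Ico 0 1)
        (fun y hy => (hd1 y hy.1 hy.2).continuousAt.continuousWithinAt) ?_ ?_ <;>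
        intro y hy <;> rw [interior_Ico] at hy
      · exact (hd1 y hy.1.le hy.2).differentiableAt.differentiableWithinAt
      · rw [(hd1 y hy.1.le hy.2).deriv]
        have := hm2 ⟨le_rfl, zero_lt_one⟩ ⟨hy.1.le, hy.2⟩ hy.1.le
        simpa [At_zero] using this
    have := hm1 ⟨le_rfl, zero_lt_one⟩ ⟨x0, x1⟩ x0
    simpa [At_zero, phi_zero] using this
  have hd : ∀ x, 0 < x → x < 1 → HasDerivAt (fun x => (phi x - x ^ 2 / 2) / x ^ 4)
      ((x * At x - 4 * phi x + x ^ 2) / x ^ 5) x := fun x a b =>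
    (((hasDerivAt_phi (by linarith) b).sub ((hasDerivAt_pow 2 x).div_const 2)).div
      (hasDerivAt_pow 4 x) (pow_ne_zero 4 a.ne')).congr_deriv (by simp; field_simp; ring)
  have hc : ContinuousOn (fun x => (phi x - x ^ 2 / 2) / x ^ 4) (Icc m 1) :=
    (continuous_phi.sub (by fun_prop)).continuousOn.div (by fun_prop) fun x hx =>
      pow_ne_zero 4 (ne_of_gt (e.trans_le hx.1))
  have hm : MonotoneOn (fun x => (phi x - x ^ 2 / 2) / x ^ 4) (Icc m 1) := by
    refine monotoneOn_of_deriv_nonneg (convex_Icc m 1) hc ?_ ?_ <;>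
      intro x hx <;> rw [interior_Icc] at hx <;> have hx0 : 0 < x := e.trans hx.1
    · exact (hd x hx0 hx.2).differentiableAt.differentiableWithinAt
    · rw [(hd x hx0 hx.2).deriv]
      exact div_nonneg (hq x hx0.le hx.2) (pow_nonneg hx0.le 5)
  have := hm ⟨le_rfl, h1.le⟩ ⟨h1.le, le_rfl⟩ h1.le
  simp only [phi_one, one_pow, div_one] at this
  rw [div_le_iff₀ (pow_pos e 4)] at this
  linarith

lemma goodW_Wk : GoodW Wk := by
  intro m h1 h2
  have hx1 : m ^ 2 < 1 := by nlinarith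
  obtain ⟨k0, k1⟩ := kap_bounds
  have hl := log_two_gt_d9
  have hl' := log_two_lt_d9
  set c := 1 / (2 * log 2) with hc
  have c0 : 0 < c := by positivity
  have cL : c * log 2 = 1 / 2 := by rw [hc]; field_simp
  have hfac : 0 ≤ c + (1 - c) * m ^ 2 := by nlinarith [sq_nonneg m]
  refine ⟨?_, ?_, ?_, ?_⟩
  · unfold Wk; rw [← hc]; exact mul_pos (by linarith) (by nlinarith [sq_nonneg m])
  · have := Wk_eq m
    rw [← hc] at this
    linarith [mul_nonneg (sq_nonneg m) hfac]
  · have hq : phi m ≤ m ^ 2 / 2 + (log 2 - 1 / 2) * m ^ 4 := by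
      rcases le_total 0 m with h | h
      · exact phi_le_quartic h h2
      · have := phi_le_quartic (neg_nonneg.2 h) (by linarith)
        rw [phi_neg] at this
        linarith [show (-m) ^ 4 = m ^ 4 by ring, show (-m) ^ 2 = m ^ 2 by ring]
    have e : Wk m * log 2 = log 2 - m ^ 2 / 2 - (log 2 - 1 / 2) * m ^ 4 := by
      have := Wk_eq m
      rw [← hc] at this
      linear_combination (-log 2) * this + (-m ^ 2 + m ^ 4) * cL
    rw [hh_eq]; linarith
  · have hh1 : hh m ≤ log 2 - m ^ 2 / 2 := by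
      rw [hh_eq]; linarith [sq_half_le_phi h1 h2]
    rw [Wk_eq, ← hc]
    calc m ^ 2 * (c + (1 - c) * m ^ 2) * hh m
        ≤ m ^ 2 * (c + (1 - c) * m ^ 2) * (log 2 - m ^ 2 / 2) :=
          mul_le_mul_of_nonneg_left hh1 (mul_nonneg (sq_nonneg m) hfac)
      _ ≤ m ^ 2 * (1 / 2) := by
          rw [mul_assoc]
          refine mul_le_mul_of_nonneg_left ?_ (sq_nonneg m)
          have h4 : log 2 - 1 / 2 - c / 2 ≤ 0 := by
            have : 7 / 10 ≤ c := by rw [hc, le_div_iff₀ (by positivity)]; linarith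
            linarith
          nlinarith [mul_nonneg (sq_nonneg m) (neg_nonneg.2 h4),
            mul_nonneg (mul_nonneg k0.le (sq_nonneg m)) (sq_nonneg m)]
      _ = m ^ 2 / 2 := by ring

end Vale.Agent.P322.General
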