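import Vale.Agent.P322.General.Curve
import Vale.Agent.P322.General.CurveCond
import Vale.Agent.P322.General.BridgeAll
import Vale.Agent.P322.General.Tangent

/-!
The inequality of Courtade and Kumar for every Boolean function, given the tensorised bound for
the lowered weight.
-/

noncomputable section
namespace Vale.Agent.P322.General
open Real Set Finset

lemma goodW0_WC : GoodW0 WC := fun _ a b =>
  ⟨WC_pos a b, WC_le_one a b, WC_mul_log_two_le a b⟩

lemma Info_le_log_two {n : ℕ} {F : Cube n → ℝ} (hF : ∀ x, |F x| ≤ 1) (hp : ∃ a, F a < 1)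
    (hm : ∃ a, -1 < F a) {t : ℝ} (t0 : 0 ≤ t) (t1 : t < 1) : Info t F ≤ log 2 :=
  calc Info t F ≤ Ex (fun _ : Cube n => log 2) := Ex_le fun x => by
        obtain ⟨c, d⟩ := Tn_mem t0 t1 hF hp hm x
        exact phi_le_log_two (abs_le.2 ⟨c.le, d.le⟩)
    _ = log 2 := Ex_const n _

lemma Info_le_phi_WC_aux (hK : DisGe WC) {n : ℕ} {F : Cube n → ℝ}
    (hF : ∀ x, |F x| ≤ 1) (hp : ∃ a, F a < 1) (hm : ∃ a, -1 < F a)
    {r : ℝ} (hr0 : 0 < r) (hr1 : r < 1) : Info r F - phi (Ex F) ≤ phi r := by
  obtain ⟨hma, hmb⟩ := Ex_mem_of hF hp hm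
  set m := Ex F with hmd
  have hsq := sq_half_le_phi (show -1 < r by linarith) hr1
  rcases le_or_gt (hh m) (1 / 2) with hH | hH
  · have key : (Info r F - phi m) * 1 ^ 2 ≤ hh m * r ^ 2 := by
      refine le_on_closure (s := Ioo r 1) (f := fun a => (Info r F - phi m) * a ^ 2)
        (g := fun _ => hh m * r ^ 2) (fun a ha => ?_) (by fun_prop) continuousOn_const
        (by rw [closure_Ioo hr1.ne]; exact ⟨hr1.le, le_rfl⟩)
      have a0 : 0 < a := hr0.trans ha.1
      have h := Info_div_sq_mono goodW0_WC hK hF hp hm ⟨hr0, hr1⟩ ⟨a0, ha.2⟩ ha.1.le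
      simp only [← hmd] at h
      rw [div_le_div_iff₀ (by positivity) (by positivity)] at h
      have hI : Info a F - phi m ≤ hh m := by
        have := Info_le_log_two hF hp hm a0.le ha.2
        rw [hh_eq]; linarith
      linarith [mul_le_mul_of_nonneg_right hI (sq_nonneg r)]
    have := mul_le_mul_of_nonneg_right hH (sq_nonneg r)
    linarith
  · obtain ⟨hw0, hw1, hwb⟩ := goodW0_WC m hma hmb
    rcases hwb.lt_or_eq with hlt | heq
    · set e := 2 * (hh m - WC m * log 2) / WC m with hed'
      have he : 0 < e := div_pos (by linarith) hw0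
      have hed : WC m * e = 2 * (hh m - WC m * log 2) := by
        rw [hed', mul_div_cancel₀ _ hw0.ne']
      have hW : WC |m| = WC m := by
        rcases abs_choice m with h | h <;> rw [h]; exact WC_neg m
      have hh' : hh |m| = hh m := by
        rcases abs_choice m with h | h <;> rw [h]; simp only [hh_eq, phi_neg]
      obtain ⟨he1, hc⟩ := curve_cond (abs_nonneg m) (abs_lt.2 ⟨hma, hmb⟩)
        (by rw [hh']; exact hH) he (by rw [hW, hh']; exact hed)
      rw [hW] at hc
      exact Info_le_phi_curve goodW0_WC hK hF hp hm he he1 hed hc hr0 hr1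
    · have h := Info_le_affine goodW0_WC hK hF hp hm hr0 hr1
      rw [← hmd] at h
      rw [hh_eq] at heq
      have := mul_le_of_le_one_left (phi_nonneg_Icc hr0.le hr1.le) hw1
      linarith

/-- no Boolean function beats the coordinate, given the tensorised bound for the lowered weight. -/
theorem Info_sub_le_phi_WC (hK : DisGe WC) {n : ℕ} {F : Cube n → ℝ}
    (hF : ∀ x, |F x| ≤ 1) {r : ℝ} (hr0 : 0 ≤ r) (hr1 : r ≤ 1) :
    Info r F - phi (Ex F) ≤ phi r := by
  have hn := phi_nonneg_Icc hr0 hr1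
  have hconst : ∀ c : ℝ, (∀ x, F x = c) → Info r F - phi (Ex F) ≤ phi r := by
    intro c hc
    have e : F = fun _ => c := funext hc
    have h1 : ∀ x, Tn r F x = c := fun x => by
      simp only [Tn, hc, ← Finset.sum_mul, sum_ker, one_mul]
    simp only [Info, h1, Ex_const]
    rw [e, Ex_const]
    simpa using hn
  by_cases hp : ∃ a, F a < 1
  swap
  · exact hconst 1 fun x => le_antisymm (abs_le.1 (hF x)).2 (not_lt.1 fun h => hp ⟨x, h⟩)
  by_cases hm : ∃ a, -1 < F a
  swap
  · exact hconst (-1) fun x => le_antisymm (not_lt.1 fun h => hm ⟨x, h⟩) (abs_le.1 (hF x)).1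
  exact le_on_closure (s := Ioo (0 : ℝ) 1) (f := fun t => Info t F - phi (Ex F)) (g := phi)
    (fun t ht => Info_le_phi_WC_aux hK hF hp hm ht.1 ht.2)
    ((continuous_Info F).sub continuous_const).continuousOn continuous_phi.continuousOn
    (by rw [closure_Ioo zero_ne_one]; exact ⟨hr0, hr1⟩)

/-- the inequality of Courtade and Kumar for every Boolean function, given the tensorised bound
for the lowered weight. -/
theorem CK_of_WC (hK : DisGe WC) :
    ∀ (n : ℕ) (f : (Fin n → Bool) → Bool) (ε : ℝ), 0 ≤ ε → ε ≤ 1 / 2 →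
      mutualInfo f ε ≤ 1 - binEntropy ε / log 2 := by
  intro n f ε h0 h1
  have hl : 0 < log 2 := log_pos one_lt_two
  rw [mutualInfo_eq_all f h0 (by linarith), one_sub_div hl.ne', ← phi_one_sub_two h0 h1]
  gcongr
  refine Info_sub_le_phi_WC hK (fun x => ?_) (by linarith) (by linarith)
  cases f x <;> simp [sgn]

/-- the inequality of Courtade and Kumar, given the two-point inequality for the lowered weight. -/
theorem CK_of_TPL_WC (hK : TPL WC) :
    ∀ (n : ℕ) (f : (Fin n → Bool) → Bool) (ε : ℝ), 0 ≤ ε → ε ≤ 1 / 2 →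
      mutualInfo f ε ≤ 1 - binEntropy ε / log 2 :=
  CK_of_WC (disGe_of_TPL (fun _ a b => ⟨WC_pos a b, WC_mul_log_two_le a b⟩) WC_neg hK)

end Vale.Agent.P322.General
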