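import Vale.Agent.P322.Reduce

/-!
The loss between two weights is convex in the entropy.
-/

noncomputable section
namespace Vale.Agent.P322.General
open Real Filter Topology Set

lemma div_sinh_two_le_xz {z : ℝ} (hz : 0 < z) : z / sinh (2 * z) ≤ xz z := by
  set f : ℝ → ℝ := fun x => xz x - x / sinh (2 * x) with hf
  have hd : ∀ x, 0 < x → HasDerivAt f
      ((2 * x - sinh (2 * x)) / sinh (2 * x) ^ 2) x := by
    intro x hx
    have hs : sinh (2 * x) ≠ 0 := (sinh_pos_iff.2 (by linarith)).ne'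
    have h2 : HasDerivAt (fun y : ℝ => 2 * y) 2 x := by simpa using (hasDerivAt_id x).const_mul 2
    refine ((hasDerivAt_xz x).sub ((hasDerivAt_id x).div
      ((hasDerivAt_sinh (2 * x)).comp x h2) hs)).congr_deriv ?_
    simp only [id, Function.comp]
    rw [sinh_two_mul, cosh_two_mul]
    have := cosh_sq_sub_sinh_sq x
    have := (sinh_pos_iff.2 hx).ne'
    field_simp
    grind
  have ha : AntitoneOn f (Ici z) := by
    refine antitoneOn_of_deriv_nonpos (convex_Ici z)
      (fun x hx => (hd x (hz.trans_le hx)).continuousAt.continuousWithinAt) ?_ ?_ <;>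
      intro x hx <;> rw [interior_Ici] at hx <;> have hx0 : 0 < x := hz.trans hx
    · exact (hd x hx0).differentiableAt.differentiableWithinAt
    · rw [(hd x hx0).deriv]
      exact div_nonpos_of_nonpos_of_nonneg
        (by linarith [self_le_sinh_iff.2 (show (0:ℝ) ≤ 2 * x by linarith)]) (sq_nonneg _)
  have hl : Tendsto f atTop (𝓝 0) := by
    have : Tendsto (fun x : ℝ => x / sinh (2 * x)) atTop (𝓝 0) := by
      refine squeeze_zero' (eventually_atTop.2 ⟨1, fun x hx =>
        div_nonneg (by linarith) (sinh_nonneg_iff.2 (by linarith))⟩)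
        (eventually_atTop.2 ⟨1, fun x hx => ?_⟩)
        (show Tendsto (fun x : ℝ => 4 * (x * exp (-x))) atTop (𝓝 0) by
          simpa using ((tendsto_pow_mul_exp_neg_atTop_nhds_zero 1).const_mul 4))
      have h1 := add_one_le_exp x
      have hxx : exp x * exp (-x) = 1 := by rw [← exp_add]; simp
      have hs : exp x / 4 ≤ sinh (2 * x) := by
        rw [sinh_eq, show exp (2 * x) = exp x * exp x by rw [← exp_add]; ring_nf]
        have := exp_le_one_iff.2 (show -(2 * x) ≤ 0 by linarith)
        nlinarith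
      rw [div_le_iff₀ (by linarith [exp_pos x])]
      have := mul_le_mul_of_nonneg_left hs
        (show 0 ≤ 4 * (x * exp (-x)) from by have := exp_pos (-x); positivity)
      linarith [show 4 * (x * exp (-x)) * (exp x / 4) = x by linear_combination x * hxx]
    simpa [hf] using xz_tendsto.sub this
  have : 0 ≤ f z := le_of_tendsto hl (eventually_atTop.2 ⟨z, fun x hx => ha self_mem_Ici hx hx⟩)
  simp only [hf] at this
  linarith

/-- `xz z * cosh z ^ 2`. -/
lemma xz_cosh_monotone : MonotoneOn (fun z => xz z * cosh z ^ 2) (Ioi 0) := by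
  have hd : ∀ x, HasDerivAt (fun z => xz z * cosh z ^ 2) (-x + xz x * sinh (2 * x)) x := fun x => by
    refine ((hasDerivAt_xz x).mul ((hasDerivAt_cosh x).pow 2)).congr_deriv ?_
    have := cosh_ne x
    simp only [Pi.pow_apply]
    rw [sinh_two_mul]
    field_simp
    ring
  refine monotoneOn_of_deriv_nonneg (convex_Ioi 0)
    (fun x _ => (hd x).continuousAt.continuousWithinAt) ?_ ?_ <;>
    intro x hx <;> rw [interior_Ioi] at hx
  · exact (hd x).differentiableAt.differentiableWithinAt
  · rw [(hd x).deriv]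
    have hs : 0 < sinh (2 * x) := sinh_pos_iff.2 (by linarith [mem_Ioi.1 hx])
    have := (div_le_iff₀ hs).1 (div_sinh_two_le_xz hx)
    linarith

lemma Sd_div_monotone : MonotoneOn (fun z => Sd z / z) (Ioi 0) := by
  set k : ℝ → ℝ := fun x => x ^ 2 * sinh x - 3 * x * cosh x + 3 * sinh x with hk
  have hkd : ∀ x, HasDerivAt k (x * (x * cosh x - sinh x)) x := fun x =>
    ((((hasDerivAt_id x).pow 2).mul (hasDerivAt_sinh x)).sub
      (((hasDerivAt_id x).const_mul 3).mul (hasDerivAt_cosh x)) |>.add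
      ((hasDerivAt_sinh x).const_mul 3)).congr_deriv (by simp; ring)
  have hk0 : ∀ x, 0 ≤ x → 0 ≤ k x := fun x hx => by
    have hm : MonotoneOn k (Ici 0) := by
      refine monotoneOn_of_deriv_nonneg (convex_Ici 0)
        (fun y _ => (hkd y).continuousAt.continuousWithinAt) ?_ ?_ <;>
        intro y hy <;> rw [interior_Ici] at hy
      · exact (hkd y).differentiableAt.differentiableWithinAt
      · rw [(hkd y).deriv]
        have := sinh_two_lt (show 0 < y / 2 by linarith [mem_Ioi.1 hy])
        rw [show 2 * (y / 2) = y by ring] at this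
        exact mul_nonneg (le_of_lt hy) (by linarith)
    have := hm self_mem_Ici hx hx
    simpa [hk] using this
  have hd : ∀ x : ℝ, 0 < x → HasDerivAt (fun z => Sd z / z) (k (2 * x) / (2 * x ^ 4)) x := by
    intro x hx
    have h2 : HasDerivAt (fun y : ℝ => 2 * y) 2 x := by simpa using (hasDerivAt_id x).const_mul 2
    refine ((((h2.mul ((hasDerivAt_cosh (2 * x)).comp x h2)).sub
      ((hasDerivAt_sinh (2 * x)).comp x h2)).div (((hasDerivAt_id x).pow 2).const_mul 2)
        (by simp only [Pi.pow_apply, id]; positivity)).div (hasDerivAt_id x) hx.ne').congr_deriv ?_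
    simp only [hk, id, Function.comp, Pi.pow_apply, Pi.mul_apply, Pi.sub_apply, Pi.div_apply]
    field_simp
    ring
  refine monotoneOn_of_deriv_nonneg (convex_Ioi 0)
    (fun x hx => (hd x hx).continuousAt.continuousWithinAt) ?_ ?_ <;>
    intro x hx <;> rw [interior_Ioi] at hx
  · exact (hd x hx).differentiableAt.differentiableWithinAt
  · rw [(hd x hx).deriv]
    exact div_nonneg (hk0 _ (by linarith [mem_Ioi.1 hx])) (by positivity)

lemma Zi_pos {s : ℝ} (h0 : 0 < s) (h1 : s < log 2) : 0 < Zi s :=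
  (Zi_nonneg s).lt_of_ne fun h => by
    have := xz_Zi h0 h1.le
    rw [← h, xz_zero] at this
    linarith

lemma hasDerivAt_Zi {s : ℝ} (h0 : 0 < s) (h1 : s < log 2) :
    HasDerivAt Zi (-(Zi s / cosh (Zi s) ^ 2))⁻¹ s := by
  refine HasDerivAt.of_local_left_inverse (continuousOn_Zi.continuousAt (Ioi_mem_nhds h0))
    (hasDerivAt_xz (Zi s)) ?_ ?_
  · have := Zi_pos h0 h1
    exact neg_ne_zero.2 (div_ne_zero this.ne' (pow_ne_zero 2 (cosh_ne _)))
  · filter_upwards [Ioo_mem_nhds h0 h1] with t ht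
    exact xz_Zi ht.1 ht.2.le

lemma hasDerivAt_Sz_Zi {Y η : ℝ} (hY : 0 < Y) (hη : 0 < η) (h : η < Y * log 2) :
    HasDerivAt (fun x => Sz (Zi (x / Y)))
      (-(xz (Zi (η / Y)) * cosh (Zi (η / Y)) ^ 2 * (Sd (Zi (η / Y)) / Zi (η / Y))) / η) η := by
  have h1 : η / Y < log 2 := by rw [div_lt_iff₀ hY]; linarith
  have hs := div_pos hη hY
  have hp := Zi_pos hs h1
  refine ((hasDerivAt_Sz hp).comp η ((hasDerivAt_Zi hs h1).comp η
    ((hasDerivAt_id η).div_const Y))).congr_deriv ?_
  rw [xz_Zi hs h1.le]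
  field_simp

/-- the derivative of the loss is increasing. -/
lemma slope_diff_monotone {W V : ℝ} (hV : 0 < V) (hVW : V ≤ W) :
    MonotoneOn (fun x => Sz (Zi (x / V)) - Sz (Zi (x / W))) (Ioi 0) := by
  have hW : 0 < W := hV.trans_le hVW
  have hVL : 0 < V * log 2 := mul_pos hV (log_pos one_lt_two)
  set f : ℝ → ℝ := fun x => Sz (Zi (x / V)) - Sz (Zi (x / W)) with hf
  have hc : ContinuousOn f (Ioi 0) := by
    have := fun (Y : ℝ) (hY : 0 < Y) => continuous_Sz.comp_continuousOn
      (continuousOn_Zi.comp (continuousOn_id.div_const Y) fun x (hx : x ∈ Ioi 0) => div_pos hx hY)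
    exact (this V hV).sub (this W hW)
  have h1 : MonotoneOn f (Ioc 0 (V * log 2)) := by
    have hd : ∀ x ∈ Ioo 0 (V * log 2), ∃ y, 0 ≤ y ∧ HasDerivAt f y x := by
      intro x hx
      have hxW : x < W * log 2 := hx.2.trans_le (mul_le_mul_of_nonneg_right hVW (log_pos one_lt_two).le)
      refine ⟨_, ?_, (hasDerivAt_Sz_Zi hV hx.1 hx.2).sub (hasDerivAt_Sz_Zi hW hx.1 hxW)⟩
      have hsV : x / V < log 2 := by rw [div_lt_iff₀ hV]; linarith [hx.2]
      have hz := Zi_antitone (show (0:ℝ) < x / W from div_pos hx.1 hW)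
        (show (0:ℝ) < x / V from div_pos hx.1 hV) (div_le_div_of_nonneg_left hx.1.le hV hVW)
      have p := Zi_pos (div_pos hx.1 hV) hsV
      have := mul_le_mul (xz_cosh_monotone p (p.trans_le hz) hz) (Sd_div_monotone p (p.trans_le hz) hz)
        (div_nonneg (Sd_pos p).le p.le)
        (mul_nonneg (xz_pos_of_nonneg (Zi_nonneg _)).le (sq_nonneg _))
      rw [← sub_div]
      exact div_nonneg (by linarith) hx.1.le
    refine monotoneOn_of_deriv_nonneg (convex_Ioc _ _) (hc.mono Ioc_subset_Ioi_self) ?_ ?_ <;>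
      intro x hx <;> rw [interior_Ioc] at hx <;> obtain ⟨y, hy, hy'⟩ := hd x hx
    · exact hy'.differentiableAt.differentiableWithinAt
    · rwa [hy'.deriv]
  have h2 : MonotoneOn f (Ici (V * log 2)) := by
    intro a ha b hb hab
    have z0 : ∀ x, V * log 2 ≤ x → Sz (Zi (x / V)) = 0 := fun x hx => by
      have hp : 0 < x / V := div_pos (hVL.trans_le hx) hV
      have : Zi (x / V) = 0 := by
        refine xz_strictAnti.injOn (Zi_nonneg _) self_mem_Ici ?_
        rw [xz_Zi' hp, xz_zero, min_eq_right ((le_div_iff₀ hV).2 (by linarith))]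
      rw [this, Sz_zero]
    simp only [hf, z0 a ha, z0 b hb]
    have := Sz_strictMono.monotoneOn (Zi_nonneg _) (Zi_nonneg _)
      (Zi_antitone (show (0:ℝ) < a / W from div_pos (hVL.trans_le ha) hW)
        (show (0:ℝ) < b / W from div_pos (hVL.trans_le hb) hW) (div_le_div_of_nonneg_right hab hW.le))
    linarith
  have := h1.union_right h2 ⟨⟨hVL, le_rfl⟩, fun x hx => hx.2⟩ ⟨self_mem_Ici, fun x hx => hx⟩
  rwa [Ioc_union_Ici_eq_Ioi hVL] at this

/-- the loss between two weights is convex. -/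
lemma gap_convexOn {W V : ℝ} (hV : 0 < V) (hVW : V ≤ W) :
    ConvexOn ℝ (Ioi 0) fun x => Pi2 W x - Pi2 V x := by
  have hd : ∀ x, 0 < x → HasDerivAt (fun x => Pi2 W x - Pi2 V x)
      (Sz (Zi (x / V)) - Sz (Zi (x / W))) x := fun x hx =>
    ((hasDerivAt_Pi2 (hV.trans_le hVW) hx).sub (hasDerivAt_Pi2 hV hx)).congr_deriv (by ring)
  refine MonotoneOn.convexOn_of_deriv (convex_Ioi 0)
    (fun x hx => (hd x hx).continuousAt.continuousWithinAt) ?_ ?_
  · intro x hx
    rw [interior_Ioi] at hx
    exact (hd x hx).differentiableAt.differentiableWithinAt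
  · rw [interior_Ioi]
    intro a ha b hb hab
    rw [(hd a ha).deriv, (hd b hb).deriv]
    exact slope_diff_monotone hV hVW ha hb hab

/-- on an interval the loss plus a line is largest at an end. -/
lemma gap_line_le_max {W V lm a b η : ℝ} (hV : 0 < V) (hVW : V ≤ W) (ha : 0 < a) (hη : η ∈ Icc a b) :
    Pi2 W η - Pi2 V η + lm * η
      ≤ max (Pi2 W a - Pi2 V a + lm * a) (Pi2 W b - Pi2 V b + lm * b) := by
  have hc : ConvexOn ℝ (Ioi 0) fun x => Pi2 W x - Pi2 V x + lm * x :=
    (gap_convexOn hV hVW).add ((LinearMap.convexOn (lm • LinearMap.id) (convex_Ioi 0)).congr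
      (fun x _ => by simp))
  exact hc.le_max_of_mem_Icc ha (ha.trans_le (hη.1.trans hη.2)) hη

end Vale.Agent.P322.General
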