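import Vale.Agent.P322.General.Coth

/-!
Convexity of the pair profile in the coordinates `p`, `R`.
-/

noncomputable section
namespace Vale.Agent.P322.General
open Real Set

/-- product of the two exponential factors. -/
def Ye (p R : ℝ) : ℝ := sinh (2 * p) ^ 2 * (R ^ 2 - 1)

/-- mean entropy over half distance of a pair. -/
def Gf (p R : ℝ) : ℝ :=
  sinh (2 * p) * (R ^ 2 - 1) * log (Ye p R) / (4 * Ee p R) - R * log (Ee p R) / 2 - p

/-- partial derivative in `p`. -/
def Gp (p R : ℝ) : ℝ := -((R ^ 2 - 1) * log (Ye p R)) / (2 * Ee p R ^ 2)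

/-- partial derivative in `R`. -/
def GR (p R : ℝ) : ℝ :=
  sinh (2 * p) * log (Ye p R) * (sinh (2 * p) * (R ^ 2 + 1) - 2 * R * cosh (2 * p))
      / (4 * Ee p R ^ 2) - log (Ee p R) / 2

lemma Ye_eq (p R : ℝ) : Ye p R = 1 + Ee p R * (Ee p R + 2 * cosh (2 * p)) := by
  unfold Ye Ee
  linear_combination cosh_sq_sub_sinh_sq (2 * p)

section facts
variable {p R : ℝ} (hp : 0 < p) (hE : 0 < Ee p R)
include hp hE

lemma one_lt_R : 1 < R := by
  have hS := sinh_two_pos hp
  have hCS : sinh (2 * p) < cosh (2 * p) := by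
    rw [sinh_eq, cosh_eq]; linarith [exp_pos (-(2 * p))]
  have : cosh (2 * p) < R * sinh (2 * p) := by unfold Ee at hE; linarith
  by_contra h
  rw [not_lt] at h
  linarith [mul_le_mul_of_nonneg_right h hS.le]

lemma R_sq_pos : 0 < R ^ 2 - 1 := by nlinarith [one_lt_R hp hE]

lemma Ye_pos : 1 < Ye p R := by
  rw [Ye_eq]
  have := mul_pos hE (show 0 < Ee p R + 2 * cosh (2 * p) by linarith [cosh_pos (2 * p)])
  linarith

lemma log_Ye_pos : 0 < log (Ye p R) := log_pos (Ye_pos hp hE)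

lemma Gp_neg : Gp p R < 0 := by
  have := mul_pos (R_sq_pos hp hE) (log_Ye_pos hp hE)
  unfold Gp
  exact div_neg_of_neg_of_pos (by linarith) (by positivity)

lemma hess (hE1 : Ee p R ≤ 1) (a b : ℝ) :
    0 ≤ 2 * (R ^ 2 - 1)
          * ((R * cosh (2 * p) - sinh (2 * p)) * (log (Ye p R) / Ee p R)
            - cosh (2 * p) / sinh (2 * p)) * a ^ 2
        + 2 * ((R * cosh (2 * p) - sinh (2 * p)) * (log (Ye p R) / Ee p R) - R) * (a * b)
        + sinh (2 * p) / 2 * (log (Ye p R) / Ee p R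
            - (cosh (2 * p) * R ^ 2 - 2 * sinh (2 * p) * R + cosh (2 * p)) / (R ^ 2 - 1)) * b ^ 2 := by
  have hS := sinh_two_pos hp
  have hR := one_lt_R hp hE
  have hR2 := R_sq_pos hp hE
  have hY := Ye_pos hp hE
  have hC := one_le_cosh (2 * p)
  have hsq := cosh_sq_sub_sinh_sq (2 * p)
  set S := sinh (2 * p) with hSd
  set C := cosh (2 * p) with hCd
  set e := Ee p R with hed
  have he : R * S = e + C := by rw [hed, Ee]; ring
  have hy : Ye p R = 1 + e * (e + 2 * C) := Ye_eq p R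
  have hylog : 2 * (e * (e + 2 * C)) / (e * (e + 2 * C) + 2) ≤ log (Ye p R) := by
    rw [hy]; exact le_log_one_add_of_nonneg (by positivity)
  set lam := log (Ye p R) / e with hlam
  have hlb : 2 * (e + 2 * C) / (e * (e + 2 * C) + 2) ≤ lam := by
    rw [hlam, le_div_iff₀ hE]
    exact le_trans (le_of_eq (by ring)) hylog
  have hlam0 : 0 ≤ lam := le_trans (by positivity) hlb
  set Q := C * R ^ 2 - 2 * S * R + C with hQ
  have hQS : Q * S ^ 2 = C * e ^ 2 + 2 * e + C := by
    rw [hQ]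
    linear_combination
      (C * (R * S + e + C) - 2 * S ^ 2) * he + (2 * (e + C) - C) * hsq
  have he2 : e ^ 2 ≤ 1 := pow_le_one₀ hE.le hE1
  have a1 : C * e ^ 2 + 2 * e + C ≤ lam * (S ^ 2 * (R ^ 2 - 1)) := by
    rw [show S ^ 2 * (R ^ 2 - 1) = Ye p R from rfl, hy]
    refine le_trans ?_ (mul_le_mul_of_nonneg_right hlb (by positivity))
    rw [div_mul_eq_mul_div, le_div_iff₀ (by positivity)]
    linarith [mul_nonneg (mul_nonneg (zero_le_one.trans hC) (sq_nonneg e)) (sub_nonneg.2 he2),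
      mul_nonneg (mul_nonneg (sq_nonneg C) hE.le) (show (0:ℝ) ≤ 3 - e ^ 2 by linarith)]
  have hD : 0 < lam - Q / (R ^ 2 - 1) ∨ lam - Q / (R ^ 2 - 1) = 0 := by
    refine (le_iff_lt_or_eq.1 ?_).imp id Eq.symm
    rw [sub_nonneg, div_le_iff₀ hR2, ← mul_le_mul_iff_left₀ (pow_pos hS 2)]
    rw [hQS]; linarith
  have a2 : C * (C * e ^ 2 + 2 * e + C) ≤ lam * ((C * e + 1) * (e + C)) := by
    refine le_trans ?_ (mul_le_mul_of_nonneg_right hlb (by positivity))
    rw [div_mul_eq_mul_div, le_div_iff₀ (by positivity)]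
    linarith [mul_nonneg (mul_nonneg (pow_nonneg (zero_le_one.trans hC) 3) hE.le)
        (sub_nonneg.2 he2),
      mul_nonneg (mul_nonneg (sq_nonneg C) (sub_nonneg.2 he2)) (show 0 ≤ 2 + e ^ 2 by positivity),
      mul_nonneg (zero_le_one.trans hC) hE.le, sq_nonneg e]
  set K := R * C - S with hK
  have hKS : K * S = C * e + 1 := by rw [hK]; linear_combination C * he + hsq
  have hdet : 0 < (R ^ 2 - 1) * S * (K * lam - C / S) * (lam - Q / (R ^ 2 - 1))
      - (K * lam - R) ^ 2 := by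
    have e1 : (R ^ 2 - 1) * S * (K * lam - C / S) * (lam - Q / (R ^ 2 - 1)) - (K * lam - R) ^ 2
        = (K * lam * S - C) * ((R ^ 2 - 1) * lam - Q) - (K * lam - R) ^ 2 := by
      field_simp
    have e2 : ((K * lam * S - C) * ((R ^ 2 - 1) * lam - Q) - (K * lam - R) ^ 2) * S ^ 2
        = e * (lam * (lam * ((C * e + 1) * (e + C)) - C * (C * e ^ 2 + 2 * e + C)) + e * S ^ 2) := by
      have hR' : R = (e + C) / S := by rw [eq_div_iff hS.ne']; exact he
      have hK' : K = (C * e + 1) / S := by rw [eq_div_iff hS.ne']; exact hKS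
      have hQ' : Q = (C * e ^ 2 + 2 * e + C) / S ^ 2 := by
        rw [eq_div_iff (pow_ne_zero 2 hS.ne')]; exact hQS
      rw [hK', hQ', hR']
      field_simp
      rw [show S ^ 2 = C ^ 2 - 1 by linarith]
      ring
    rw [e1]
    refine pos_of_mul_pos_left ?_ (sq_nonneg S)
    rw [e2]
    have := mul_nonneg hlam0 (sub_nonneg.2 a2)
    positivity
  rcases hD with hD | hD
  · set A := 2 * (R ^ 2 - 1) * (K * lam - C / S)
    set B := K * lam - R
    set D := S / 2 * (lam - Q / (R ^ 2 - 1)) with hDd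
    have hD' : 0 < D := mul_pos (by linarith) hD
    have hAD : 0 ≤ A * D - B ^ 2 := by
      refine le_of_lt (lt_of_lt_of_eq hdet ?_)
      simp only [A, B, D]; ring
    refine nonneg_of_mul_nonneg_right ?_ hD'
    linarith [sq_nonneg (D * b + B * a), mul_nonneg hAD (sq_nonneg a)]
  · rw [hD, mul_zero] at hdet
    linarith [sq_nonneg (K * lam - R)]

end facts

lemma hasDerivAt_seg {p0 R0 a b l : ℝ} (hp : 0 < p0 + l * a)
    (hE : 0 < Ee (p0 + l * a) (R0 + l * b)) :
    HasDerivAt (fun l => Gf (p0 + l * a) (R0 + l * b))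
      (Gp (p0 + l * a) (R0 + l * b) * a + GR (p0 + l * a) (R0 + l * b) * b) l := by
  have hY := Ye_pos hp hE
  have hR := R_sq_pos hp hE
  have hS := (sinh_two_pos hp).ne'
  have dp : HasDerivAt (fun l => p0 + l * a) a l := by
    simpa using ((hasDerivAt_id l).mul_const a).const_add p0
  have dR : HasDerivAt (fun l => R0 + l * b) b l := by
    simpa using ((hasDerivAt_id l).mul_const b).const_add R0
  have d2 : HasDerivAt (fun l => 2 * (p0 + l * a)) (2 * a) l := dp.const_mul 2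
  have dS := d2.sinh
  have dE : HasDerivAt (fun l => Ee (p0 + l * a) (R0 + l * b)) _ l := (dR.mul dS).sub d2.cosh
  have dY : HasDerivAt (fun l => Ye (p0 + l * a) (R0 + l * b)) _ l :=
    (dS.pow 2).mul ((dR.pow 2).sub_const 1)
  refine ((((dS.mul ((dR.pow 2).sub_const 1)).mul (dY.log (by linarith))).div
    (dE.const_mul 4) (by linarith)).sub ((dR.mul (dE.log hE.ne')).div_const 2)).sub dp
    |>.congr_deriv ?_
  have hY0 : Ye (p0 + l * a) (R0 + l * b) ≠ 0 := by linarith
  simp only [Gp, GR, Pi.pow_apply, Pi.mul_apply, Pi.sub_apply, Nat.cast_ofNat,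
    Nat.add_one_sub_one, pow_one]
  generalize R0 + l * b = R at *
  generalize p0 + l * a = p at *
  have hsq := cosh_sq_sub_sinh_sq (2 * p)
  have hEd : Ee p R = R * sinh (2 * p) - cosh (2 * p) := rfl
  have hYd : Ye p R = sinh (2 * p) ^ 2 * (R ^ 2 - 1) := rfl
  generalize log (Ye p R) = w
  generalize log (Ee p R) = z
  rw [hYd, hEd]
  rw [hEd] at hE
  generalize sinh (2 * p) = S at *
  generalize cosh (2 * p) = C at *
  have := hE.ne'; have := hR.ne'
  have hC : C ^ 2 = 1 + S ^ 2 := by linarith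
  field_simp
  ring_nf
  simp only [hC, show C ^ 3 = C * C ^ 2 by ring, show C ^ 4 = C ^ 2 * C ^ 2 by ring]
  ring

lemma hasDerivAt_seg2 {p0 R0 a b l : ℝ} (hp : 0 < p0 + l * a)
    (hE : 0 < Ee (p0 + l * a) (R0 + l * b)) :
    HasDerivAt (fun l => Gp (p0 + l * a) (R0 + l * b) * a + GR (p0 + l * a) (R0 + l * b) * b)
      ((2 * ((R0 + l * b) ^ 2 - 1)
          * (((R0 + l * b) * cosh (2 * (p0 + l * a)) - sinh (2 * (p0 + l * a)))
              * (log (Ye (p0 + l * a) (R0 + l * b)) / Ee (p0 + l * a) (R0 + l * b))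
            - cosh (2 * (p0 + l * a)) / sinh (2 * (p0 + l * a))) * a ^ 2
        + 2 * (((R0 + l * b) * cosh (2 * (p0 + l * a)) - sinh (2 * (p0 + l * a)))
              * (log (Ye (p0 + l * a) (R0 + l * b)) / Ee (p0 + l * a) (R0 + l * b))
            - (R0 + l * b)) * (a * b)
        + sinh (2 * (p0 + l * a)) / 2
          * (log (Ye (p0 + l * a) (R0 + l * b)) / Ee (p0 + l * a) (R0 + l * b)
            - (cosh (2 * (p0 + l * a)) * (R0 + l * b) ^ 2
                - 2 * sinh (2 * (p0 + l * a)) * (R0 + l * b) + cosh (2 * (p0 + l * a)))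
              / ((R0 + l * b) ^ 2 - 1)) * b ^ 2) / Ee (p0 + l * a) (R0 + l * b) ^ 2) l := by
  have hY := Ye_pos hp hE
  have hR := R_sq_pos hp hE
  have hS := (sinh_two_pos hp).ne'
  have dp : HasDerivAt (fun l => p0 + l * a) a l := by
    simpa using ((hasDerivAt_id l).mul_const a).const_add p0
  have dR : HasDerivAt (fun l => R0 + l * b) b l := by
    simpa using ((hasDerivAt_id l).mul_const b).const_add R0
  have d2 : HasDerivAt (fun l => 2 * (p0 + l * a)) (2 * a) l := dp.const_mul 2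
  have dS := d2.sinh
  have dE : HasDerivAt (fun l => Ee (p0 + l * a) (R0 + l * b)) _ l := (dR.mul dS).sub d2.cosh
  have dY : HasDerivAt (fun l => Ye (p0 + l * a) (R0 + l * b)) _ l :=
    (dS.pow 2).mul ((dR.pow 2).sub_const 1)
  have dl := dY.log (by linarith)
  have d1 := ((((dR.pow 2).sub_const 1).mul dl).neg.div ((dE.pow 2).const_mul 2)
    (mul_ne_zero two_ne_zero (pow_ne_zero 2 hE.ne'))).mul_const a
  have d3 := ((((dS.mul dl).mul ((dS.mul ((dR.pow 2).add_const 1)).sub
    ((dR.const_mul 2).mul d2.cosh))).div ((dE.pow 2).const_mul 4)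
    (mul_ne_zero four_ne_zero (pow_ne_zero 2 hE.ne'))).sub ((dE.log hE.ne').div_const 2)).mul_const b
  refine (d1.add d3).congr_deriv ?_
  have hY0 : Ye (p0 + l * a) (R0 + l * b) ≠ 0 := by linarith
  simp only [Pi.pow_apply, Pi.mul_apply, Pi.sub_apply, Pi.neg_apply, Nat.cast_ofNat,
    Nat.add_one_sub_one, pow_one]
  generalize R0 + l * b = R at *
  generalize p0 + l * a = p at *
  have hsq := cosh_sq_sub_sinh_sq (2 * p)
  have hEd : Ee p R = R * sinh (2 * p) - cosh (2 * p) := rfl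
  have hYd : Ye p R = sinh (2 * p) ^ 2 * (R ^ 2 - 1) := rfl
  generalize log (Ye p R) = w
  rw [hYd, hEd]
  rw [hEd] at hE
  generalize sinh (2 * p) = S at *
  generalize cosh (2 * p) = C at *
  have := hE.ne'; have := hR.ne'
  have hC : C ^ 2 = 1 + S ^ 2 := by linarith
  field_simp
  ring_nf
  simp only [hC, show C ^ 3 = C * C ^ 2 by ring, show C ^ 4 = C ^ 2 * C ^ 2 by ring]
  ring

end Vale.Agent.P322.General
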