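import Vale.Agent.P322.FPoint

/-!
Interval evaluation of arithmetic expressions with logarithms, for kernel certificates.
-/

namespace Vale.Agent.P322.IV
open Real
open Cert (PP rv)
open Vale.Agent.P322 (At)

/-- an interval in units of `1 / PP`; `bad` carries no information. -/
inductive I where
  | bad
  | mk (a b : ℤ)

/-- the operations of a certificate beyond field arithmetic. -/
class Alg (α : Type) extends Add α, Sub α, Mul α, Div α where
  cst : ℕ → ℕ → α
  lg : α → α
  mx : α → α → α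
  l2 : α

export Alg (cst lg mx l2)

noncomputable instance : Alg ℝ where
  cst n d := (n : ℝ) / d
  lg := Real.log
  mx := max
  l2 := Real.log 2

/-- continue with the value of a natural number, making the kernel compute it first. -/
def fN {β : Type} (n : ℕ) (f : ℕ → β) : β :=
  match n with
  | 0 => f 0
  | m + 1 => f (m + 1)

def fZ {β : Type} (z : ℤ) (f : ℤ → β) : β :=
  match z with
  | .ofNat n => fN n fun n => f (.ofNat n)
  | .negSucc n => fN n fun n => f (.negSucc n)

/-- an interval with computed end points. -/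
def sI (a b : ℤ) : I := fZ a fun x => fZ b fun y => I.mk x y

lemma fZ_eq {β : Type} (z : ℤ) (f : ℤ → β) : fZ z f = f z := by
  rcases z with n | n <;> cases n <;> rfl

lemma sI_eq (a b : ℤ) : sI a b = I.mk a b := by simp only [sI, fZ_eq]

def add' : I → I → I
  | .mk a b, .mk c d => sI (a + c) (b + d)
  | _, _ => .bad

def sub' : I → I → I
  | .mk a b, .mk c d => sI (a - d) (b - c)
  | _, _ => .bad

def ng : ℤ → Bool
  | .ofNat _ => true
  | .negSucc _ => false

def imin (a b : ℤ) : ℤ := bif ng (b - a) then a else b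
def imax (a b : ℤ) : ℤ := bif ng (b - a) then b else a

lemma imin_eq (a b : ℤ) : imin a b = min a b := by
  unfold imin
  rcases h : b - a with n | n <;> simp only [ng, cond_true, cond_false, Int.ofNat_eq_natCast] at * <;> omega

lemma imax_eq (a b : ℤ) : imax a b = max a b := by
  unfold imax
  rcases h : b - a with n | n <;> simp only [ng, cond_true, cond_false, Int.ofNat_eq_natCast] at * <;> omega

def mul' : I → I → I
  | .mk a b, .mk c d =>
    bif ng a && ng c then sI (a * c / (PP : ℤ)) (b * d / (PP : ℤ) + 1)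
    else sI (imin (imin (a * c) (a * d)) (imin (b * c) (b * d)) / (PP : ℤ))
      (imax (imax (a * c) (a * d)) (imax (b * c) (b * d)) / (PP : ℤ) + 1)
  | _, _ => .bad

def div' : I → I → I
  | .mk a b, .mk c d =>
    if 0 < c then
      sI (imin (a * (PP : ℤ) / c) (a * (PP : ℤ) / d)) (imax (b * (PP : ℤ) / c) (b * (PP : ℤ) / d) + 1)
    else .bad
  | _, _ => .bad

def cst' (n d : ℕ) : I :=
  if 0 < d then sI (((n * PP / d : ℕ) : ℤ)) (((n * PP / d + 1 : ℕ) : ℤ)) else .bad

/-- literal bounds for `log 2`. -/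
@[irreducible] def L2l : ℕ := 54916777467707473351141471098
@[irreducible] def L2u : ℕ := 54916777467707473351141471166

def atLo12 (u : ℕ) : ℕ := Cert.loopLo 12 (u * u / PP) u 0 0
def atHi12 (u : ℕ) : ℕ := Cert.loopHi 12 (u * u / PP + 1) u 0 0

def lLo12 (num den : ℕ) : ℕ :=
  let k := Cert.shiftNum 100 num den 0
  let d := den * 2 ^ k
  bif Nat.ble d num then k * L2l + 2 * atLo12 ((num - d) * PP / (num + d)) else 0

def lHi12 (num den : ℕ) : ℕ :=
  let k := Cert.shiftNum 100 num den 0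
  let d := den * 2 ^ k
  let u := (num - d) * PP / (num + d) + 1
  bif Nat.ble (u * u / PP + 2) PP then k * L2u + 2 * atHi12 u
  else k * L2u + ((num - d) * PP / d + 1)

def logLo (a : ℕ) : ℤ :=
  if PP ≤ a then (lLo12 a PP : ℤ) else -(lHi12 PP a : ℤ)

def logHi (b : ℕ) : ℤ :=
  if PP ≤ b then (lHi12 b PP : ℤ) else -(lLo12 PP b : ℤ)

def lg' : I → I
  | I.mk a b => if 0 < a then sI (logLo a.toNat) (logHi b.toNat) else .bad
  | .bad => .bad

def mx' : I → I → I
  | .mk a b, .mk c d => sI (imax a c) (imax b d)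
  | _, _ => .bad

instance : Alg I where
  add := add'
  sub := sub'
  mul := mul'
  div := div'
  cst := cst'
  lg := lg'
  mx := mx'
  l2 := I.mk (L2l : ℤ) (L2u : ℤ)

/-- certified nonnegative. -/
def nn : I → Bool
  | I.mk a _ => decide (0 ≤ a)
  | .bad => false

/-- certified positive. -/
def pos : I → Bool
  | I.mk a _ => decide (0 < a)
  | .bad => false

/-- certified at most one. -/
def le1 : I → Bool
  | I.mk _ b => decide (b ≤ (PP : ℤ))
  | .bad => false

noncomputable def iv (a : ℤ) : ℝ := (a : ℝ) / (PP : ℕ)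

def Mem (x : ℝ) (i : I) : Prop := ∀ a b, i = I.mk a b → iv a ≤ x ∧ x ≤ iv b

lemma iv_add (a b : ℤ) : iv (a + b) = iv a + iv b := by simp [iv, add_div]
lemma iv_sub (a b : ℤ) : iv (a - b) = iv a - iv b := by simp [iv, sub_div]
lemma iv_le {a b : ℤ} (h : a ≤ b) : iv a ≤ iv b :=
  div_le_div_of_nonneg_right (Int.cast_le.2 h) Cert.PP_pos.le
lemma iv_pos {a : ℤ} (h : 0 < a) : 0 < iv a := div_pos (Int.cast_pos.2 h) Cert.PP_pos
lemma iv_max (a b : ℤ) : iv (max a b) = max (iv a) (iv b) :=
  (Monotone.map_max fun _ _ h => iv_le h)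
lemma iv_natCast (a : ℕ) : iv (a : ℤ) = rv a := by simp [iv, rv]
lemma iv_neg (a : ℤ) : iv (-a) = -iv a := by simp [iv, neg_div]

lemma iv_ediv_le {n m : ℤ} (hm : 0 < m) : iv (n / m) ≤ iv n / m := by
  rw [iv, iv, div_right_comm]
  refine div_le_div_of_nonneg_right ?_ Cert.PP_pos.le
  rw [le_div_iff₀ (Int.cast_pos.2 hm)]
  exact_mod_cast Int.ediv_mul_le n hm.ne'

lemma le_iv_ediv_add {n m : ℤ} (hm : 0 < m) : iv n / m ≤ iv (n / m + 1) := by
  rw [iv, iv, div_right_comm]
  refine div_le_div_of_nonneg_right ?_ Cert.PP_pos.le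
  rw [div_le_iff₀ (Int.cast_pos.2 hm)]
  have := Int.lt_ediv_add_one_mul_self n hm
  exact_mod_cast this.le

lemma iv_mul_PP (a b : ℤ) : iv (a * b) / ((PP : ℤ) : ℝ) = iv a * iv b := by
  simp only [iv, Int.cast_mul, Int.cast_natCast, div_mul_div_comm, div_div]

variable {x y : ℝ} {i j : I}

lemma mem_bad : Mem x .bad := fun _ _ h => by cases h

lemma mem_mk {a b : ℤ} (h1 : iv a ≤ x) (h2 : x ≤ iv b) : Mem x (I.mk a b) := by
  intro a' b' h
  cases h
  exact ⟨h1, h2⟩

lemma mem_add (hx : Mem x i) (hy : Mem y j) : Mem (x + y) (i + j) := by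
  show Mem (x + y) (add' i j)
  rcases i with _ | ⟨a, b⟩ <;> rcases j with _ | ⟨c, d⟩ <;> try exact mem_bad
  simp only [add', sI_eq]
  obtain ⟨h1, h2⟩ := hx a b rfl
  obtain ⟨h3, h4⟩ := hy c d rfl
  exact mem_mk (by rw [iv_add]; linarith) (by rw [iv_add]; linarith)

lemma mem_sub (hx : Mem x i) (hy : Mem y j) : Mem (x - y) (i - j) := by
  show Mem (x - y) (sub' i j)
  rcases i with _ | ⟨a, b⟩ <;> rcases j with _ | ⟨c, d⟩ <;> try exact mem_bad
  simp only [sub', sI_eq]
  obtain ⟨h1, h2⟩ := hx a b rfl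
  obtain ⟨h3, h4⟩ := hy c d rfl
  exact mem_mk (by rw [iv_sub]; linarith) (by rw [iv_sub]; linarith)

lemma mem_mx (hx : Mem x i) (hy : Mem y j) : Mem (mx x y) (mx i j) := by
  show Mem (max x y) (mx' i j)
  rcases i with _ | ⟨a, b⟩ <;> rcases j with _ | ⟨c, d⟩ <;> try exact mem_bad
  simp only [mx', sI_eq]
  obtain ⟨h1, h2⟩ := hx a b rfl
  obtain ⟨h3, h4⟩ := hy c d rfl
  exact mem_mk (by rw [imax_eq, iv_max]; exact max_le_max h1 h3)
    (by rw [imax_eq, iv_max]; exact max_le_max h2 h4)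

lemma mul_bounds {a b c d : ℝ} (h1 : a ≤ x) (h2 : x ≤ b) (h3 : c ≤ y) (h4 : y ≤ d) :
    min (min (a * c) (a * d)) (min (b * c) (b * d)) ≤ x * y ∧
      x * y ≤ max (max (a * c) (a * d)) (max (b * c) (b * d)) := by
  constructor
  · simp only [min_le_iff]
    rcases le_total 0 y with hy | hy <;> rcases le_total 0 a with ha | ha <;>
      rcases le_total 0 b with hb | hb
    all_goals
      first
        | exact Or.inl (Or.inl (by nlinarith))
        | exact Or.inl (Or.inr (by nlinarith))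
        | exact Or.inr (Or.inl (by nlinarith))
        | exact Or.inr (Or.inr (by nlinarith))
  · simp only [le_max_iff]
    rcases le_total 0 y with hy | hy <;> rcases le_total 0 a with ha | ha <;>
      rcases le_total 0 b with hb | hb
    all_goals
      first
        | exact Or.inl (Or.inl (by nlinarith))
        | exact Or.inl (Or.inr (by nlinarith))
        | exact Or.inr (Or.inl (by nlinarith))
        | exact Or.inr (Or.inr (by nlinarith))

lemma mem_mul (hx : Mem x i) (hy : Mem y j) : Mem (x * y) (i * j) := by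
  show Mem (x * y) (mul' i j)
  rcases i with _ | ⟨a, b⟩ <;> rcases j with _ | ⟨c, d⟩ <;> try exact mem_bad
  obtain ⟨h1, h2⟩ := hx a b rfl
  obtain ⟨h3, h4⟩ := hy c d rfl
  have hP : (0 : ℤ) < (PP : ℤ) := by exact_mod_cast Cert.one_le_PP
  simp only [mul', sI_eq, imin_eq, imax_eq]
  cases hng : ng a && ng c with
  | true =>
    rw [Bool.and_eq_true] at hng
    have ng_iff : ∀ z : ℤ, ng z = true → 0 ≤ iv z := by
      intro z hz
      rcases z with n | n
      · exact div_nonneg (Int.cast_nonneg (Int.natCast_nonneg n)) Cert.PP_pos.le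
      · simp [ng] at hz
    have a0 := ng_iff a hng.1
    have c0 := ng_iff c hng.2
    refine mem_mk (le_trans (iv_ediv_le hP) ?_) (le_trans ?_ (le_iv_ediv_add hP)) <;> rw [iv_mul_PP]
    · exact mul_le_mul h1 h3 c0 (a0.trans h1)
    · exact mul_le_mul h2 h4 (c0.trans h3) ((a0.trans h1).trans h2)
  | false =>
  obtain ⟨l, u⟩ := mul_bounds h1 h2 h3 h4
  have hP : (0 : ℤ) < (PP : ℤ) := by exact_mod_cast Cert.one_le_PP
  have hP' : (0 : ℝ) ≤ ((PP : ℤ) : ℝ) := by exact_mod_cast hP.le
  refine mem_mk (le_trans (iv_ediv_le hP) (le_trans (le_of_eq ?_) l))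
    (le_trans u (le_trans (le_of_eq ?_) (le_iv_ediv_add hP)))
  · have hm : Monotone fun n : ℤ => iv n / ((PP : ℤ) : ℝ) := fun _ _ h =>
      div_le_div_of_nonneg_right (iv_le h) hP'
    simp only [← iv_mul_PP, hm.map_min]
  · have hm : Monotone fun n : ℤ => iv n / ((PP : ℤ) : ℝ) := fun _ _ h =>
      div_le_div_of_nonneg_right (iv_le h) hP'
    simp only [← iv_mul_PP, hm.map_max]

lemma iv_PP_div (a c : ℤ) : iv (a * (PP : ℤ)) / (c : ℝ) = iv a / iv c := by
  have := Cert.PP_pos
  simp only [iv, Int.cast_mul, Int.cast_natCast]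
  field_simp

lemma mem_div (hx : Mem x i) (hy : Mem y j) : Mem (x / y) (i / j) := by
  show Mem (x / y) (div' i j)
  rcases i with _ | ⟨a, b⟩ <;> rcases j with _ | ⟨c, d⟩ <;> try exact mem_bad
  simp only [div', sI_eq, imin_eq, imax_eq]
  by_cases hc : 0 < c
  swap
  · rw [if_neg hc]; exact mem_bad
  rw [if_pos hc]
  obtain ⟨h1, h2⟩ := hx a b rfl
  obtain ⟨h3, h4⟩ := hy c d rfl
  have c0 := iv_pos hc
  have y0 : 0 < y := c0.trans_le h3
  have d0' : 0 < d := by
    by_contra hh
    have := iv_le (not_lt.1 hh)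
    simp [iv] at this
    have : iv d ≤ 0 := by simpa [iv] using this
    linarith
  have d0 := iv_pos d0'
  refine mem_mk ?_ ?_
  · rcases le_total 0 (iv a) with ha | ha
    · refine le_trans (iv_le (min_le_right _ _)) (le_trans (iv_ediv_le d0') ?_)
      rw [iv_PP_div]
      exact div_le_div₀ (ha.trans h1) h1 y0 h4
    · refine le_trans (iv_le (min_le_left _ _)) (le_trans (iv_ediv_le hc) ?_)
      rw [iv_PP_div]
      calc iv a / iv c ≤ iv a / y := by
            rw [div_le_div_iff₀ c0 y0]; nlinarith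
        _ ≤ x / y := div_le_div_of_nonneg_right h1 y0.le
  · rw [iv_add, iv_max, ← max_add_add_right, ← iv_add, ← iv_add]
    rcases le_total 0 (iv b) with hb | hb
    · refine le_trans ?_ (le_trans (le_iv_ediv_add hc) (le_max_left _ _))
      rw [iv_PP_div]
      exact div_le_div₀ hb h2 c0 h3
    · refine le_trans ?_ (le_trans (le_iv_ediv_add d0') (le_max_right _ _))
      rw [iv_PP_div]
      calc x / y ≤ iv b / y := div_le_div_of_nonneg_right h2 y0.le
        _ ≤ iv b / iv d := by rw [div_le_div_iff₀ y0 d0]; nlinarith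

lemma mem_cst (n d : ℕ) : Mem (cst n d : ℝ) (cst n d : I) := by
  show Mem ((n : ℝ) / d) (cst' n d)
  simp only [cst', sI_eq]
  by_cases hd : 0 < d
  swap
  · rw [if_neg hd]; exact mem_bad
  rw [if_pos hd]
  refine mem_mk ?_ ?_ <;> rw [iv_natCast]
  · exact Cert.rv_mulPP_div_le n d
  · exact Cert.le_rv_mulPP_div n d

lemma L2l_le : rv L2l ≤ Real.log 2 :=
  le_trans (Cert.rv_le (Nat.le_of_ble_eq_true (by decide +kernel))) Cert.l2Lo_le

lemma le_L2u : Real.log 2 ≤ rv L2u :=
  le_trans Cert.le_l2Hi (Cert.rv_le (Nat.le_of_ble_eq_true (by decide +kernel)))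

lemma mem_l2 : Mem (l2 : ℝ) (l2 : I) := by
  show Mem (Real.log 2) (I.mk (L2l : ℤ) (L2u : ℤ))
  exact mem_mk (by rw [iv_natCast]; exact L2l_le) (by rw [iv_natCast]; exact le_L2u)

lemma atLo12_le {x : ℝ} {u : ℕ} (h0 : 0 ≤ x) (h1 : x < 1) (hu : rv u ≤ x) : rv (atLo12 u) ≤ At x := by
  refine le_trans (Cert.loopLo_le h0 12 _ u 0 0 ?_ (by simpa using hu) (by simp [Cert.oddSum, rv])) (Cert.oddSum_le h0 h1 _)
  refine (Cert.rv_mD_le u u).trans ?_
  rw [sq]
  exact mul_le_mul hu hu (Cert.rv_nonneg _) h0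

lemma le_atHi12 {x : ℝ} {u : ℕ} (h0 : 0 ≤ x) (h1 : x < 1) (hu : x ≤ rv u)
    (hg : u * u / PP + 2 ≤ PP) : At x ≤ rv (atHi12 u) := by
  refine Cert.le_loopHi h0 h1 12 _ u 0 0 (by omega) ?_ (by simpa using hu) (by simp [Cert.oddSum, rv])
  refine le_trans ?_ (Cert.le_rv_mU u u)
  rw [sq]
  exact mul_le_mul hu hu h0 (Cert.rv_nonneg _)

lemma lLo12_le {num den : ℕ} (hd : 0 < den) : rv (lLo12 num den) ≤ max 0 (Real.log ((num : ℝ) / den)) := by
  simp only [lLo12]
  set k := Cert.shiftNum 100 num den 0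
  set d := den * 2 ^ k with hdd
  cases hb : Nat.ble d num with
  | false => simp [rv]
  | true =>
    have hle : d ≤ num := Nat.le_of_ble_eq_true hb
    have d0 : 0 < d := by positivity
    have n0 : 0 < num := lt_of_lt_of_le d0 hle
    refine le_trans ?_ (le_max_right _ _)
    rw [Cert.log_split (k := k) n0 hd, ← hdd, cond_true, Cert.rv_add, Cert.rv_mul_nat, Cert.rv_mul_nat]
    refine add_le_add (mul_le_mul_of_nonneg_left L2l_le (Nat.cast_nonneg _)) ?_
    have a0 : (0:ℝ) < num := Nat.cast_pos.2 n0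
    have b0 : (0:ℝ) < d := Nat.cast_pos.2 d0
    have hle' : (d:ℝ) ≤ num := Nat.cast_le.2 hle
    rw [← Cert.At_ratio a0 b0]
    push_cast
    refine mul_le_mul_of_nonneg_left (atLo12_le (div_nonneg (by linarith) (by linarith))
      ((div_lt_one (by linarith)).2 (by linarith)) ?_) (by norm_num)
    refine (Cert.rv_mulPP_div_le _ _).trans_eq ?_
    rw [Nat.cast_sub hle]; push_cast; rfl

lemma le_lHi12 {num den : ℕ} (hn : 0 < num) (hd : 0 < den) :
    Real.log ((num : ℝ) / den) ≤ rv (lHi12 num den) := by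
  simp only [lHi12]
  set k := Cert.shiftNum 100 num den 0
  set d := den * 2 ^ k with hdd
  have d0 : 0 < d := by positivity
  rw [Cert.log_split (k := k) hn hd, ← hdd]
  have a0 : (0:ℝ) < num := Nat.cast_pos.2 hn
  have b0 : (0:ℝ) < d := Nat.cast_pos.2 d0
  have hk := mul_le_mul_of_nonneg_left le_L2u (Nat.cast_nonneg (α := ℝ) k)
  cases hb : Nat.ble (((num - d) * PP / (num + d) + 1) * ((num - d) * PP / (num + d) + 1) / PP + 2) PP with
  | false =>
    rw [cond_false, Cert.rv_add, Cert.rv_mul_nat]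
    refine add_le_add hk (le_trans ?_ (Cert.le_rv_mulPP_div _ _))
    rcases le_or_gt d num with h | h
    · refine (log_le_sub_one_of_pos (div_pos a0 b0)).trans_eq ?_
      rw [Nat.cast_sub h]; field_simp
    · refine le_trans (log_nonpos (by positivity) ((div_le_one b0).2 (Nat.cast_le.2 h.le))) (by positivity)
  | true =>
    rw [cond_true, Cert.rv_add, Cert.rv_mul_nat, Cert.rv_mul_nat]
    refine add_le_add hk ?_
    rcases le_or_gt d num with h | h
    · have hle' : (d:ℝ) ≤ num := Nat.cast_le.2 h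
      rw [← Cert.At_ratio a0 b0]
      push_cast
      refine mul_le_mul_of_nonneg_left (le_atHi12 (div_nonneg (by linarith) (by linarith))
        ((div_lt_one (by linarith)).2 (by linarith)) ?_ (Nat.le_of_ble_eq_true hb)) (by norm_num)
      refine le_trans (le_of_eq ?_) (Cert.le_rv_mulPP_div _ _)
      rw [Nat.cast_sub h]; push_cast; rfl
    · exact le_trans (log_nonpos (by positivity) ((div_le_one b0).2 (Nat.cast_le.2 h.le)))
        (mul_nonneg (Nat.cast_nonneg _) (Cert.rv_nonneg _))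

lemma logLo_le {a : ℕ} (ha : 0 < a) : iv (logLo a) ≤ Real.log (rv a) := by
  simp only [logLo, rv]
  split_ifs with h
  · rw [iv_natCast]
    refine (lLo12_le (num := a) Cert.one_le_PP).trans_eq (max_eq_right (Real.log_nonneg ?_))
    rw [one_le_div Cert.PP_pos]; exact_mod_cast h
  · rw [iv_neg, iv_natCast, neg_le, ← Real.log_inv, inv_div]
    exact le_lHi12 Cert.one_le_PP ha

lemma le_logHi {b : ℕ} (hb : 0 < b) : Real.log (rv b) ≤ iv (logHi b) := by
  simp only [logHi, rv]
  split_ifs with h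
  · rw [iv_natCast]; exact le_lHi12 hb Cert.one_le_PP
  · rw [iv_neg, iv_natCast, le_neg, ← Real.log_inv, inv_div]
    refine (lLo12_le (num := PP) hb).trans_eq (max_eq_right (Real.log_nonneg ?_))
    rw [one_le_div (by exact_mod_cast hb)]; exact_mod_cast (not_le.1 h).le

lemma mem_lg (hx : Mem x i) : Mem (lg x) (lg i) := by
  show Mem (Real.log x) (lg' i)
  rcases i with _ | ⟨a, b⟩
  · exact mem_bad
  simp only [lg', sI_eq]
  by_cases ha : 0 < a
  swap
  · rw [if_neg ha]; exact mem_bad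
  rw [if_pos ha]
  obtain ⟨h1, h2⟩ := hx a b rfl
  have a0 := iv_pos ha
  have b0 : 0 < b := by
    by_contra hh
    have : iv b ≤ iv 0 := iv_le (not_lt.1 hh)
    simp [iv] at this
    linarith [show iv b ≤ 0 by simpa [iv] using this]
  obtain ⟨a', rfl⟩ := Int.eq_ofNat_of_zero_le ha.le
  obtain ⟨b', rfl⟩ := Int.eq_ofNat_of_zero_le b0.le
  simp only [Int.toNat_natCast]
  rw [iv_natCast] at h1 h2 a0
  refine mem_mk ((logLo_le (by exact_mod_cast ha)).trans (Real.log_le_log a0 h1))
    (le_trans (Real.log_le_log (a0.trans_le h1) h2) (le_logHi (by exact_mod_cast b0)))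

lemma of_nn (hx : Mem x i) (h : nn i = true) : 0 ≤ x := by
  rcases i with _ | ⟨a, b⟩
  · simp [nn] at h
  simp only [nn, decide_eq_true_eq] at h
  exact le_trans (by simpa [iv] using iv_le h) (hx a b rfl).1

lemma of_le1 (hx : Mem x i) (h : le1 i = true) : x ≤ 1 := by
  rcases i with _ | ⟨a, b⟩
  · simp [le1] at h
  simp only [le1, decide_eq_true_eq] at h
  refine le_trans (hx a b rfl).2 (le_trans (iv_le h) (le_of_eq ?_))
  rw [iv_natCast, Cert.rv, div_self Cert.PP_pos.ne']

lemma of_pos (hx : Mem x i) (h : pos i = true) : 0 < x := by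
  rcases i with _ | ⟨a, b⟩
  · simp [pos] at h
  simp only [pos, decide_eq_true_eq] at h
  exact (iv_pos h).trans_le (hx a b rfl).1

/-- a binary subdivision of a rectangle. -/
inductive Tr where
  | leaf
  | fst (m : ℕ) (l r : Tr)
  | snd (m : ℕ) (l r : Tr)

def Tr.check (f : ℕ → ℕ → ℕ → ℕ → Bool) : Tr → ℕ → ℕ → ℕ → ℕ → Bool
  | .leaf, a, b, c, d => f a b c d
  | .fst m l r, a, b, c, d => l.check f a m c d && r.check f m b c d
  | .snd m l r, a, b, c, d => l.check f a b c m && r.check f a b m d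

/-- the interval of a box side. -/
def box (a b : ℕ) : I := I.mk ((a : ℤ)) ((b : ℤ))

lemma mem_box {a b : ℕ} (h1 : rv a ≤ x) (h2 : x ≤ rv b) : Mem x (box a b) :=
  mem_mk (by rw [iv_natCast]; exact h1) (by rw [iv_natCast]; exact h2)

lemma Tr.sound {f : ℕ → ℕ → ℕ → ℕ → Bool} {P : ℝ → ℝ → Prop}
    (hf : ∀ a b c d, f a b c d = true → ∀ x y, rv a ≤ x → x ≤ rv b → rv c ≤ y → y ≤ rv d → P x y) :
    ∀ (T : Tr) (a b c d : ℕ), T.check f a b c d = true →
      ∀ x y, rv a ≤ x → x ≤ rv b → rv c ≤ y → y ≤ rv d → P x y := by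
  intro T
  induction T with
  | leaf => intro a b c d h; exact hf a b c d h
  | fst m l r ihl ihr =>
    intro a b c d h x y h1 h2 h3 h4
    rw [Tr.check, Bool.and_eq_true] at h
    rcases le_total x (rv m) with hm | hm
    · exact ihl _ _ _ _ h.1 x y h1 hm h3 h4
    · exact ihr _ _ _ _ h.2 x y hm h2 h3 h4
  | snd m l r ihl ihr =>
    intro a b c d h x y h1 h2 h3 h4
    rw [Tr.check, Bool.and_eq_true] at h
    rcases le_total y (rv m) with hm | hm
    · exact ihl _ _ _ _ h.1 x y h1 h2 h3 hm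
    · exact ihr _ _ _ _ h.2 x y h1 h2 hm h4

end Vale.Agent.P322.IV
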