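import Vale.Agent.P322.General.Conds
import Vale.Agent.P322.General.TPLAsm

/-!
Elementary bounds for the joining case.
-/

noncomputable section
namespace Vale.Agent.P322.General
open Real Set Finset

lemma t_mul_At_le {t : ℝ} (h0 : 0 ≤ t) (h1 : t < 1) :
    t * At t ≤ t ^ 2 + (t ^ 2) * (t ^ 2) / (3 * (1 - t ^ 2)) := by
  have h := Cert.le_oddSum h0 h1 1
  simp only [Cert.oddSum, Finset.sum_range_one] at h
  norm_num at h
  refine (mul_le_mul_of_nonneg_left h h0).trans (le_of_eq ?_)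
  ring

lemma At_div_le {s : ℝ} (h0 : 0 < s) (h1 : s < 1) :
    At s / s ≤ 1 + s * s * (1 / 3 + s * s * (1 / 5 + s * s / (7 * (1 - s * s)))) := by
  have h := Cert.le_oddSum h0.le h1 3
  simp only [Cert.oddSum, Finset.sum_range_succ, Finset.sum_range_zero] at h
  norm_num at h
  rw [div_le_iff₀ h0]
  refine h.trans (le_of_eq ?_)
  have : (1:ℝ) - s * s ≠ 0 := by nlinarith
  rw [show s ^ 2 = s * s by ring]
  field_simp
  ring

lemma cubic_le_neg_log {y : ℝ} (h0 : 0 ≤ y) (h1 : y < 1) :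
    y + y ^ 2 / 2 + y ^ 3 / 3 ≤ -log (1 - y) := by
  have := sum_le_hasSum (range 3) (fun k _ => by positivity)
    (hasSum_pow_div_log_of_abs_lt_one (show |y| < 1 by rwa [abs_of_nonneg h0]))
  simp only [Finset.sum_range_succ, Finset.sum_range_zero] at this
  norm_num at this
  linarith

lemma start_series {t : ℝ} (h0 : 0 ≤ t) (h1 : t < 1) :
    t ^ 2 * IV.n0A (t ^ 2) ≤ -log (1 - t ^ 2) - t * At t := by
  set A := t ^ 2 with hA
  have A0 : 0 ≤ A := sq_nonneg t
  have A1 : A < 1 := pow_lt_one₀ h0 h1 two_ne_zero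
  have hl := hasSum_pow_div_log_of_abs_lt_one (show |A| < 1 by rwa [abs_of_nonneg A0])
  have hs := hl.sub ((Cert.hasSum_At h0 h1).mul_left t)
  have := sum_le_hasSum (range 13) (fun k _ => ?_) hs
  · refine le_trans (le_of_eq ?_) this
    simp only [Finset.sum_range_succ, Finset.sum_range_zero, IV.n0A]
    simp only [show ∀ n d : ℕ, (IV.Alg.cst n d : ℝ) = (n : ℝ) / d from fun _ _ => rfl, hA]
    push_cast
    ring
  · have e : t * (t ^ (2 * k + 1) / (2 * k + 1)) = A ^ (k + 1) / (2 * k + 1) := by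
      rw [hA, ← pow_mul, ← mul_div_assoc, ← pow_succ']; ring_nf
    rw [e, sub_nonneg]
    exact div_le_div_of_nonneg_left (pow_nonneg A0 _) (by positivity) (by linarith [show (0:ℝ) ≤ k from Nat.cast_nonneg k])

lemma sixth_le_n0A {A : ℝ} (h : 0 ≤ A) : A / 6 ≤ IV.n0A A := by
  simp only [IV.n0A, show ∀ n d : ℕ, (IV.Alg.cst n d : ℝ) = (n : ℝ) / d from fun _ _ => rfl]
  push_cast
  rw [show A / 6 = A * (1 / 6) by ring]
  refine mul_le_mul_of_nonneg_left ?_ h
  refine le_add_of_nonneg_right ?_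
  positivity

lemma LgE_le {s : ℝ} (h0 : 0 ≤ s) (h1 : s ≤ 1) :
    s * (1 + s * (-(1 / 2) + s * (1 / 3 + s * (-(1 / 4) + 1098 / 10000 * s)))) ≤ log (1 + s) := by
  set F : ℝ → ℝ := fun x => log (1 + x)
    - x * (1 + x * (-(1 / 2) + x * (1 / 3 + x * (-(1 / 4) + 1098 / 10000 * x)))) with hF
  have hd : ∀ x : ℝ, 0 ≤ x → HasDerivAt F
      (x ^ 4 * ((1 - 5 * (1098 / 10000)) - 5 * (1098 / 10000) * x) / (1 + x)) x := by
    intro x hx
    have hp : HasDerivAt (fun x : ℝ => x * (1 + x * (-(1 / 2) + x * (1 / 3 + x * (-(1 / 4) + 1098 / 10000 * x)))))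
        (1 - x + x ^ 2 - x ^ 3 + 5 * (1098 / 10000) * x ^ 4) x := by
      have : (fun x : ℝ => x * (1 + x * (-(1 / 2) + x * (1 / 3 + x * (-(1 / 4) + 1098 / 10000 * x)))))
          = fun x : ℝ => x - x ^ 2 / 2 + x ^ 3 / 3 - x ^ 4 / 4 + 1098 / 10000 * x ^ 5 := by
        funext x; ring
      rw [this]
      refine (((((hasDerivAt_id x).sub ((hasDerivAt_pow 2 x).div_const 2)).add
        ((hasDerivAt_pow 3 x).div_const 3)).sub ((hasDerivAt_pow 4 x).div_const 4)).add
        ((hasDerivAt_pow 5 x).const_mul _)).congr_deriv ?_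
      simp; ring
    refine (((hasDerivAt_id x).const_add 1).log (by simp only [id]; linarith)).sub hp |>.congr_deriv ?_
    simp only [id]
    field_simp
    ring
  set c := (1 - 5 * (1098 / 10000 : ℝ)) / (5 * (1098 / 10000)) with hc
  have c0 : 0 ≤ c := by rw [hc]; norm_num
  have c1 : c ≤ 1 := by rw [hc]; norm_num
  rcases le_total s c with h | h
  · have hm : MonotoneOn F (Icc 0 c) := by
      refine monotoneOn_of_deriv_nonneg (convex_Icc _ _)
        (fun x hx => (hd x hx.1).continuousAt.continuousWithinAt) ?_ ?_ <;>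
        intro x hx <;> rw [interior_Icc] at hx
      · exact (hd x hx.1.le).differentiableAt.differentiableWithinAt
      · rw [(hd x hx.1.le).deriv]
        refine div_nonneg (mul_nonneg (by positivity) ?_) (by linarith [hx.1])
        have := hx.2
        rw [hc, lt_div_iff₀ (by norm_num)] at this
        linarith
    have := hm ⟨le_rfl, c0⟩ ⟨h0, h⟩ h0
    simp [hF] at this
    linarith
  · have hm : AntitoneOn F (Icc c 1) := by
      refine antitoneOn_of_deriv_nonpos (convex_Icc _ _)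
        (fun x hx => (hd x (c0.trans hx.1)).continuousAt.continuousWithinAt) ?_ ?_ <;>
        intro x hx <;> rw [interior_Icc] at hx
      · exact (hd x (c0.trans hx.1.le)).differentiableAt.differentiableWithinAt
      · rw [(hd x (c0.trans hx.1.le)).deriv]
        refine div_nonpos_of_nonpos_of_nonneg (mul_nonpos_of_nonneg_of_nonpos (by positivity) ?_)
          (by linarith [hx.1])
        have := hx.1
        rw [hc, div_lt_iff₀ (by norm_num)] at this
        linarith
    have := hm ⟨h, h1⟩ ⟨c1, le_rfl⟩ h1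
    simp only [hF] at this
    norm_num at this
    linarith [log_two_gt_d9]

/-- the drop of `gz` to the right of `p`. -/
lemma gz_drop {p e : ℝ} (hp : 0 < p) (he : 0 ≤ e) :
    (e - e ^ 2 / tanh p) / sg p ≤ gz p - gz (p + e) := by
  set t := tanh p with ht
  have t0 : 0 < t := tanh_pos' hp
  have sp : 0 < sg p := div_pos (pow_pos (sinh_pos_iff.2 hp) 2) (Lc_pos p)
  set K : ℝ → ℝ := fun z => Lc z / sinh z ^ 2 + 2 / (t * sg p) * z with hK
  have hKd : ∀ z, 0 < z → HasDerivAt K
      ((tanh z * sinh z ^ 2 - Lc z * (2 * sinh z * cosh z)) / (sinh z ^ 2) ^ 2 + 2 / (t * sg p)) z :=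
    fun z hz => ((((hasDerivAt_Lc z).div ((hasDerivAt_sinh z).pow 2)
      (pow_ne_zero 2 (sinh_pos_iff.2 hz).ne')).add ((hasDerivAt_id z).const_mul _))).congr_deriv
      (by simp)
  have hKm : MonotoneOn K (Ici p) := by
    refine monotoneOn_of_deriv_nonneg (convex_Ici p)
      (fun z hz => (hKd z (hp.trans_le hz)).continuousAt.continuousWithinAt) ?_ ?_ <;>
      intro z hz <;> rw [interior_Ici] at hz <;> have hz0 : 0 < z := hp.trans hz
    · exact (hKd z hz0).differentiableAt.differentiableWithinAt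
    rw [(hKd z hz0).deriv]
    have hs := sinh_pos_iff.2 hz0
    have hsz : sg p ≤ sg z := sg_monotone hp.le hz0.le (le_of_lt hz)
    have htz : t ≤ tanh z := (strictMonoOn_of_deriv_pos (convex_Ici (0:ℝ))
      (fun x _ => (hasDerivAt_tanh x).continuousAt.continuousWithinAt)
      (fun x _ => by rw [(hasDerivAt_tanh x).deriv]; positivity)).monotoneOn hp.le hz0.le (le_of_lt hz)
    have h1 : Lc z * (2 * sinh z * cosh z) / (sinh z ^ 2) ^ 2 = 2 / (tanh z * sg z) := by
      rw [sg, tanh_eq_sinh_div_cosh]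
      have := Lc_pos z
      field_simp
    have h2 : 2 / (tanh z * sg z) ≤ 2 / (t * sg p) :=
      div_le_div_of_nonneg_left (by norm_num) (mul_pos t0 sp)
        (mul_le_mul htz hsz sp.le (t0.le.trans htz))
    have h3 : 0 ≤ tanh z * sinh z ^ 2 / (sinh z ^ 2) ^ 2 := by
      have := tanh_pos' hz0; positivity
    rw [sub_div, h1]
    linarith
  set H : ℝ → ℝ := fun z => -gz z - ((z - p) - (z - p) ^ 2 / t) / sg p with hH
  have hHd : ∀ z, 0 < z → HasDerivAt H (1 / sg z - (1 - 2 * (z - p) / t) / sg p) z := fun z hz => by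
    refine (((hasDerivAt_gz hz).neg).sub ((((hasDerivAt_id z).sub_const p).sub
      ((((hasDerivAt_id z).sub_const p).pow 2).div_const t)).div_const (sg p))).congr_deriv ?_
    simp
  have hHm : MonotoneOn H (Icc p (p + e)) := by
    refine monotoneOn_of_deriv_nonneg (convex_Icc _ _)
      (fun z hz => (hHd z (hp.trans_le hz.1)).continuousAt.continuousWithinAt) ?_ ?_ <;>
      intro z hz <;> rw [interior_Icc] at hz <;> have hz0 : 0 < z := hp.trans hz.1
    · exact (hHd z hz0).differentiableAt.differentiableWithinAt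
    rw [(hHd z hz0).deriv]
    have := hKm self_mem_Ici (show z ∈ Ici p from hz.1.le) hz.1.le
    simp only [hK] at this
    have e1 : ∀ w, Lc w / sinh w ^ 2 = 1 / sg w := fun w => by rw [sg, one_div_div]
    rw [e1, e1] at this
    have e2 : (1 - 2 * (z - p) / t) / sg p
        = 1 / sg p + 2 / (t * sg p) * p - 2 / (t * sg p) * z := by field_simp; ring
    linarith
  have := hHm ⟨le_rfl, by linarith⟩ ⟨by linarith, le_rfl⟩ (by linarith : p ≤ p + e)
  simp [hH] at this
  linarith

/-- the gain along the curve of equality when the slope is at most `ρ` times `sg`. -/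
lemma gain_along {W V d p z1 ρ : ℝ} (hV0 : 0 < V) (hWV : V < W) (hd : 0 < d) (hp : 0 < p)
    (hz : p ≤ z1) (hb : ∀ x, p ≤ x → d * gz x ≤ W * xz x)
    (hgap : ∀ x, p ≤ x → (W - V) * Lc x ≤ ρ * (d * x)) :
    d * p - (Pi2 W (d * gz p) - Pi2 V (d * gz p)) + d * (z1 - p) * (1 - ρ)
      ≤ d * z1 - (Pi2 W (d * gz z1) - Pi2 V (d * gz z1)) := by
  have hW0 : 0 < W := hV0.trans hWV
  have hgp : ∀ z, 0 < z → 0 < gz z := fun z hz =>
    div_pos (xz_pos_of_nonneg hz.le) (tanh_pos' hz)
  set F : ℝ → ℝ := fun x => d * x - (Pi2 W (d * gz x) - Pi2 V (d * gz x)) - d * x * (1 - ρ) with hF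
  have hFd : ∀ x, 0 < x → HasDerivAt F
      (d * (ρ - (Sz (Zi (d * gz x / W)) - Sz (Zi (d * gz x / V))) / sg x)) x := fun x hx => by
    have hgd := (hasDerivAt_gz hx).const_mul d
    have h1 := (((hasDerivAt_Pi2 hW0 (mul_pos hd (hgp x hx))).sub
      (hasDerivAt_Pi2 hV0 (mul_pos hd (hgp x hx)))).comp x hgd)
    exact ((((hasDerivAt_id x).const_mul d).sub h1).sub
      (((hasDerivAt_id x).const_mul d).mul_const (1 - ρ))).congr_deriv (by ring)
  have hm : MonotoneOn F (Icc p z1) := by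
    refine monotoneOn_of_deriv_nonneg (convex_Icc _ _)
      (fun x hx => (hFd x (hp.trans_le hx.1)).continuousAt.continuousWithinAt) ?_ ?_ <;>
      intro x hx <;> rw [interior_Icc] at hx <;> have hx0 : 0 < x := hp.trans hx.1
    · exact (hFd x hx0).differentiableAt.differentiableWithinAt
    rw [(hFd x hx0).deriv]
    have hsg : 0 < sg x := div_pos (pow_pos (sinh_pos_iff.2 hx0) 2) (Lc_pos x)
    refine mul_nonneg hd.le ?_
    rw [sub_nonneg, div_le_iff₀ hsg]
    set y := d * gz x with hy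
    have y0 : 0 < y := mul_pos hd (hgp x hx0)
    have hyW : y / W ≤ xz x := (div_le_iff₀ hW0).2 (by linarith [hb x hx.1.le, mul_comm W (xz x)])
    set Z1 := Zi (y / W)
    set Z2 := Zi (y / V)
    have h1 : x ≤ Z1 := by
      have := Zi_antitone (show (0:ℝ) < y / W from div_pos y0 hW0)
        (show (0:ℝ) < xz x from xz_pos_of_nonneg hx0.le) hyW
      rwa [Zi_xz hx0.le] at this
    have x1e : xz Z1 = y / W := xz_Zi (div_pos y0 hW0) (hyW.trans (xz_le_log_two hx0.le))
    have x2e : xz Z2 ≤ y / V := by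
      rw [show Z2 = Zi (y / V) from rfl, xz_Zi' (div_pos y0 hV0)]; exact min_le_left _ _
    have hS2 := Sz_nonneg (show 0 ≤ Z2 from Zi_nonneg _)
    have hZ : Z2 ≤ Z1 := Zi_antitone (show (0:ℝ) < y / W from div_pos y0 hW0)
      (show (0:ℝ) < y / V from div_pos y0 hV0) (div_le_div_of_nonneg_left y0.le hV0 hWV.le)
    have hE12 : Ez Z1 ≤ Ez Z2 := Ez_antitone (Zi_nonneg _) (Zi_nonneg _) hZ
    have hE1x : Ez Z1 ≤ Ez x := Ez_antitone hx0.le (Zi_nonneg _) h1
    have hE2 : V * Ez Z1 ≤ y * (1 + Sz Z2) := by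
      calc V * Ez Z1 ≤ V * (xz Z2 * (1 + Sz Z2)) := mul_le_mul_of_nonneg_left hE12 hV0.le
        _ ≤ V * (y / V * (1 + Sz Z2)) :=
          mul_le_mul_of_nonneg_left (mul_le_mul_of_nonneg_right x2e (by linarith)) hV0.le
        _ = y * (1 + Sz Z2) := by field_simp
    have hE1 : W * Ez Z1 = y * (1 + Sz Z1) := by rw [Ez, x1e]; field_simp
    have hdiff : y * (Sz Z1 - Sz Z2) ≤ (W - V) * Ez x := by
      have := mul_le_mul_of_nonneg_left hE1x (sub_nonneg.2 hWV.le)
      linarith
    have hEx : Ez x * (d * x) = y * sinh x ^ 2 := by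
      rw [hy, gz, Ez, Sz_of_ne hx0.ne', sinh_two_mul, tanh_eq_sinh_div_cosh]
      have := (sinh_pos_iff.2 hx0).ne'
      field_simp
      ring
    have hEpos : 0 ≤ Ez x :=
      mul_nonneg (xz_pos_of_nonneg hx0.le).le (by linarith [Sz_nonneg hx0.le])
    refine le_of_mul_le_mul_left ?_ y0
    rw [sg, mul_div_assoc', mul_div_assoc', le_div_iff₀ (Lc_pos x)]
    calc y * (Sz Z1 - Sz Z2) * Lc x ≤ (W - V) * Ez x * Lc x :=
          mul_le_mul_of_nonneg_right hdiff (Lc_pos x).le
      _ = Ez x * ((W - V) * Lc x) := by ring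
      _ ≤ Ez x * (ρ * (d * x)) := mul_le_mul_of_nonneg_left (hgap x hx.1.le) hEpos
      _ = y * (ρ * sinh x ^ 2) := by linear_combination ρ * hEx
  have := hm ⟨le_rfl, hz⟩ ⟨hz, le_rfl⟩ hz
  simp only [hF] at this
  linarith

end Vale.Agent.P322.General
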