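import Vale.Agent.P322.General.CertR
import Vale.Agent.P322.General.CertT
import Vale.Agent.P322.General.CertX
import Vale.Agent.P322.General.CertK
import Vale.Agent.P322.General.Cert0a
import Vale.Agent.P322.General.Cert0b
import Vale.Agent.P322.General.Cert1

/-!
What the certificates say about real numbers.
-/

noncomputable section
namespace Vale.Agent.P322.IV
open Real
open Cert (PP rv)

lemma cst_real (n d : ℕ) : (cst n d : ℝ) = (n : ℝ) / d := rfl
lemma lg_real (x : ℝ) : (lg x : ℝ) = log x := rfl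
lemma mx_real (x y : ℝ) : (mx x y : ℝ) = max x y := rfl
lemma l2_real : (l2 : ℝ) = log 2 := rfl
lemma nc_real (n : ℕ) : (nc n : ℝ) = n := by simp [nc, cst_real]

lemma PP_val : ((PP : ℕ) : ℝ) = 79228162514264337593543950336 := by
  unfold Cert.PP; norm_num

lemma rv_top : rv 79228162514264337593543950336 = 1 := by
  rw [rv, PP_val]; norm_num

lemma s96_le : (rv s96 : ℝ) ≤ 24 / 25 := by
  rw [s96]
  refine (Cert.rv_div_le _ 25).trans (le_of_eq ?_)
  rw [rv, Nat.cast_mul, mul_div_assoc]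
  have := Cert.PP_pos
  push_cast
  field_simp

lemma kSnd_eq {A s : ℝ} (hA0 : 0 ≤ A) (hA : A < 1) (hs0 : 0 ≤ s) (hs : s < 1) :
    kSnd A s = kFst A s := by
  have hB : s * s < 1 := by nlinarith
  have hD : A * (s * s) < 1 := by nlinarith
  have h1 : (1 - s * s) ≠ 0 := by linarith
  have h2 : (1 - A * (s * s)) ≠ 0 := by linarith
  simp only [kSnd, kFst, nc_real, Nat.cast_one]
  have e : 1 + (1 - A) * (1 / (1 - s * s) - 1) = (1 - A * (s * s)) / (1 - s * s) := by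
    have hc : 1 / (1 - s * s) * (1 - s * s) = 1 := div_mul_cancel₀ _ h1
    rw [eq_div_iff h1]
    linear_combination (1 - A) * hc
  rw [e, one_div_div]

lemma mem_kI {A s : ℝ} {iA is : I} (hA0 : 0 ≤ A) (hA : A < 1) (hs0 : 0 ≤ s) (hs : s < 1)
    (mA : Mem A iA) (ms : Mem s is) (d : ℕ) : Mem (kFst A s) (kI iA is d) := by
  unfold kI
  split_ifs
  · rw [← kSnd_eq hA0 hA hs0 hs]; exact mem_kSnd mA ms
  · exact mem_kFst mA ms

/-- the product behind the slope bound is at most one. -/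
theorem rho_le_one {A k : ℝ} (hA0 : 0 ≤ A) (hA1 : A ≤ 1) (hk0 : 0 ≤ k) (hk1 : k ≤ 1) :
    pPhi (k * k * A) (mak A k) * k * uA A ≤ 1 := by
  have h := trR.sound (P := fun x y =>
      0 ≤ rhoD x y ∨ (0 ≤ brA x y ∧ 0 ≤ brB x y) ∨ 0 ≤ rhoC x y) ?_ _ _ _ _ trR_ok A k
    (by simp [rv]; exact hA0) (by rw [rv_top]; exact hA1) (by simp [rv]; exact hk0)
    (by rw [rv_top]; exact hk1)
  swap
  · intro a b c d hc x y h1 h2 h3 h4
    have mx' := mem_box h1 h2
    have my := mem_box h3 h4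
    obtain ⟨e1, e2, e3⟩ := mem_rhoParts mx' my
    simp only [cellR, Bool.or_eq_true, Bool.and_eq_true] at hc
    rcases hc with (hc | hc) | hc
    · exact Or.inl (of_nn (mem_rhoD mx' my) hc)
    · exact Or.inr (Or.inl ⟨of_nn e1 hc.1, of_nn e2 hc.2⟩)
    · exact Or.inr (Or.inr (of_nn e3 hc))
  have hu : 0 ≤ uA A := by
    simp only [uA, nc_real, l2_real, Nat.cast_one]
    nlinarith [log_two_gt_d9, log_two_lt_d9]
  rcases h with h | h
  · simp only [rhoD, nc_real, Nat.cast_one] at h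
    linarith
  have hC : 0 ≤ rhoC A k := by
    rcases h with ⟨ha, hb⟩ | h
    · simp only [rhoC, nc_real, Nat.cast_one]
      exact add_nonneg (mul_nonneg (by linarith) ha)
        (mul_nonneg hk0 (mul_nonneg (by linarith) hb))
    · exact h
  set d := k * k * A with hd
  set m := mak A k with hm
  have d0 : 0 ≤ d := by positivity
  have m0 : 0 ≤ m := by
    simp only [hm, mak, rak, nc_real, Nat.cast_one]
    exact mul_nonneg (by linarith) (by nlinarith)
  have hP : 0 < pPi d m := by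
    simp only [pPi, nc_real, Nat.cast_one, Nat.cast_ofNat]
    refine mul_pos ?_ (by linarith)
    nlinarith [sq_nonneg (m - d)]
  simp only [pPhi, mx_real, nc_real, Nat.cast_zero]
  rcases le_total ((cst 5 4 + beE * cst 1 32) - d * cst 1 4 - cst 3 2 * m
      + beE * cst 33 32 * (((96 : ℕ) * m - ((1 : ℕ) + (32 : ℕ) * d)) / pPi d m) : ℝ) 0 with h0 | h0
  · rw [max_eq_left h0]; simp
  rw [max_eq_right h0]
  refine le_of_eq_of_le ?_ (sub_le_self 1 hC)
  have em : m = (1 - k) * (1 - A * k) := by simp [hm, mak, rak, nc_real]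
  simp only [rhoC, brA, brB, c1E, c2E, ← hd, ← hm, nc_real, Nat.cast_one]
  have eP : pPi d m ≠ 0 := hP.ne'
  simp only [pP, pPoly, rak, nc_real, Nat.cast_one, Nat.cast_ofNat, cst_real]
  have key : pPi d m = ((1 + 32 * (m + d)) * (1 + 32 * (m + d)) - 4096 * (m * d)) * (1 + 32 * m) := by
    simp [pPi, nc_real]
  generalize (beE : ℝ) = b
  simp only [uA, nc_real, l2_real, Nat.cast_one]
  generalize log 2 = L
  field_simp
  rw [key, em, hd]
  ring

/-- conditions for small `A`. -/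
def Case0 (A s : ℝ) : Prop :=
  Xs A s ≤ 1 ∨
    (s ≤ 24 / 25 ∧ (0 ≤ condA A s (kFst A s) ∨ (0 < xlo A ∧ 0 ≤ condB A s (kFst A s)) ∨
      (0 < x1E A s ∧ 0 ≤ condC A s (kFst A s)))) ∨
    0 ≤ condD A s (kFst A s) ∨
    (A ≤ 1 / 100 ∧ 0 < xlo A ∧ 0 < x1E A s ∧ s ≤ 24 / 25 ∧
      0 ≤ cornA A s (kFst A s) ∧ 0 ≤ cornB A s (kFst A s))

lemma cell0_sound {a b c d : ℕ} (h : cell0 a b c d = true) {A s : ℝ} (hA0 : 0 ≤ A) (hA : A < 1)
    (hs0 : 0 ≤ s) (hs : s < 1) (h1 : rv a ≤ A) (h2 : A ≤ rv b) (h3 : rv c ≤ s) (h4 : s ≤ rv d) :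
    Case0 A s := by
  have mA := mem_box h1 h2
  have ms := mem_box h3 h4
  have mk := mem_kI hA0 hA hs0 hs mA ms d
  simp only [cell0, Bool.or_eq_true, Bool.and_eq_true, decide_eq_true_eq] at h
  have hd : d ≤ s96 → s ≤ 24 / 25 := fun hh => h4.trans ((Cert.rv_le hh).trans s96_le)
  rcases h with (h | ⟨hdd, (h | h) | h⟩) | h
  · exact Or.inl (of_le1 (mem_Xs mA ms) h)
  · exact Or.inr (Or.inl ⟨hd hdd, Or.inl (of_nn (mem_condA mA ms mk) h)⟩)
  · exact Or.inr (Or.inl ⟨hd hdd, Or.inr (Or.inl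
      ⟨of_pos (mem_xlo mA) h.1, of_nn (mem_condB mA ms mk) h.2⟩)⟩)
  · exact Or.inr (Or.inl ⟨hd hdd, Or.inr (Or.inr
      ⟨of_pos (mem_x1E mA ms) h.1, of_nn (mem_condC mA ms mk) h.2⟩)⟩)
  · exact Or.inr (Or.inr (Or.inl (of_nn (mem_condD mA ms mk) h)))

/-- the conditions hold for small `A`. -/
theorem case0 {A s : ℝ} (hA0 : 0 ≤ A) (hA : A ≤ 1521 / 2500) (hs0 : 0 ≤ s) (hs : s < 1) :
    Case0 A s := by
  have hA' : A < 1 := by linarith
  have z : ∀ x : ℝ, 0 ≤ x → rv 0 ≤ x := fun x hx => by simp [rv]; exact hx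
  have hs' : s ≤ rv 79228162514264337593543950336 := by rw [rv_top]; exact hs.le
  have hsig := fun a b c d (h : cell0 a b c d = true) x y h1 h2 h3 h4 =>
    fun g1 g2 g3 g4 => @cell0_sound a b c d h x y g1 g2 g3 g4 h1 h2 h3 h4
  rcases le_total (rv 316912650049563360594231296) A with ha | ha
  · refine trC0a.sound (P := fun x y => 0 ≤ x → x < 1 → 0 ≤ y → y < 1 → Case0 x y) hsig _ _ _ _
      trC0a_ok A s ha ?_ (z s hs0) hs' hA0 hA' hs0 hs
    refine le_trans hA ?_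
    rw [rv, PP_val]; norm_num
  rcases le_total (rv 1980704062827785402223427584) s with hb | hb
  · exact trC0b.sound (P := fun x y => 0 ≤ x → x < 1 → 0 ≤ y → y < 1 → Case0 x y) hsig _ _ _ _
      trC0b_ok A s (z A hA0) ha hb hs' hA0 hA' hs0 hs
  refine Or.inr (Or.inr (Or.inr ?_))
  have hA4 : A ≤ 1 / 100 := le_trans ha (by rw [rv, PP_val]; norm_num)
  have hs9 : s ≤ 24 / 25 := le_trans hb (by rw [rv, PP_val]; norm_num)
  refine trK.sound (P := fun x y => 0 ≤ x → x < 1 → 0 ≤ y → y < 1 → x ≤ 1 / 100 → y ≤ 24 / 25 →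
    x ≤ 1 / 100 ∧ 0 < xlo x ∧ 0 < x1E x y ∧ y ≤ 24 / 25 ∧
      0 ≤ cornA x y (kFst x y) ∧ 0 ≤ cornB x y (kFst x y)) ?_ _ _ _ _
    trK_ok A s (z A hA0) ha (z s hs0) hb hA0 hA' hs0 hs hA4 hs9
  intro a b c d h x y h1 h2 h3 h4 g1 g2 g3 g4 g5 g6
  have mA := mem_box h1 h2
  have ms := mem_box h3 h4
  have mk := mem_kI g1 g2 g3 g4 mA ms d
  simp only [cellK, Bool.and_eq_true] at h
  exact ⟨g5, of_pos (mem_xlo mA) h.1.1.1, of_pos (mem_x1E mA ms) h.1.1.2, g6,
    of_nn (mem_cornA mA ms mk) h.1.2, of_nn (mem_cornB mA ms mk) h.2⟩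

/-- conditions for middle `A`. -/
def Case1 (A s : ℝ) : Prop :=
  (s ≤ 24 / 25 ∧ 0 ≤ condL A s (kFst A s) (eE s) (qlA A) ∧
      0 ≤ condL A s (kFst A s) (eE s) (qhA A)) ∨
    0 ≤ condD A s (kFst A s) ∨
    (0 ≤ condL A s (kFst A s) 0 (qlA A) ∧ 0 ≤ condL A s (kFst A s) 0 (qhA A))

/-- the conditions hold for middle `A`. -/
theorem case1 {A s : ℝ} (hA : 1521 / 2500 ≤ A) (hA' : A ≤ 576 / 625) (hs0 : 0 ≤ s) (hs : s < 1) :
    Case1 A s := by
  refine trC1.sound (P := fun x y => 0 ≤ x → x < 1 → 0 ≤ y → y < 1 → Case1 x y) ?_ _ _ _ _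
    trC1_ok A s ?_ ?_ (by simp [rv]; exact hs0) (by rw [rv_top]; exact hs.le) (by linarith)
    (by linarith) hs0 hs
  · intro a b c d h x y h1 h2 h3 h4 g1 g2 g3 g4
    have mA := mem_box h1 h2
    have ms := mem_box h3 h4
    have mk := mem_kI g1 g2 g3 g4 mA ms d
    simp only [cell1, Bool.or_eq_true, Bool.and_eq_true, decide_eq_true_eq] at h
    rcases h with (⟨⟨hd, e1⟩, e2⟩ | h) | ⟨e1, e2⟩
    · exact Or.inl ⟨h4.trans ((Cert.rv_le hd).trans s96_le),
        of_nn (mem_condL mA ms mk (mem_eE ms) (mem_qlA mA)) e1,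
        of_nn (mem_condL mA ms mk (mem_eE ms) (mem_qhA mA)) e2⟩
    · exact Or.inr (Or.inl (of_nn (mem_condD mA ms mk) h))
    · have m0 : Mem (0 : ℝ) (nc 0 : I) := by
        have : Mem (cst 0 1 : ℝ) (cst 0 1 : I) := mem_cst 0 1
        simpa [cst_real, nc] using this
      exact Or.inr (Or.inr ⟨of_nn (mem_condL mA ms mk m0 (mem_qlA mA)) e1,
        of_nn (mem_condL mA ms mk m0 (mem_qhA mA)) e2⟩)
  · refine le_trans ?_ hA; rw [rv, PP_val]; norm_num
  · refine le_trans hA' ?_; rw [rv, PP_val]; norm_num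

/-- the condition for large `A`. -/
theorem caseT {A k : ℝ} (hA : 576 / 625 ≤ A) (hA1 : A ≤ 1) (hk0 : 0 ≤ k) (hk1 : k ≤ 1) :
    0 ≤ condT A k := by
  refine trT.sound (P := fun x y => 0 ≤ condT x y) ?_ _ _ _ _ trT_ok A k ?_
    (by rw [rv_top]; exact hA1) (by simp [rv]; exact hk0) (by rw [rv_top]; exact hk1)
  · intro a b c d h x y h1 h2 h3 h4
    exact of_nn (mem_condT (mem_box h1 h2) (mem_box h3 h4)) h
  · refine le_trans ?_ hA; rw [rv, PP_val]; norm_num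

/-- the crossing is valid. -/
theorem caseX {A s : ℝ} (hA0 : 0 ≤ A) (hA : A ≤ 576 / 625) (hs0 : 0 ≤ s) (hs : s ≤ 24 / 25) :
    0 ≤ crossA A s ∨ 0 ≤ crossB A s := by
  refine trX.sound (P := fun x y => 0 ≤ crossA x y ∨ 0 ≤ crossB x y) ?_ _ _ _ _ trX_ok A s
    (by simp [rv]; exact hA0) ?_ (by simp [rv]; exact hs0) ?_
  · intro a b c d h x y h1 h2 h3 h4
    simp only [cellX, Bool.or_eq_true] at h
    exact h.imp (of_nn (mem_crossA (mem_box h1 h2) (mem_box h3 h4)))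
      (of_nn (mem_crossB (mem_box h1 h2) (mem_box h3 h4)))
  · refine le_trans hA ?_; rw [rv, PP_val]; norm_num
  · refine le_trans hs ?_; rw [rv, PP_val]; norm_num

/-- the profile at `t = 24/25`. -/
theorem qPt_nonneg : 0 ≤ (qPt : ℝ) := of_nn mem_qPt (by decide +kernel)

end Vale.Agent.P322.IV
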