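import Vale.Agent.P322.General.JoinAux
import Vale.Agent.P322.General.JoinFacts
import Vale.Agent.P322.General.AvgWC

/-!
The geometry of a pair for the joining case, and the crossing of its two lines.
-/

noncomputable section
namespace Vale.Agent.P322.General
open Real Set
open IV (cst_real lg_real mx_real l2_real nc_real)

namespace Join

variable {t s mu mv : ℝ}

/-- the average of the entropies in edge coordinates. -/
lemma avg_hh (h : Box t s) (hmu : mu = (s + t) / (1 + s * t)) (hmv : mv = (s - t) / (1 - s * t)) :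
    (hh mu + hh mv) / 2 = log 2 - s * (1 - t ^ 2) / (1 - t ^ 2 * s ^ 2) * At s
      - (mu - mv) / 2 * At t
      - (log (1 - t ^ 2) + log (1 - s ^ 2) - log (1 - t ^ 2 * s ^ 2)) / 2 ∧
    (1 + mu) * (1 + mv) = (1 - t ^ 2) * (1 + s) ^ 2 / (1 - t ^ 2 * s ^ 2) := by
  obtain ⟨t0, t1, s0, s1⟩ := h
  have h : Box t s := ⟨t0, t1, s0, s1⟩
  have hD := h.D0
  have hst : s * t < 1 := by nlinarith
  have p1 : 0 < 1 + s * t := by linarith [mul_nonneg s0 t0.le]
  have p2 : 0 < 1 - s * t := by linarith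
  have eD : (1 - t ^ 2 * s ^ 2) = (1 + s * t) * (1 - s * t) := by ring
  have a1 : 1 + mu = (1 + t) * (1 + s) / (1 + s * t) := by rw [hmu]; field_simp; ring
  have a2 : 1 - mu = (1 - t) * (1 - s) / (1 + s * t) := by rw [hmu]; field_simp; ring
  have a3 : 1 + mv = (1 - t) * (1 + s) / (1 - s * t) := by rw [hmv]; field_simp; ring
  have a4 : 1 - mv = (1 + t) * (1 - s) / (1 - s * t) := by rw [hmv]; field_simp; ring
  have q1 : (0:ℝ) < 1 + s := by linarith
  have q2 : (0:ℝ) < 1 - s := by linarith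
  have q3 : (0:ℝ) < 1 + t := by linarith
  have q4 : (0:ℝ) < 1 - t := by linarith
  have hmu1 : -1 < mu ∧ mu < 1 := by
    constructor
    · have : 0 < 1 + mu := a1 ▸ by positivity
      linarith
    · have : 0 < 1 - mu := a2 ▸ by positivity
      linarith
  have hmv1 : -1 < mv ∧ mv < 1 := by
    constructor
    · have : 0 < 1 + mv := a3 ▸ by positivity
      linarith
    · have : 0 < 1 - mv := a4 ▸ by positivity
      linarith
  have Amu : At mu = At t + At s := by
    simp only [At]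
    rw [a1, a2, log_div (by positivity) p1.ne', log_div (by positivity) p1.ne',
      log_mul q3.ne' q1.ne', log_mul q4.ne' q2.ne']
    ring
  have Amv : At mv = At s - At t := by
    simp only [At]
    rw [a3, a4, log_div (by positivity) p2.ne', log_div (by positivity) p2.ne',
      log_mul q4.ne' q1.ne', log_mul q3.ne' q2.ne']
    ring
  have ls : log (1 + mu) + log (1 - mu) + (log (1 + mv) + log (1 - mv))
      = 2 * (log (1 - t ^ 2) + log (1 - s ^ 2) - log (1 - t ^ 2 * s ^ 2)) := by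
    rw [a1, a2, a3, a4, log_div (by positivity) p1.ne', log_div (by positivity) p1.ne',
      log_div (by positivity) p2.ne', log_div (by positivity) p2.ne', log_mul q3.ne' q1.ne',
      log_mul q4.ne' q2.ne', log_mul q4.ne' q1.ne', log_mul q3.ne' q2.ne',
      show 1 - s ^ 2 = (1 + s) * (1 - s) by ring, log_mul q1.ne' q2.ne',
      show 1 - t ^ 2 = (1 + t) * (1 - t) by ring, log_mul q3.ne' q4.ne',
      eD, log_mul p1.ne' p2.ne']
    ring
  have hsum : (mu + mv) / 2 = s * (1 - t ^ 2) / (1 - t ^ 2 * s ^ 2) := by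
    rw [hmu, hmv, eD]; field_simp; ring
  refine ⟨?_, ?_⟩
  · rw [hh, hh, phi_eq_At hmu1.1 hmu1.2, phi_eq_At hmv1.1 hmv1.2, Amu, Amv, ← hsum]
    linear_combination (-(1 / 4) : ℝ) * ls
  · rw [a1, a3, eD]; field_simp; ring

/-- the certificate of the crossing. -/
lemma key_bound {A s : ℝ} (hA0 : 0 ≤ A) (hA : A ≤ 576 / 625) (hs : 0 < s) (hs96 : s ≤ 24 / 25) :
    IV.e1E s * (1 + s) * ((log 2 - log (1 - A) / 2) * ((2 - s * (1 + A)) + (1 - s) * (1 - s) * IV.eE s)
      - (1 - A * s ^ 2) * (1 + s * (-(1 / 2) + s * (1 / 3 + s * (-(1 / 4) + 1098 / 10000 * s)))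
        + A * (s * (1 / 2))))
      ≤ log 2 - log (1 - A) / 2
        + (-log ((1 - s ^ 2) / (1 - A * s ^ 2)) / (2 * (s ^ 2 * ((1 - A) / (1 - A * s ^ 2)))) - At s / s) := by
  have ha : (0:ℝ) < 1 - A := by linarith
  have hb : 0 < 1 - s ^ 2 := by nlinarith
  have hD : 0 < 1 - A * s ^ 2 := by nlinarith
  set y := s ^ 2 * ((1 - A) / (1 - A * s ^ 2)) with hy
  have hy0 : 0 < y := by positivity
  have eyk : (1 - s ^ 2) / (1 - A * s ^ 2) = 1 - y := by
    rw [hy, mul_div_assoc', one_sub_div hD.ne']; congr 1; ring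
  have hy1 : y < 1 := by
    have : 0 < (1 - s ^ 2) / (1 - A * s ^ 2) := div_pos hb hD
    linarith
  rw [eyk]
  have hs1 : s < 1 := by linarith
  have hX := IV.caseX hA0 hA hs.le hs96
  have hmain : 0 ≤ IV.mainE A s + (-log (1 - y) / (2 * y) - At s / s) := by
    rcases hX with hX | hX
    · simp only [IV.crossA, IV.serE, IV.yAs, IV.DAs] at hX
      simp only [IV.nc_real, IV.cst_real, IV.lg_real, IV.mx_real, IV.l2_real, Nat.cast_ofNat,
        Nat.cast_one, Nat.cast_zero] at hX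
      rw [show s * s = s ^ 2 by ring, ← hy] at hX
      have h1 := cubic_le_neg_log hy0.le hy1
      have h2 := At_div_le hs hs1
      rw [show s * s = s ^ 2 by ring] at h2
      have h3 : 1 / 2 + y * (1 / 4 + y * (1 / 6)) ≤ -log (1 - y) / (2 * y) := by
        rw [le_div_iff₀ (by linarith)]; linarith
      linarith
    · simp only [IV.crossB, IV.logE, IV.yAs, IV.DAs] at hX
      simp only [IV.nc_real, IV.cst_real, IV.lg_real, IV.mx_real, IV.l2_real, Nat.cast_ofNat,
        Nat.cast_one, Nat.cast_zero] at hX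
      rw [show s * s = s ^ 2 by ring, ← hy] at hX
      have e1 : log (1 - y) = log (1 - s ^ 2) - log (1 - A * s ^ 2) := by
        rw [← eyk, log_div hb.ne' hD.ne']
      have e2 : At s = log (1 + s) - log (1 - s ^ 2) / 2 := by
        rw [At, show 1 - s ^ 2 = (1 + s) * (1 - s) by ring, log_mul (by linarith) (by linarith)]
        ring
      have e3 : log (1 - A * s ^ 2) / (2 * y) - log (1 + s) / s
          + (0 - log (1 - s ^ 2)) * ((1 - A * s ^ 2 - s * (1 - A)) / (2 * (s ^ 2 * (1 - A))))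
          = -log (1 - y) / (2 * y) - At s / s := by
        rw [e1, e2, hy]
        generalize log (1 - A * s ^ 2) = u
        generalize log (1 - s ^ 2) = v
        generalize log (1 + s) = w
        field_simp
        ring
      linarith
  simp only [IV.mainE, IV.qhA, IV.LgE, IV.DAs] at hmain
  simp only [IV.nc_real, IV.cst_real, IV.lg_real, IV.mx_real, IV.l2_real, Nat.cast_ofNat,
        Nat.cast_one, Nat.cast_zero] at hmain
  rw [show s * s = s ^ 2 by ring] at hmain
  linarith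

lemma sg_At {t : ℝ} (t0 : 0 < t) (t1 : t < 1) :
    sg (At t) = t ^ 2 / ((1 - t ^ 2) * (log 2 - log (1 - t ^ 2) / 2)) := by
  have ha : (0:ℝ) < 1 - t ^ 2 := by nlinarith
  have hc := Cert.cosh_At_sq (show -1 < t by linarith) t1
  have h2 := cosh_sq_sub_sinh_sq (At t)
  have eL : Lc (At t) = log 2 - log (1 - t ^ 2) / 2 := by
    have hx := xz_At (show -1 < t by linarith) t1
    rw [xz, tanh_At (by linarith) t1, one_div, log_inv] at hx
    linarith
  have eS : sinh (At t) ^ 2 = t ^ 2 / (1 - t ^ 2) := by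
    rw [eq_div_iff ha.ne']
    have : cosh (At t) ^ 2 * (1 - t ^ 2) = 1 := by rw [hc]; field_simp
    linear_combination this - (1 - t ^ 2) * h2
  rw [sg, eL, eS, div_div]

/-- the distance from the average to the curve of equality. -/
lemma eta_drop (h : Box t s) (hmu : mu = (s + t) / (1 + s * t)) (hmv : mv = (s - t) / (1 - s * t))
    (hs : 0 < s) :
    (hh mu + hh mv) / 2 - (mu - mv) / 2 * gz (At t)
      = s ^ 2 * ((1 - t ^ 2) / (1 - t ^ 2 * s ^ 2)) * (log 2 - log (1 - t ^ 2) / 2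
        + (-log ((1 - s ^ 2) / (1 - t ^ 2 * s ^ 2))
          / (2 * (s ^ 2 * ((1 - t ^ 2) / (1 - t ^ 2 * s ^ 2)))) - At s / s)) := by
  have hD := h.D0
  have hb := sub_pos.2 h.B1
  have ha := sub_pos.2 h.A1
  obtain ⟨ed, -, -⟩ := coord_eqs h hmu hmv
  obtain ⟨eavg, -⟩ := avg_hh h hmu hmv
  have hx := xz_At (show -1 < t by linarith [h.t0]) h.t1
  rw [one_div, log_inv] at hx
  have eg : (mu - mv) / 2 * gz (At t) = (1 - s ^ 2) / (1 - t ^ 2 * s ^ 2) * xz (At t) := by
    rw [gz, tanh_At (by linarith [h.t0]) h.t1, ed]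
    field_simp [h.t0.ne']
  rw [eg, eavg, hx, log_div hb.ne' hD.ne', ed]
  have := h.t0.ne'
  generalize At s = p
  generalize At t = q
  generalize log (1 - t ^ 2) = u
  generalize log (1 - s ^ 2) = v
  generalize log (1 - t ^ 2 * s ^ 2) = w
  generalize log 2 = L
  rw [show (1 - s ^ 2) / (1 - t ^ 2 * s ^ 2) = 1 - s ^ 2 * ((1 - t ^ 2) / (1 - t ^ 2 * s ^ 2)) by
      rw [mul_div_assoc', one_sub_div hD.ne']; congr 1; ring,
    show s * (1 - t ^ 2) / (1 - t ^ 2 * s ^ 2) = s * ((1 - t ^ 2) / (1 - t ^ 2 * s ^ 2)) by ring]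
  have hq0 : (1 - t ^ 2) / (1 - t ^ 2 * s ^ 2) ≠ 0 := (div_pos ha hD).ne'
  generalize (1 - t ^ 2) / (1 - t ^ 2 * s ^ 2) = q at hq0 ⊢
  field_simp
  ring

/-- the algebra of the crossing. -/
lemma cross_alg {A s e1 e L M E' Lg : ℝ} (hA0 : 0 ≤ A) (hA1 : A < 1) (hs : 0 < s) (hs1 : s < 1)
    (ee : e = e1 * (1 - s)) (he1 : 0 ≤ e1)
    (hM : (1 - A * s ^ 2) * M - (1 - s) ^ 2 * L
      ≤ s * (L * (2 - s * (1 + A)) - (1 - A * s ^ 2) * (Lg + A * (s * (1 / 2)))))
    (hkey : e1 * (1 + s) * (L * ((2 - s * (1 + A)) + (1 - s) * (1 - s) * e)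
      - (1 - A * s ^ 2) * (Lg + A * (s * (1 / 2)))) ≤ E') :
    e * ((1 + s) ^ 2 * ((1 - A * s ^ 2) * M) - (1 - s ^ 2) ^ 2 * L * (1 - s * e))
      ≤ (1 - s ^ 2) * (s * E') := by
  have e0 : 0 ≤ e := by rw [ee]; exact mul_nonneg he1 (by linarith)
  have h1 := mul_le_mul_of_nonneg_left hM (mul_nonneg e0 (sq_nonneg (1 + s)))
  have hb : 0 ≤ 1 - s ^ 2 := by nlinarith
  have h2 := mul_le_mul_of_nonneg_left hkey (mul_nonneg hb hs.le)
  subst ee
  linarith

/-- the crossing of the tangent with the line of the moved point. -/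
theorem cross (h : Box t s) (hmu : mu = (s + t) / (1 + s * t)) (hmv : mv = (s - t) / (1 - s * t))
    (hs : 0 < s) (hs96 : s ≤ 24 / 25) (hA : t ^ 2 ≤ 576 / 625) :
    (mu - mv) / 2 * (t * s * IV.eE s)
      ≤ lam mu mv * ((hh mu + hh mv) / 2 - (mu - mv) / 2 * gz (At t + t * s * IV.eE s)) := by
  have t0 := h.t0
  have t1 := h.t1
  have s1 := h.s1
  have hD := h.D0
  have ha := sub_pos.2 h.A1
  have hb := sub_pos.2 h.B1
  obtain ⟨ed, -, -⟩ := coord_eqs h hmu hmv
  obtain ⟨-, eP⟩ := avg_hh h hmu hmv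
  have hkey := key_bound (sq_nonneg t) hA hs hs96
  have hη := eta_drop h hmu hmv hs
  have esg := sg_At t0 t1
  have e1nn : 0 ≤ IV.e1E s := by
    simp only [IV.e1E, IV.cst_real, IV.nc_real]; push_cast
    exact mul_nonneg (by norm_num) (by linarith)
  have ee : IV.eE s = IV.e1E s * (1 - s) := by
    simp only [IV.eE, IV.e1E, IV.cst_real, IV.nc_real]; push_cast; ring
  have e0 : 0 ≤ IV.eE s := by rw [ee]; exact mul_nonneg e1nn (by linarith)
  set L := log 2 - log (1 - t ^ 2) / 2 with hL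
  set M := L + log (1 - t ^ 2 * s ^ 2) / 2 - log (1 + s) with hM
  have hLp : 0 < L := by
    have := log_nonpos ha.le (by linarith [sq_nonneg t])
    have := log_pos (one_lt_two (α := ℝ))
    rw [hL]; linarith
  have hN : (1 - t ^ 2 * s ^ 2) * M - (1 - s) ^ 2 * L ≤ s * (L * (2 - s * (1 + t ^ 2))
      - (1 - t ^ 2 * s ^ 2) * (1 + s * (-(1 / 2) + s * (1 / 3 + s * (-(1 / 4) + 1098 / 10000 * s)))
        + t ^ 2 * (s * (1 / 2)))) := by
    have h1 := mul_le_mul_of_nonneg_left (log_le_sub_one_of_pos hD) hD.le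
    have h2 := mul_le_mul_of_nonneg_left (LgE_le hs.le s1.le) hD.le
    rw [hM]
    linarith
  have core := cross_alg (sq_nonneg t) h.A1 hs s1 ee e1nn hN hkey
  have hM0 : 0 < M := by
    have h4 : log ((1 + mu) * (1 + mv)) < log 4 := by
      rw [eP]
      refine log_lt_log (by positivity) ?_
      rw [div_lt_iff₀ hD]
      have h5 := mul_lt_mul_of_pos_left (show (1 + s) ^ 2 < 4 by nlinarith) ha
      have h6 := mul_le_mul_of_nonneg_left h.B1.le (sq_nonneg t)
      linarith
    rw [show log 4 = 2 * log 2 by rw [show (4:ℝ) = 2 ^ 2 by norm_num, log_pow]; norm_num, eP,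
      log_div (by positivity) hD.ne', log_mul ha.ne' (by positivity), log_pow] at h4
    rw [hM, hL]
    push_cast at h4
    linarith
  have elam : lam mu mv
      = ((mu - mv) / 2) ^ 2 * (1 - t ^ 2 * s ^ 2) / ((1 - t ^ 2) * (1 + s) ^ 2 * M) := by
    rw [lam, eP, log_div (by positivity) hD.ne', log_mul ha.ne' (by positivity), log_pow, hM, hL]
    push_cast
    field_simp
    ring
  have hdrop := gz_drop (At_pos t0 t1) (mul_nonneg (mul_nonneg t0.le hs.le) e0)
  rw [tanh_At (by linarith) t1, esg] at hdrop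
  have hd0 : 0 ≤ (mu - mv) / 2 := by rw [ed]; positivity
  have hlam : 0 ≤ lam mu mv := by rw [elam]; positivity
  refine le_trans ?_ (mul_le_mul_of_nonneg_left
    (le_of_eq_of_le rfl (show (hh mu + hh mv) / 2 - (mu - mv) / 2 * gz (At t)
        + (mu - mv) / 2 * ((t * s * IV.eE s - (t * s * IV.eE s) ^ 2 / t) / (t ^ 2 / ((1 - t ^ 2) * L)))
      ≤ (hh mu + hh mv) / 2 - (mu - mv) / 2 * gz (At t + t * s * IV.eE s) by
        linarith [mul_le_mul_of_nonneg_left hdrop hd0])) hlam)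
  rw [hη, elam, ed]
  generalize log 2 - log (1 - t ^ 2) / 2
    + (-log ((1 - s ^ 2) / (1 - t ^ 2 * s ^ 2)) / (2 * (s ^ 2 * ((1 - t ^ 2) / (1 - t ^ 2 * s ^ 2))))
      - At s / s) = E' at core ⊢
  clear_value M L
  generalize IV.eE s = e at core ⊢
  rw [← sub_nonneg]
  refine le_of_le_of_eq (mul_nonneg (show 0 ≤ (1 - s ^ 2) * t ^ 2 * s
      / ((1 - t ^ 2 * s ^ 2) ^ 2 * ((1 + s) ^ 2 * M)) by positivity) (sub_nonneg.2 core)) ?_
  have hane := ha.ne'
  field_simp
  ring

end Join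
end Vale.Agent.P322.General
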