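import Vale.Agent.P322.Growth

/-!
A sharper bound for the growth of `Qz` in the logarithm of the weight.
-/

noncomputable section
namespace Vale.Agent.P322.General
open Real Set

lemma exp_neg_le_quartic {x : ℝ} (hx : 0 ≤ x) :
    exp (-x) ≤ 24 / (24 + 24 * x + 12 * x ^ 2 + 4 * x ^ 3 + x ^ 4) := by
  have h := Real.sum_le_exp_of_nonneg hx 5
  simp [Finset.sum_range_succ, Nat.factorial] at h
  rw [exp_neg, le_div_iff₀ (by positivity), inv_mul_le_iff₀ (exp_pos x)]
  linarith

lemma xz_sq_mul_Sd_le {z : ℝ} (hz : 0 < z) :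
    xz z ^ 2 * Sd z * cosh z ^ 2 ≤ 49 / 75 * z := by
  set v := 2 * z with hv
  set y := exp (-v) with hy
  set u := 24 / (24 + 24 * v + 12 * v ^ 2 + 4 * v ^ 3 + v ^ 4) with hu
  have v0 : 0 < v := by positivity
  have y0 : 0 < y := exp_pos _
  have yu : y ≤ u := exp_neg_le_quartic v0.le
  have et : tanh z = (1 - y) / (1 + y) := by
    rw [tanh_eq_sinh_div_cosh, sinh_eq, cosh_eq, hy, hv,
      show -(2 * z) = -z + -z by ring, exp_add]
    have : exp z * exp (-z) = 1 := by rw [← exp_add]; simp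
    field_simp
    linear_combination 2 * exp (-z) * this
  have ec : cosh z ^ 2 = (1 + y) ^ 2 / (4 * y) := by
    rw [cosh_eq, hy, hv, show -(2 * z) = -z + -z by ring, exp_add]
    have : exp z * exp (-z) = 1 := by rw [← exp_add]; simp
    field_simp
    linear_combination (4 * (exp z * exp (-z) + 1) + 8 * exp (-z) ^ 2) * this
  set g := (y + 6) * (1 + y) / (6 + 4 * y) with hg
  have ex : xz z ≤ y / (1 + y) * (g + v) := by
    rw [xz_eq_exp, et]
    have := log_one_add_le_pade y0.le
    have e2 : z * (1 - (1 - y) / (1 + y)) = v * y / (1 + y) := by rw [hv]; field_simp; ring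
    have e3 : y / (1 + y) * (g + v) = y * (y + 6) / (6 + 4 * y) + v * y / (1 + y) := by
      rw [hg]; field_simp
    rw [e2, e3, ← hv]
    linarith
  have eS : Sd z = ((v - 1) + (v + 1) * y ^ 2) / (y * v ^ 2) := by
    rw [Sd, hy, ← hv, cosh_eq, sinh_eq, exp_neg, show z = v / 2 by rw [hv]; ring]
    field_simp
    ring
  set B := (v - 1) + (v + 1) * y ^ 2 with hB
  have B0 : 0 ≤ B := by
    have := (Sd_pos hz).le
    rw [eS] at this
    exact (div_nonneg_iff.1 this).elim (fun h => h.1) (fun h => absurd h.2 (not_le.2 (by positivity)))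
  have gu : g ≤ (u + 6) * (1 + u) / (6 + 4 * u) := by
    have u0 : 0 < u := y0.trans_le yu
    rw [hg, div_le_div_iff₀ (by positivity) (by positivity)]
    nlinarith [mul_nonneg (sub_nonneg.2 yu) (show 0 ≤ 4 * u * y + 6 * (u + y) + 18 by positivity)]
  have g0 : 0 ≤ g := by positivity
  have key : (g + v) ^ 2 * B ≤ 2 * (49 / 75) * v ^ 3 := by
    have u0 : 0 < u := y0.trans_le yu
    have h1 : (g + v) ^ 2 * B ≤ ((u + 6) * (1 + u) / (6 + 4 * u) + v) ^ 2
        * ((v - 1) + (v + 1) * u ^ 2) := by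
      refine mul_le_mul (pow_le_pow_left₀ (by positivity) (by linarith) 2) ?_ B0 (by positivity)
      rw [hB]; gcongr
    refine h1.trans ?_
    set E := 24 + 24 * v + 12 * v ^ 2 + 4 * v ^ 3 + v ^ 4 with hE
    have E0 : 0 < E := by positivity
    have e : ((u + 6) * (1 + u) / (6 + 4 * u) + v) = ((24 + 6 * E) * (24 + E)
        + v * (E * (6 * E + 4 * 24))) / (E * (6 * E + 4 * 24)) := by
      rw [hu]; field_simp; ring
    have e' : (v - 1) + (v + 1) * u ^ 2 = ((v - 1) * E ^ 2 + (v + 1) * 24 ^ 2) / E ^ 2 := by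
      rw [hu]; field_simp
    rw [e, e', div_pow, div_mul_div_comm, div_le_iff₀ (by positivity), ← sub_nonneg]
    have : 2 * (49 / 75) * v ^ 3 * ((E * (6 * E + 4 * 24)) ^ 2 * E ^ 2)
        - ((24 + 6 * E) * (24 + E) + v * (E * (6 * E + 4 * 24))) ^ 2
          * ((v - 1) * E ^ 2 + (v + 1) * 24 ^ 2)
        = (107017666560 * v ^ 4 +
      377046171648 * v ^ 5 +
      720617472000 * v ^ 6 +
      1024359727104 * v ^ 7 +
      1220411473920 * v ^ 8 +
      1272996642816 * v ^ 9 +
      1176559644672 * v ^ 10 +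
      966244515840 * v ^ 11 +
      705697145856 * v ^ 12 +
      458932055040 * v ^ 13 +
      266223504384 * v ^ 14 +
      137994559488 * v ^ 15 +
      63978487488 * v ^ 16 +
      26530625088 * v ^ 17 +
      9826323840 * v ^ 18 +
      3240302976 * v ^ 19 +
      946181664 * v ^ 20 +
      242630208 * v ^ 21 +
      53957952 * v ^ 22 +
      10211328 * v ^ 23 +
      1596492 * v ^ 24 +
      196236 * v ^ 25 +
      17172 * v ^ 26 +
      828 * v ^ 27) / 75 := by
      rw [hE]; ring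
    rw [this]
    positivity
  have hx0 := xz_pos_of_nonneg hz.le
  calc xz z ^ 2 * Sd z * cosh z ^ 2
      ≤ (y / (1 + y) * (g + v)) ^ 2 * Sd z * cosh z ^ 2 := by
        have := (Sd_pos hz).le
        gcongr
    _ = (g + v) ^ 2 * B / (4 * v ^ 2) := by rw [eS, ec]; field_simp
    _ ≤ 49 / 75 * z := by
        rw [div_le_iff₀ (by positivity), show z = v / 2 by rw [hv]; ring]
        linarith

/-- `Qz` grows at most 49/75 times as fast as `log (1 / xz)`. -/
theorem Qz_sub_le_mul_log {z0 z : ℝ} (h0 : 0 ≤ z0) (h : z0 ≤ z) :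
    Qz z - Qz z0 ≤ 49 / 75 * log (xz z0 / xz z) := by
  have hd : ∀ x, 0 < x → HasDerivAt (fun x => Qz x + 49 / 75 * log (xz x))
      (xz x * Sd x + 49 / 75 * (-(x / cosh x ^ 2) / xz x)) x := fun x hx =>
    (hasDerivAt_Qz hx).add ((hasDerivAt_log_xz hx.le).const_mul _)
  have hm : AntitoneOn (fun x => Qz x + 49 / 75 * log (xz x)) (Ici 0) := by
    refine antitoneOn_of_deriv_nonpos (convex_Ici 0) (continuousOn_Qz_add_log _) ?_ ?_ <;>
      intro x hx <;> rw [interior_Ici] at hx <;> have hx' : (0:ℝ) < x := hx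
    · exact (hd x hx').differentiableAt.differentiableWithinAt
    · rw [(hd x hx').deriv]
      have hxz := xz_pos_of_nonneg hx'.le
      have k := xz_sq_mul_Sd_le hx'
      rw [neg_div, mul_neg, ← sub_eq_add_neg, sub_nonpos, div_div, ← mul_div_assoc,
        le_div_iff₀ (by positivity)]
      linarith
  have := hm h0 (show (0:ℝ) ≤ z from h0.trans h) h
  rw [log_div (xz_pos_of_nonneg h0).ne' (xz_pos_of_nonneg (h0.trans h)).ne']
  linarith

end Vale.Agent.P322.General
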