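import Vale.Agent.P322.General.JoinGeo
import Vale.Agent.P322.General.RBound
import Vale.Agent.P322.General.EdgeSlack

/-!
The joining case of the lowered weight, and with it the two point inequality.
-/

noncomputable section
namespace Vale.Agent.P322.General
open Real Set

lemma Wt_le_WC {m : ℝ} (h1 : -1 < m) (h2 : m < 1) : Wt m ≤ WC m := by
  have hm : m ^ 2 < 1 := by nlinarith
  have hb : 0 ≤ 5 / 4 - 1 / (2 * log 2) := by
    rw [sub_nonneg, div_le_iff₀ (by positivity)]; linarith [log_two_gt_d9]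
  have : 0 ≤ (5 / 4 - 1 / (2 * log 2)) * m ^ 2 / (1 + 32 * m ^ 2) := by positivity
  simp only [Wt, WC]
  nlinarith [mul_nonneg (sub_nonneg.2 hm.le) this]

lemma Qz_At_eq {t : ℝ} (h0 : 0 < t) (h1 : t < 1) :
    Qz (At t) = IV.qhA (t ^ 2) + Ez (At t) - log 2 := by
  have hx := xz_At (show -1 < t by linarith) h1
  rw [one_div, log_inv] at hx
  rw [Qz_At h0 h1, Ez, Sz_eq_At h0 h1]
  simp only [IV.qhA]
  simp only [IV.nc_real, IV.cst_real, IV.lg_real, IV.mx_real, IV.l2_real,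
      Nat.cast_ofNat, Nat.cast_one, Nat.cast_zero]
  linarith

lemma Qz_At_bounds {t : ℝ} (h0 : 0 < t) (h1 : t < 1) :
    IV.qlA (t ^ 2) ≤ Qz (At t) ∧ Qz (At t) ≤ IV.qhA (t ^ 2) := by
  have hp := At_pos h0 h1
  have e := Qz_At_eq h0 h1
  have := half_le_Ez hp
  have := Ez_le_log_two hp.le
  refine ⟨?_, by linarith⟩
  simp only [IV.qlA]
  simp only [IV.nc_real, IV.cst_real, IV.lg_real, IV.mx_real, IV.l2_real,
      Nat.cast_ofNat, Nat.cast_one, Nat.cast_zero]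
  exact max_le (Qz_nonneg hp.le) (by linarith)

lemma lnX_eq (A s : ℝ) : IV.lnX A s = 49 / 75 * log (max 1 (IV.Xs A s)) := by
  simp only [IV.lnX, IV.rE]; simp only [IV.nc_real, IV.cst_real, IV.lg_real, IV.mx_real, IV.l2_real,
      Nat.cast_ofNat, Nat.cast_one, Nat.cast_zero]

namespace Join

/-- what the cases use about a pair. -/
structure Data (t s mu mv : ℝ) : Prop where
  box : Box t s
  hmu : mu = (s + t) / (1 + s * t)
  hmv : mv = (s - t) / (1 - s * t)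

variable {t s mu mv : ℝ}

/-- `k`. -/
abbrev kk (t s : ℝ) : ℝ := IV.kFst (t ^ 2) s

lemma kk_eq (t s : ℝ) : kk t s = (1 - s ^ 2) / (1 - t ^ 2 * s ^ 2) := by
  simp only [IV.kFst]; simp only [IV.nc_real, IV.cst_real, IV.lg_real, IV.mx_real, IV.l2_real,
      Nat.cast_ofNat, Nat.cast_one, Nat.cast_zero]; ring_nf

lemma rAs_eq (h : Box t s) : IV.rAs (t ^ 2) s = (1 - t ^ 2) / (1 - t ^ 2 * s ^ 2) := by
  have := h.D0.ne'; have := (sub_pos.2 h.A1).ne'
  simp only [IV.rAs]; simp only [IV.nc_real, IV.cst_real, IV.lg_real, IV.mx_real, IV.l2_real,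
      Nat.cast_ofNat, Nat.cast_one, Nat.cast_zero]
  have e : 1 + (1 / (1 - t ^ 2) - 1) * (1 - s * s) = (1 - t ^ 2 * s ^ 2) / (1 - t ^ 2) := by
    field_simp; ring
  rw [e, one_div_div]

lemma one_sub_kk (h : Box t s) : 1 - kk t s = s * s * IV.rAs (t ^ 2) s := by
  have := h.D0.ne'
  rw [kk_eq, rAs_eq h, one_sub_div this, mul_div_assoc']; congr 1; ring

lemma rs_eq (h : Box t s) : IV.rs (t ^ 2) s = Re t s := by
  rw [h.Re_eq]
  simp only [IV.rs]; simp only [IV.nc_real, IV.cst_real, IV.lg_real, IV.mx_real, IV.l2_real,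
      Nat.cast_ofNat, Nat.cast_one, Nat.cast_zero]; rw [rAs_eq h]; ring

lemma Data.facts (g : Data t s mu mv) :
    0 < kk t s ∧ kk t s ≤ 1 ∧ (mu - mv) / 2 = kk t s * t ∧
    (mu - mv) / 2 * At t - (2 * hh ((mu + mv) / 2) - (hh mu + hh mv)) = kk t s * Ne t s ∧
    ((mu + mv) / 2) ^ 2 = IV.m2s (t ^ 2) s ∧
    -1 < mv ∧ mv < mu ∧ mu < 1 := by
  obtain ⟨h, hmu, hmv⟩ := g
  obtain ⟨ed, key, em⟩ := coord_eqs h hmu hmv
  rw [← kk_eq] at ed key em
  have hD := h.D0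
  have k0 : 0 < kk t s := by rw [kk_eq]; exact div_pos (sub_pos.2 h.B1) hD
  have hk1 := one_sub_kk h
  have hr : 0 ≤ IV.rAs (t ^ 2) s := by rw [rAs_eq h]; exact div_nonneg (sub_nonneg.2 h.A1.le) hD.le
  have k1 : kk t s ≤ 1 := by nlinarith [mul_nonneg (mul_self_nonneg s) hr]
  refine ⟨k0, k1, ed, key, ?_, ?_⟩
  · rw [← rs_eq h] at em
    simp only [IV.rs] at em
    simp only [IV.m2s]
    revert em
    simp only [IV.nc_real, IV.cst_real, IV.lg_real, IV.mx_real, IV.l2_real,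
        Nat.cast_ofNat, Nat.cast_one, Nat.cast_zero]
    intro em
    have hrk : IV.rAs (t ^ 2) s = 1 - t ^ 2 * kk t s := by
      have := hD.ne'
      rw [rAs_eq h, kk_eq]; field_simp; ring
    linear_combination -em + hk1 - (s * s * IV.rAs (t ^ 2) s) * hrk
  · obtain ⟨t0, t1, s0, s1⟩ := h
    have hst : s * t < 1 := by nlinarith
    have p1 : 0 < 1 + s * t := by nlinarith [mul_nonneg s0 t0.le]
    have p2 : 0 < 1 - s * t := by linarith
    refine ⟨?_, ?_, ?_⟩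
    · rw [hmv, lt_div_iff₀ p2]; nlinarith
    · have : 0 < (mu - mv) / 2 := by rw [ed]; positivity
      linarith
    · rw [hmu, div_lt_one p1]; nlinarith

/-- the weights in normalised form. -/
lemma Data.weights (g : Data t s mu mv) :
    WC ((mu + mv) / 2) = kk t s * IV.Xs (t ^ 2) s ∧
    WC ((mu + mv) / 2) - (WC mu + WC mv) / 2
      ≤ ((mu - mv) / 2) ^ 2 * IV.Phis (t ^ 2) s (kk t s) ∧
    kk t s * P322.Ye t s ≤ (WC mu + WC mv) / 2 ∧
    IV.Xs (t ^ 2) s = Xe t s + s * IV.TE (t ^ 2) s := by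
  obtain ⟨k0, k1, ed, key, em2, b1, b2, b3⟩ := g.facts
  obtain ⟨h, hmu, hmv⟩ := g
  obtain ⟨-, -, em⟩ := coord_eqs h hmu hmv
  rw [← kk_eq] at em
  have er := rs_eq h
  have eA := rAs_eq h
  set m := (mu + mv) / 2 with hm
  set d := (mu - mv) / 2 with hd
  have hmu' : mu = m + d := by rw [hm, hd]; ring
  have hmv' : mv = m - d := by rw [hm, hd]; ring
  have f0 : (1 : ℝ) + 32 * m ^ 2 ≠ 0 := by positivity
  have eX : WC m = kk t s * IV.Xs (t ^ 2) s := by
    simp only [IV.Xs, IV.fs, er, IV.beE]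
    simp only [IV.nc_real, IV.cst_real, IV.lg_real, IV.mx_real, IV.l2_real,
        Nat.cast_ofNat, Nat.cast_one, Nat.cast_zero]
    rw [← em2, WC, em]
    have : (5 / 4 - 1 / (2 * log 2)) * m ^ 2 / (1 + 32 * m ^ 2)
        = (5 / 4 - 1 / 2 / log 2) * (1 / 32) * (1 - 1 / (1 + 32 * m ^ 2)) := by
      rw [div_div]; field_simp; ring
    rw [this]; ring
  refine ⟨eX, ?_, ?_, ?_⟩
  · have eK : d ^ 2 = kk t s * kk t s * t ^ 2 := by rw [ed]; ring
    simp only [IV.Phis, IV.pPhi, IV.pPi, IV.beE]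
    simp only [IV.nc_real, IV.cst_real, IV.lg_real, IV.mx_real, IV.l2_real,
        Nat.cast_ofNat, Nat.cast_one, Nat.cast_zero]
    rw [← em2, ← eK]
    refine le_trans (le_of_eq ?_) (mul_le_mul_of_nonneg_left (le_max_right _ _) (sq_nonneg d))
    simp only [WC_split, hmu', hmv']
    have := recip_gap m d
    rw [show ((1:ℝ) + 32 * m ^ 2 - 32 * d ^ 2) ^ 2 + 128 * d ^ 2
      = (1 + 32 * (m ^ 2 + d ^ 2)) * (1 + 32 * (m ^ 2 + d ^ 2)) - 4096 * (m ^ 2 * d ^ 2) by ring,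
      mul_comm (1 + 32 * m ^ 2)] at this
    rw [show (1:ℝ) / 2 / log 2 = 1 / (2 * log 2) by rw [div_div]]
    linear_combination (33 * (5 / 4 - 1 / (2 * log 2)) / 1024) * this
  · refine le_trans ?_ ((div_le_div_iff_of_pos_right two_pos).2
      (add_le_add (Wt_le_WC (b1.trans b2) b3) (Wt_le_WC b1 (b2.trans b3))))
    have a1 : 1 + mu = (1 + t) * (1 + s) / (1 + s * t) := by
      have : 0 < 1 + s * t := by nlinarith [h.t0, h.s0]
      rw [hmu]; field_simp; ring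
    have a2 : 1 - mu = (1 - t) * (1 - s) / (1 + s * t) := by
      have : 0 < 1 + s * t := by nlinarith [h.t0, h.s0]
      rw [hmu]; field_simp; ring
    have a3 : 1 + mv = (1 - t) * (1 + s) / (1 - s * t) := by
      have : 0 < 1 - s * t := by nlinarith [h.t1, h.t0, h.s0, h.s1]
      rw [hmv]; field_simp; ring
    have a4 : 1 - mv = (1 + t) * (1 - s) / (1 - s * t) := by
      have : 0 < 1 - s * t := by nlinarith [h.t1, h.t0, h.s0, h.s1]
      rw [hmv]; field_simp; ring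
    rw [kk_eq]
    exact (Ye_le_avg h a1 a2 a3 a4).trans (Wt_avg_ge mu mv)
  · simp only [IV.Xs, IV.TE, IV.fs, IV.m2s, IV.beE, er]
    simp only [IV.nc_real, IV.cst_real, IV.lg_real, IV.mx_real, IV.l2_real,
        Nat.cast_ofNat, Nat.cast_one, Nat.cast_zero]
    rw [eA, Xe]
    have := h.D0.ne'
    set q := (1 - t ^ 2) / (1 - t ^ 2 * s ^ 2) with hq
    have e1 : s ^ 2 * (1 - t ^ 2) ^ 2 / (4 * (1 - t ^ 2 * s ^ 2) ^ 2) = s * s * (q * q) / 4 := by
      rw [hq]; field_simp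
    rw [e1]
    have : (1:ℝ) + 32 * (s * s * (q * q)) ≠ 0 :=
      (lt_of_lt_of_le one_pos (le_add_of_nonneg_right (mul_nonneg (by norm_num)
        (mul_nonneg (mul_self_nonneg s) (mul_self_nonneg q))))).ne'
    field_simp
    ring

/-- the middle weight not above `k`: the curve of equality itself works. -/
lemma Data.start (g : Data t s mu mv) :
    lam mu mv * ((hh mu + hh mv) / 2 - (mu - mv) / 2 * gz (At t)) ≥ 0 ∧
    (IV.Xs (t ^ 2) s ≤ 1 →
      Pi2 (WC ((mu + mv) / 2)) ((mu - mv) / 2 * gz (At t))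
        - Pi2 ((WC mu + WC mv) / 2) ((mu - mv) / 2 * gz (At t)) ≤ kk t s * Ne t s) := by
  obtain ⟨k0, k1, ed, key, em2, b1, b2, b3⟩ := g.facts
  obtain ⟨h, hmu, hmv⟩ := g
  have hp := At_pos h.t0 h.t1
  constructor
  · refine mul_nonneg (lam_pos b1 b2 b3).le ?_
    have hc := sum_hh_ge (At t) ((At mu + At mv) / 2) hp
    have e : (At mu - At mv) / 2 = At t := by
      obtain ⟨t0, t1, s0, s1⟩ := h
      have hst : s * t < 1 := by nlinarith
      have p1 : 0 < 1 + s * t := by nlinarith [mul_nonneg s0 t0.le]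
      have p2 : 0 < 1 - s * t := by linarith
      have a1 : 1 + mu = (1 + t) * (1 + s) / (1 + s * t) := by rw [hmu]; field_simp; ring
      have a2 : 1 - mu = (1 - t) * (1 - s) / (1 + s * t) := by rw [hmu]; field_simp; ring
      have a3 : 1 + mv = (1 - t) * (1 + s) / (1 - s * t) := by rw [hmv]; field_simp; ring
      have a4 : 1 - mv = (1 + t) * (1 - s) / (1 - s * t) := by rw [hmv]; field_simp; ring
      have q1 : (0:ℝ) < 1 + s := by linarith
      have q2 : (0:ℝ) < 1 - s := by linarith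
      have q3 : (0:ℝ) < 1 + t := by linarith
      have q4 : (0:ℝ) < 1 - t := by linarith
      simp only [At]
      rw [a1, a2, a3, a4, log_div (by positivity) p1.ne', log_div (by positivity) p1.ne',
        log_div (by positivity) p2.ne', log_div (by positivity) p2.ne',
        log_mul q3.ne' q1.ne', log_mul q4.ne' q2.ne', log_mul q4.ne' q1.ne', log_mul q3.ne' q2.ne']
      ring
    have e1 : (At mu + At mv) / 2 + At t = At mu := by linarith
    have e2 : (At mu + At mv) / 2 - At t = At mv := by linarith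
    rw [e1, e2, tanh_At (by linarith) b3, tanh_At b1 (by linarith)] at hc
    rw [← hh_tanh (At mu), ← hh_tanh (At mv), tanh_At (by linarith) b3,
      tanh_At b1 (by linarith)] at hc
    have : (mu - mv) / tanh (At t) * xz (At t) = (mu - mv) * gz (At t) := by rw [gz]; ring
    rw [this] at hc
    linarith
  intro hX
  obtain ⟨eW, -, -, -⟩ := Data.weights ⟨h, hmu, hmv⟩
  have hx := xz_pos_of_nonneg hp.le
  have eη : (mu - mv) / 2 * gz (At t) = kk t s * xz (At t) := by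
    rw [ed, gz, tanh_At (by linarith [h.t0]) h.t1]; field_simp [h.t0.ne']
  rw [eη]
  have hη : 0 < kk t s * xz (At t) := mul_pos k0 hx
  have hW0 : 0 < WC ((mu + mv) / 2) := WC_pos (by linarith) (by linarith)
  have hV0 : 0 < (WC mu + WC mv) / 2 := by
    have := WC_pos (b1.trans b2) b3
    have := WC_pos b1 (b2.trans b3)
    linarith
  have h1 : Pi2 (WC ((mu + mv) / 2)) (kk t s * xz (At t)) ≤ Pi2 (kk t s) (kk t s * xz (At t)) :=
    Pi2_mono hW0 hη (by rw [eW]; exact mul_le_of_le_one_right k0.le hX)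
  have h2 : Pi2 (kk t s) (kk t s * xz (At t)) = kk t s * Pi2 1 (xz (At t)) := by
    rw [← Pi2_homog k0.ne', mul_one]
  have h3 := edge_start (t := t) ⟨h.t0, h.t1, le_rfl, zero_lt_one⟩
  have hX0 : Xe t 0 = 1 := by simp [Xe, Re]
  rw [hX0] at h3
  have := mul_le_mul_of_nonneg_left (Ne_start_le h) k0.le
  rw [h3.1] at this
  linarith [Pi2_nonneg hV0 hη]

/-- the first bound at the moved point. -/
lemma Data.bound_slope (g : Data t s mu mv) {e S : ℝ} (he : 0 ≤ e)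
    (hX : 1 < IV.Xs (t ^ 2) s)
    (hWV : (WC mu + WC mv) / 2 < WC ((mu + mv) / 2))
    (hS : S ≤ Ne t s + Pi2 (P322.Ye t s) (xz (At t)) - Pi2 (Xe t s) (xz (At t)))
    (hQ : s * IV.TE (t ^ 2) s * Qz (Zi (xz (At t) / IV.Xs (t ^ 2) s))
      ≤ S + t * (t * s * e) * (1 - IV.rhos (t ^ 2) s (kk t s))) :
    2 * hh ((mu + mv) / 2) - (hh mu + hh mv)
        + Pi2 (WC ((mu + mv) / 2)) ((mu - mv) / 2 * gz (At t + t * s * e))
      ≤ (mu - mv) / 2 * (At t + t * s * e)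
        + Pi2 ((WC mu + WC mv) / 2) ((mu - mv) / 2 * gz (At t + t * s * e)) := by
  obtain ⟨k0, k1, ed, key, em2, b1, b2, b3⟩ := g.facts
  obtain ⟨eW, hgapΦ, hY, eXe⟩ := g.weights
  obtain ⟨h, hmu, hmv⟩ := g
  have hp := At_pos h.t0 h.t1
  set p := At t with hpd
  set k := kk t s with hk
  set W := WC ((mu + mv) / 2) with hW
  set V := (WC mu + WC mv) / 2 with hV
  set d := (mu - mv) / 2 with hd
  set X := IV.Xs (t ^ 2) s with hXd
  set x := xz p with hxd
  have hx : 0 < x := xz_pos_of_nonneg hp.le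
  have htp : tanh p = t := tanh_At (by linarith [h.t0]) h.t1
  have hd0 : 0 < d := by rw [ed]; exact mul_pos k0 h.t0
  have hV0 : 0 < V := lt_of_lt_of_le (mul_pos k0 h.Ye_pos) hY
  have hkW : k ≤ W := by rw [eW]; exact le_mul_of_one_le_right k0.le hX.le
  set Φ := IV.Phis (t ^ 2) s k with hΦ
  set ρ := IV.rhos (t ^ 2) s k with hρ
  have eρ : ρ = Φ * k * IV.uA (t ^ 2) := rfl
  have eu : IV.uA (t ^ 2) = 1 - (1 - log 2) * (1 - t ^ 2) := by simp only [IV.uA]; simp only [IV.nc_real, IV.cst_real, IV.lg_real, IV.mx_real, IV.l2_real,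
      Nat.cast_ofNat, Nat.cast_one, Nat.cast_zero]
  have Φ0 : 0 ≤ Φ := by simp only [hΦ, IV.Phis, IV.pPhi]; simp only [IV.nc_real, IV.cst_real, IV.lg_real, IV.mx_real, IV.l2_real,
      Nat.cast_ofNat, Nat.cast_one, Nat.cast_zero]; exact le_max_left _ _
  have hgap : ∀ y, p ≤ y → (W - V) * Lc y ≤ ρ * (d * y) := by
    intro y hy
    have hy0 : 0 < y := hp.trans_le hy
    have hL : Lc y * p ≤ Lc p * y := by
      have := Lc_div_antitone (show p ∈ Ioi (0:ℝ) from hp) (show y ∈ Ioi (0:ℝ) from hy0) hy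
      simpa [div_le_div_iff₀ hy0 hp] using this
    have e1 : t * Lc p = p * (Ez p * (1 - t ^ 2) + t ^ 2) := by
      have hc := cosh_ne p
      have h2 := cosh_sq_sub_sinh_sq p
      have e2 : 1 - t ^ 2 = 1 / cosh p ^ 2 := by
        rw [← htp, tanh_eq_sinh_div_cosh]; field_simp; linarith
      rw [e2, ← htp, Ez, Sz_of_ne hp.ne', sinh_two_mul, tanh_eq_sinh_div_cosh, xz,
        tanh_eq_sinh_div_cosh]
      field_simp
      ring
    have e2 : t * Lc p ≤ p * IV.uA (t ^ 2) := by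
      rw [e1, eu]
      have := mul_le_mul_of_nonneg_right (Ez_le_log_two hp.le) (sub_nonneg.2 h.A1.le)
      exact mul_le_mul_of_nonneg_left (by linarith) hp.le
    refine le_of_mul_le_mul_right ?_ hp
    calc (W - V) * Lc y * p ≤ d ^ 2 * Φ * (Lc y * p) := by
          rw [mul_assoc]; exact mul_le_mul_of_nonneg_right hgapΦ (mul_nonneg (Lc_pos y).le hp.le)
      _ ≤ d ^ 2 * Φ * (Lc p * y) := mul_le_mul_of_nonneg_left hL (by positivity)
      _ = Φ * k * d * y * (t * Lc p) := by rw [ed]; ring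
      _ ≤ Φ * k * d * y * (p * IV.uA (t ^ 2)) :=
        mul_le_mul_of_nonneg_left e2 (by positivity)
      _ = ρ * (d * y) * p := by rw [eρ]; ring
  have hb : ∀ y, p ≤ y → d * gz y ≤ W * xz y := by
    intro y hy
    have hy0 : 0 < y := hp.trans_le hy
    have hty : t ≤ tanh y := by
      rw [← htp]
      exact (strictMonoOn_of_deriv_pos (convex_Ici (0:ℝ))
        (fun x _ => (hasDerivAt_tanh x).continuousAt.continuousWithinAt)
        (fun x _ => by rw [(hasDerivAt_tanh x).deriv]; positivity)).monotoneOn hp.le hy0.le hy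
    have hxy := xz_pos_of_nonneg hy0.le
    calc d * gz y = k * xz y * (t / tanh y) := by rw [gz, ed]; ring
      _ ≤ k * xz y * 1 := mul_le_mul_of_nonneg_left ((div_le_one (tanh_pos' hy0)).2 hty) (by positivity)
      _ ≤ W * xz y := by rw [mul_one]; exact mul_le_mul_of_nonneg_right hkW hxy.le
  have hg := gain_along hV0 hWV hd0 hp (le_add_of_nonneg_right
    (mul_nonneg (mul_nonneg h.t0.le h.s0) he)) hb hgap
  have eη : d * gz p = k * x := by
    rw [ed, gz, htp]; field_simp [h.t0.ne']; rfl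
  rw [eη] at hg
  -- the loss at the curve of equality
  set Z := Zi (x / X) with hZ
  have hX0 : 0 < X := zero_lt_one.trans hX
  have h1 : Pi2 X x ≤ Pi2 (Xe t s) x + s * IV.TE (t ^ 2) s * Qz Z := by
    have := le_Pi2 h.Xe_pos_le.1 hx (Zi_nonneg (x / X))
    have e : Pi2 X x = X * Qz Z - x * Sz Z := rfl
    rw [e, eXe]
    linarith
  have h2 : Pi2 W (k * x) - Pi2 V (k * x) ≤ k * (Pi2 X x - Pi2 (P322.Ye t s) x) := by
    rw [eW, Pi2_homog k0.ne', mul_sub, ← Pi2_homog k0.ne' (Y := P322.Ye t s)]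
    linarith [Pi2_mono (mul_pos k0 h.Ye_pos) (mul_pos k0 hx) hY]
  have h3 : k * (Pi2 X x - Pi2 (P322.Ye t s) x) ≤ k * (Ne t s + t * (t * s * e) * (1 - ρ)) :=
    mul_le_mul_of_nonneg_left (by linarith) k0.le
  have e4 : d * (p + t * s * e - p) * (1 - ρ) = k * (t * (t * s * e) * (1 - ρ)) := by rw [ed]; ring
  linarith

/-- the second bound at the moved point. -/
lemma Data.bound_direct (g : Data t s mu mv) {e B0 : ℝ} (he : 0 ≤ e)
    (hX : 1 < IV.Xs (t ^ 2) s)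
    (hB : 0 < B0) (hBx : B0 ≤ xz (At t) - t * (t * s * e / sg (At t)))
    (hQ : kk t s * kk t s * t ^ 2 * IV.Phis (t ^ 2) s (kk t s)
        * (49 / 75 * log (IV.Xs (t ^ 2) s * log 2 / B0))
      ≤ kk t s * Ne t s + (mu - mv) / 2 * (t * s * e)) :
    2 * hh ((mu + mv) / 2) - (hh mu + hh mv)
        + Pi2 (WC ((mu + mv) / 2)) ((mu - mv) / 2 * gz (At t + t * s * e))
      ≤ (mu - mv) / 2 * (At t + t * s * e)
        + Pi2 ((WC mu + WC mv) / 2) ((mu - mv) / 2 * gz (At t + t * s * e)) := by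
  obtain ⟨k0, k1, ed, key, em2, b1, b2, b3⟩ := g.facts
  obtain ⟨eW, hgapΦ, hY, eXe⟩ := g.weights
  obtain ⟨h, hmu, hmv⟩ := g
  have hp := At_pos h.t0 h.t1
  set p := At t with hpd
  set ε := t * s * e with hε
  have ε0 : 0 ≤ ε := mul_nonneg (mul_nonneg h.t0.le h.s0) he
  set k := kk t s with hk
  set W := WC ((mu + mv) / 2) with hW
  set V := (WC mu + WC mv) / 2 with hV
  set d := (mu - mv) / 2 with hd
  set X := IV.Xs (t ^ 2) s with hXd
  have htp : tanh p = t := tanh_At (by linarith [h.t0]) h.t1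
  have hz : 0 < p + ε := by linarith
  have hgz : 0 < gz (p + ε) := div_pos (xz_pos_of_nonneg hz.le) (tanh_pos' hz)
  have hd0 : 0 < d := by rw [ed]; exact mul_pos k0 h.t0
  have hV0 : 0 < V := lt_of_lt_of_le (mul_pos k0 h.Ye_pos) hY
  have hX0 : 0 < X := zero_lt_one.trans hX
  have hW0 : 0 < W := by rw [eW]; positivity
  set η := d * gz (p + ε) with hη
  have η0 : 0 < η := mul_pos hd0 hgz
  set Z := Zi (η / W) with hZ
  have h1 : Pi2 W η - Pi2 V η ≤ (W - V) * Qz Z := by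
    have := le_Pi2 hV0 η0 (Zi_nonneg (η / W))
    have e : Pi2 W η = W * Qz Z - η * Sz Z := rfl
    linarith
  have hsg : 0 < sg p := div_pos (pow_pos (sinh_pos_iff.2 hp) 2) (Lc_pos p)
  have hlow : k * B0 ≤ η := by
    have ht := gz_tangent hp hz
    have hdrop : gz p - ε / sg p ≤ gz (p + ε) := by
      rw [sub_le_iff_le_add, ← sub_le_iff_le_add', le_div_iff₀ hsg]; linarith
    have hx : xz p = t * gz p := by rw [gz, htp]; field_simp [h.t0.ne']
    calc k * B0 ≤ k * (t * gz p - t * (ε / sg p)) := by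
          rw [← hx]; exact mul_le_mul_of_nonneg_left hBx k0.le
      _ = k * t * (gz p - ε / sg p) := by ring
      _ ≤ k * t * gz (p + ε) := mul_le_mul_of_nonneg_left hdrop (mul_nonneg k0.le h.t0.le)
      _ = η := by rw [hη, ed]
  have hle : η / W ≤ log 2 := by
    have h2 : gz (p + ε) ≤ gz p := by
      have ht := gz_tangent hz hp
      have : 0 < sg (p + ε) := div_pos (pow_pos (sinh_pos_iff.2 hz) 2) (Lc_pos _)
      nlinarith
    rw [div_le_iff₀ hW0]
    calc η ≤ d * gz p := mul_le_mul_of_nonneg_left h2 hd0.le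
      _ = k * xz p := by rw [ed, gz, htp]; field_simp [h.t0.ne']
      _ ≤ k * log 2 := mul_le_mul_of_nonneg_left (xz_le_log_two hp.le) k0.le
      _ ≤ log 2 * W := by
        rw [eW, mul_comm (log 2)]
        exact mul_le_mul_of_nonneg_right (le_mul_of_one_le_right k0.le hX.le) (log_pos one_lt_two).le
  have h3 : Qz Z ≤ 49 / 75 * log (X * log 2 / B0) := by
    have := Qz_sub_le_mul_log (z0 := 0) le_rfl (Zi_nonneg (η / W))
    rw [Qz_zero, xz_zero, xz_Zi (div_pos η0 hW0) hle, sub_zero] at this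
    refine this.trans (mul_le_mul_of_nonneg_left (log_le_log (by positivity) ?_) (by norm_num))
    rw [div_div_eq_mul_div, div_le_div_iff₀ η0 hB, eW]
    have := mul_le_mul_of_nonneg_left hlow (mul_nonneg (log_pos one_lt_two).le hX0.le)
    linarith
  have Φ0 : 0 ≤ IV.Phis (t ^ 2) s k := by
    simp only [IV.Phis, IV.pPhi]; simp only [IV.nc_real, IV.cst_real, IV.lg_real, IV.mx_real, IV.l2_real,
        Nat.cast_ofNat, Nat.cast_one, Nat.cast_zero]; exact le_max_left _ _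
  have h4 : (W - V) * Qz Z ≤ d ^ 2 * IV.Phis (t ^ 2) s k * (49 / 75 * log (X * log 2 / B0)) :=
    (mul_le_mul_of_nonneg_right hgapΦ (Qz_nonneg (Zi_nonneg _))).trans
      (mul_le_mul_of_nonneg_left h3 (by positivity))
  have e5 : d ^ 2 = k * k * t ^ 2 := by rw [ed]; ring
  rw [e5] at h4
  linarith

/-- the growth of `Qz` at the middle weight. -/
lemma Qc_le (h : Box t s) (hX : 1 < IV.Xs (t ^ 2) s) :
    Qz (Zi (xz (At t) / IV.Xs (t ^ 2) s)) ≤ Qz (At t) + IV.lnX (t ^ 2) s ∧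
    ∀ B0, 0 < B0 → B0 ≤ xz (At t) →
      Qz (Zi (xz (At t) / IV.Xs (t ^ 2) s))
        ≤ 49 / 75 * log (max 1 (IV.Xs (t ^ 2) s * log 2 / B0)) := by
  have hp := (At_pos h.t0 h.t1).le
  have hx := xz_pos_of_nonneg hp
  set X := IV.Xs (t ^ 2) s with hXd
  have hX0 : 0 < X := zero_lt_one.trans hX
  have hle : xz (At t) / X ≤ xz (At t) := div_le_self hx.le hX.le
  have e := xz_Zi (div_pos hx hX0) (hle.trans (xz_le_log_two hp))
  constructor
  · have hz : At t ≤ Zi (xz (At t) / X) := by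
      have := Zi_antitone (show (0:ℝ) < xz (At t) / X from div_pos hx hX0) (show (0:ℝ) < xz (At t) from hx) hle
      rwa [Zi_xz hp] at this
    have := Qz_sub_le_mul_log hp hz
    rw [e, div_div_cancel₀ hx.ne'] at this
    rw [lnX_eq, ← hXd, max_eq_right hX.le]
    linarith
  · intro B0 hB hBx
    have := Qz_sub_le_mul_log (z0 := 0) le_rfl (Zi_nonneg (xz (At t) / X))
    rw [Qz_zero, xz_zero, e, sub_zero] at this
    refine this.trans (mul_le_mul_of_nonneg_left (log_le_log (by positivity) (le_trans ?_ (le_max_right _ _))) (by norm_num))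
    rw [div_div_eq_mul_div, mul_comm X]
    exact div_le_div_of_nonneg_left (by positivity) hB hBx

lemma xlo_le {t : ℝ} (h0 : 0 < t) (h1 : t < 1) : IV.xlo (t ^ 2) ≤ xz (At t) := by
  have hx := xz_At (show -1 < t by linarith) h1
  rw [one_div, log_inv] at hx
  simp only [IV.xlo, IV.qhA]
  simp only [IV.nc_real, IV.cst_real, IV.lg_real, IV.mx_real, IV.l2_real,
      Nat.cast_ofNat, Nat.cast_one, Nat.cast_zero]
  linarith [t_mul_At_le h0.le h1]

lemma series_le (h : Box t s) : t ^ 2 * IV.n0A (t ^ 2) ≤ Ne t s := by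
  refine (start_series h.t0.le h.t1).trans (le_trans (le_of_eq ?_) (Ne_start_le h))
  simp [Ne]; ring

lemma drop_eq {t : ℝ} (h0 : 0 < t) (h1 : t < 1) (s e : ℝ) :
    t * (t * s * e / sg (At t)) = s * (e * ((1 - t ^ 2) * (log 2 + IV.qhA (t ^ 2)))) := by
  have hc := Cert.cosh_At_sq (show -1 < t by linarith) h1
  have ha : (0:ℝ) < 1 - t ^ 2 := by nlinarith
  have eS : sinh (At t) ^ 2 = t ^ 2 / (1 - t ^ 2) := by
    have h2 := cosh_sq_sub_sinh_sq (At t)
    rw [hc] at h2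
    field_simp at h2 ⊢
    linarith
  have eL : Lc (At t) = log 2 + IV.qhA (t ^ 2) := by
    have hx := xz_At (show -1 < t by linarith) h1
    rw [xz, tanh_At (by linarith) h1, one_div, log_inv] at hx
    simp only [IV.qhA]; simp only [IV.nc_real, IV.cst_real, IV.lg_real, IV.mx_real, IV.l2_real,
        Nat.cast_ofNat, Nat.cast_one, Nat.cast_zero]; linarith
  rw [sg, eS, eL]
  have : log 2 + IV.qhA (t ^ 2) ≠ 0 := by rw [← eL]; exact (Lc_pos _).ne'
  field_simp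

/-- the conclusion at a pair. -/
def Concl (t mu mv : ℝ) : Prop :=
  ∃ z, At t ≤ z ∧
    (mu - mv) / 2 * (z - At t)
      ≤ lam mu mv * ((hh mu + hh mv) / 2 - (mu - mv) / 2 * gz z) ∧
    2 * hh ((mu + mv) / 2) - (hh mu + hh mv) + Pi2 (WC ((mu + mv) / 2)) ((mu - mv) / 2 * gz z)
      ≤ (mu - mv) / 2 * z + Pi2 ((WC mu + WC mv) / 2) ((mu - mv) / 2 * gz z)

/-- a pair that needs work. -/
structure Hard (t s mu mv : ℝ) : Prop extends Data t s mu mv where
  hX : 1 < IV.Xs (t ^ 2) s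
  hWV : (WC mu + WC mv) / 2 < WC ((mu + mv) / 2)

lemma Data.keep (g : Data t s mu mv)
    (H : Pi2 (WC ((mu + mv) / 2)) ((mu - mv) / 2 * gz (At t))
      - Pi2 ((WC mu + WC mv) / 2) ((mu - mv) / 2 * gz (At t)) ≤ kk t s * Ne t s) :
    Concl t mu mv := by
  obtain ⟨-, -, ed, key, -⟩ := g.facts
  exact ⟨At t, le_rfl, by rw [sub_self, mul_zero]; exact g.start.1, by linarith⟩

/-- signs. -/
lemma Hard.signs (g : Hard t s mu mv) :
    0 < s ∧ 0 ≤ IV.rAs (t ^ 2) s ∧ 0 ≤ (5 / 4 - 1 / 2 / log 2 : ℝ) ∧ 0 ≤ IV.rs (t ^ 2) s ∧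
    (0 ≤ IV.fs (t ^ 2) s ∧ IV.fs (t ^ 2) s ≤ 1) ∧ 0 ≤ IV.TE (t ^ 2) s ∧
    0 ≤ IV.lnX (t ^ 2) s ∧ 0 ≤ IV.eE s ∧
    Re t s - 1 = t ^ 2 * (s * s * IV.rAs (t ^ 2) s) := by
  obtain ⟨-, -, -, -, em2, -⟩ := g.facts
  have h := g.box
  have hX := g.hX
  have hs : 0 < s := h.s0.lt_of_ne fun hs0 => by
    rw [← hs0] at hX
    simp only [IV.Xs, IV.rs, IV.fs, IV.m2s] at hX
    revert hX
    simp only [IV.nc_real, IV.cst_real, IV.lg_real, IV.mx_real, IV.l2_real,
        Nat.cast_ofNat, Nat.cast_one, Nat.cast_zero]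
    norm_num
  have hrA : 0 ≤ IV.rAs (t ^ 2) s := by
    rw [rAs_eq h]; exact div_nonneg (sub_nonneg.2 h.A1.le) h.D0.le
  have hbe : 0 ≤ (5 / 4 - 1 / 2 / log 2 : ℝ) := by
    rw [sub_nonneg, div_le_iff₀ (log_pos one_lt_two)]; linarith [log_two_gt_d9]
  have hrs : 0 ≤ IV.rs (t ^ 2) s := by rw [rs_eq h]; linarith [h.one_le_Re]
  have hfs : 0 ≤ IV.fs (t ^ 2) s ∧ IV.fs (t ^ 2) s ≤ 1 := by
    have h0 : (0:ℝ) ≤ IV.m2s (t ^ 2) s := by rw [← em2]; positivity
    simp only [IV.fs]; simp only [IV.nc_real, IV.cst_real, IV.lg_real, IV.mx_real, IV.l2_real,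
        Nat.cast_ofNat, Nat.cast_one, Nat.cast_zero]
    exact ⟨by positivity, (div_le_one (by linarith)).2 (by linarith)⟩
  have hTE : 0 ≤ IV.TE (t ^ 2) s := by
    simp only [IV.TE, IV.beE]; simp only [IV.nc_real, IV.cst_real, IV.lg_real, IV.mx_real, IV.l2_real,
        Nat.cast_ofNat, Nat.cast_one, Nat.cast_zero]
    have := hfs.1
    positivity
  have hlnX : 0 ≤ IV.lnX (t ^ 2) s := by
    rw [lnX_eq]; exact mul_nonneg (by norm_num) (log_nonneg (le_max_left _ _))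
  have he : 0 ≤ IV.eE s := by
    simp only [IV.eE]; simp only [IV.nc_real, IV.cst_real, IV.lg_real, IV.mx_real, IV.l2_real,
        Nat.cast_ofNat, Nat.cast_one, Nat.cast_zero]
    exact mul_nonneg (by norm_num) (mul_nonneg (by linarith [h.s1]) (by linarith))
  have eRe : Re t s - 1 = t ^ 2 * (s * s * IV.rAs (t ^ 2) s) := by
    rw [← rs_eq h]; simp only [IV.rs]; simp only [IV.nc_real, IV.cst_real, IV.lg_real, IV.mx_real, IV.l2_real,
        Nat.cast_ofNat, Nat.cast_one, Nat.cast_zero]; ring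
  exact ⟨hs, hrA, hbe, hrs, hfs, hTE, hlnX, he, eRe⟩

/-- the moved point. -/
lemma Hard.moved (g : Hard t s mu mv) (h9 : s ≤ 24 / 25) (hA : t ^ 2 ≤ 576 / 625) {S : ℝ}
    (hS : S ≤ Ne t s + Pi2 (P322.Ye t s) (xz (At t)) - Pi2 (Xe t s) (xz (At t)))
    (hQ : s * IV.TE (t ^ 2) s * Qz (Zi (xz (At t) / IV.Xs (t ^ 2) s))
      ≤ S + t * (t * s * IV.eE s) * (1 - IV.rhos (t ^ 2) s (kk t s))) :
    Concl t mu mv := by
  obtain ⟨hs, -, -, -, -, -, -, he, -⟩ := g.signs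
  have h := g.box
  have hX := g.hX
  have hWV := g.hWV
  have hmu := g.hmu
  have hmv := g.hmv
  refine ⟨At t + t * s * IV.eE s, le_add_of_nonneg_right (mul_nonneg (mul_nonneg h.t0.le h.s0) he),
    ?_, g.toData.bound_slope he hX hWV hS hQ⟩
  rw [add_sub_cancel_left]
  exact cross h hmu hmv hs h9 hA

/-- the point stays. -/
lemma Hard.stay (g : Hard t s mu mv) {S : ℝ}
    (hS : S ≤ Ne t s + Pi2 (P322.Ye t s) (xz (At t)) - Pi2 (Xe t s) (xz (At t)))
    (hQ : s * IV.TE (t ^ 2) s * Qz (Zi (xz (At t) / IV.Xs (t ^ 2) s)) ≤ S) :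
    Concl t mu mv := by
  obtain ⟨-, -, ed, key, -⟩ := g.facts
  have := g.toData.bound_slope (e := 0) le_rfl g.hX g.hWV hS (by simpa using hQ)
  simp only [mul_zero, add_zero] at this
  exact g.keep (by linarith)

/-- the direct bound where the point stays. -/
lemma Hard.direct (g : Hard t s mu mv) (hc : 0 ≤ IV.condD (t ^ 2) s (kk t s)) :
    Concl t mu mv := by
  obtain ⟨k0, k1, ed, key, em2, b1, b2, b3⟩ := g.facts
  obtain ⟨eW, hgapΦ, hY, eXe⟩ := g.weights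
  have h := g.box
  have hp := At_pos h.t0 h.t1
  have hA0 : 0 ≤ t ^ 2 := sq_nonneg t
  have hV0 : 0 < (WC mu + WC mv) / 2 := lt_of_lt_of_le (mul_pos k0 h.Ye_pos) hY
  obtain ⟨-, qh⟩ := Qz_At_bounds h.t0 h.t1
  obtain ⟨hQc, -⟩ := Qc_le h g.hX
  refine g.keep ?_
  have hx := xz_pos_of_nonneg hp.le
  have eη : (mu - mv) / 2 * gz (At t) = kk t s * xz (At t) := by
    rw [ed, gz, tanh_At (by linarith [h.t0]) h.t1]; field_simp [h.t0.ne']
  rw [eη]
  set Z := Zi (xz (At t) / IV.Xs (t ^ 2) s) with hZ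
  have h1 := le_Pi2 hV0 (mul_pos k0 hx) (Zi_nonneg (xz (At t) / IV.Xs (t ^ 2) s))
  have e1 : Pi2 (WC ((mu + mv) / 2)) (kk t s * xz (At t))
      = WC ((mu + mv) / 2) * Qz Z - kk t s * xz (At t) * Sz Z := by
    rw [eW, Pi2_homog k0.ne']; simp only [Pi2, hZ]; ring
  rw [← hZ] at h1
  have hΦ : 0 ≤ IV.Phis (t ^ 2) s (kk t s) := by
    simp only [IV.Phis, IV.pPhi]; simp only [IV.nc_real, IV.cst_real, IV.lg_real, IV.mx_real, IV.l2_real,
        Nat.cast_ofNat, Nat.cast_one, Nat.cast_zero]; exact le_max_left _ _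
  have h2 := mul_le_mul_of_nonneg_right hgapΦ (Qz_nonneg (Zi_nonneg (xz (At t) / IV.Xs (t ^ 2) s)))
  have h3 := mul_le_mul_of_nonneg_left (hQc.trans (add_le_add qh le_rfl))
    (mul_nonneg (sq_nonneg ((mu - mv) / 2)) hΦ)
  simp only [IV.condD] at hc
  have h4 := mul_le_mul_of_nonneg_left (series_le h) k0.le
  have h5 := mul_nonneg (mul_nonneg k0.le hA0) hc
  rw [ed] at h2 h3
  linarith

/-- small `t`, the first bound. -/
lemma Hard.useA (g : Hard t s mu mv) (hA' : t ^ 2 ≤ 576 / 625) (h9 : s ≤ 24 / 25) {q : ℝ}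
    (hq : Qz (Zi (xz (At t) / IV.Xs (t ^ 2) s)) ≤ q)
    (hc : 0 ≤ t ^ 2 * (IV.eE s * (1 - IV.rhos (t ^ 2) s (kk t s))) - IV.TE (t ^ 2) s * q) :
    Concl t mu mv := by
  obtain ⟨hs, -, -, -, -, hTE, -, -, -⟩ := g.signs
  refine g.moved h9 hA' (edge_base0 g.box) ?_
  have h1 := mul_le_mul_of_nonneg_left hq (mul_nonneg hs.le hTE)
  have h2 := mul_nonneg hs.le hc
  linarith

/-- small `t`, the direct bound at the moved point. -/
lemma Hard.useC (g : Hard t s mu mv) (hA' : t ^ 2 ≤ 576 / 625) (h9 : s ≤ 24 / 25)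
    (hpos : 0 < IV.x1E (t ^ 2) s)
    (hc : IV.kFst (t ^ 2) s * IV.Phis (t ^ 2) s (kk t s)
        * (49 / 75 * log (max 1 (IV.Xs (t ^ 2) s * log 2 / IV.x1E (t ^ 2) s)))
      ≤ s * IV.eE s + t ^ 2 * (1 / 6)) : Concl t mu mv := by
  obtain ⟨k0, k1, ed, key, em2, b1, b2, b3⟩ := g.facts
  obtain ⟨hs, -, -, -, -, -, -, he, -⟩ := g.signs
  have h := g.box
  have hX := g.hX
  have hmu := g.hmu
  have hmv := g.hmv
  have hA0 : 0 ≤ t ^ 2 := sq_nonneg t
  refine ⟨At t + t * s * IV.eE s,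
    le_add_of_nonneg_right (mul_nonneg (mul_nonneg h.t0.le h.s0) he),
    by rw [add_sub_cancel_left]; exact cross h hmu hmv hs h9 hA',
    g.toData.bound_direct (B0 := IV.x1E (t ^ 2) s) he hX hpos ?_ ?_⟩
  · have := xlo_le h.t0 h.t1
    rw [drop_eq h.t0 h.t1]
    simp only [IV.x1E]; simp only [IV.nc_real, IV.cst_real, IV.lg_real, IV.mx_real, IV.l2_real,
        Nat.cast_ofNat, Nat.cast_one, Nat.cast_zero]
    linarith
  · have h6 : t ^ 2 * (t ^ 2 / 6) ≤ Ne t s :=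
      (mul_le_mul_of_nonneg_left (sixth_le_n0A hA0) hA0).trans (series_le h)
    have hlog : log (IV.Xs (t ^ 2) s * log 2 / IV.x1E (t ^ 2) s)
        ≤ log (max 1 (IV.Xs (t ^ 2) s * log 2 / IV.x1E (t ^ 2) s)) :=
      log_le_log (div_pos (mul_pos (zero_lt_one.trans hX) (log_pos one_lt_two)) hpos)
        (le_max_right _ _)
    have hΦ : 0 ≤ IV.Phis (t ^ 2) s (kk t s) := by
      simp only [IV.Phis, IV.pPhi]; simp only [IV.nc_real, IV.cst_real, IV.lg_real, IV.mx_real, IV.l2_real,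
          Nat.cast_ofNat, Nat.cast_one, Nat.cast_zero]; exact le_max_left _ _
    have h7 := mul_le_mul_of_nonneg_left hlog
      (show 0 ≤ kk t s * kk t s * t ^ 2 * IV.Phis (t ^ 2) s (kk t s) * (49 / 75) by positivity)
    have h8 := mul_le_mul_of_nonneg_left hc (mul_nonneg k0.le hA0)
    have h9 := mul_le_mul_of_nonneg_left h6 k0.le
    rw [ed]
    linarith

/-- the corner, one side. -/
lemma Hard.corner1 (g : Hard t s mu mv) (hA : t ^ 2 ≤ 1521 / 2500) (hpl : 0 < IV.xlo (t ^ 2))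
    (h9 : s ≤ 24 / 25) (hca : 0 ≤ IV.cornA (t ^ 2) s (kk t s)) (h4 : s ≤ 4 * t ^ 2) :
    Concl t mu mv := by
  obtain ⟨hs, hrA, hbe, hrs, hfs, hTE, -, -, -⟩ := g.signs
  have h := g.box
  have hA0 : 0 ≤ t ^ 2 := sq_nonneg t
  obtain ⟨-, hQl⟩ := Qc_le h g.hX
  refine g.useA (hA.trans (by norm_num)) h9 (hQl _ hpl (xlo_le h.t0 h.t1)) ?_
  simp only [IV.cornA, IV.lnXl, IV.rE, IV.beE] at hca
  simp only [IV.TE, IV.beE]
  revert hca; simp only [IV.nc_real, IV.cst_real, IV.lg_real, IV.mx_real, IV.l2_real,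
      Nat.cast_ofNat, Nat.cast_one, Nat.cast_zero]; intro hca
  set L := 49 / 75 * log (max 1 (IV.Xs (t ^ 2) s * log 2 / IV.xlo (t ^ 2))) with hL
  have hL0 : 0 ≤ L := mul_nonneg (by norm_num) (log_nonneg (le_max_left _ _))
  set T := (5 / 4 - 1 / 2 / log 2) * IV.rs (t ^ 2) s * IV.fs (t ^ 2) s
    * (IV.rAs (t ^ 2) s * IV.rAs (t ^ 2) s) with hT
  have hT0 : 0 ≤ T := by have := hfs.1; rw [hT]; positivity
  have h1 := mul_le_mul_of_nonneg_right h4 (mul_nonneg hT0 hL0)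
  have h2 := mul_nonneg hA0 hca
  simp only [hT] at h1 h2
  linarith

/-- the corner, other side. -/
lemma Hard.corner2 (g : Hard t s mu mv) (hA : t ^ 2 ≤ 1521 / 2500) (hp1 : 0 < IV.x1E (t ^ 2) s)
    (h9 : s ≤ 24 / 25) (hcb : 0 ≤ IV.cornB (t ^ 2) s (kk t s)) (h4 : 4 * t ^ 2 ≤ s) :
    Concl t mu mv := by
  obtain ⟨k0, k1, ed, key, em2, b1, b2, b3⟩ := g.facts
  obtain ⟨eW, hgapΦ, hY, eXe⟩ := g.weights
  obtain ⟨hs, hrA, hbe, hrs, hfs, hTE, hlnX, he, -⟩ := g.signs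
  have h := g.box
  have hA0 : 0 ≤ t ^ 2 := sq_nonneg t
  refine g.useC (hA.trans (by norm_num)) h9 hp1 ?_
  simp only [IV.cornB, IV.cornG, IV.rE, IV.beE] at hcb
  revert hcb; simp only [IV.nc_real, IV.cst_real, IV.lg_real, IV.mx_real, IV.l2_real,
      Nat.cast_ofNat, Nat.cast_one, Nat.cast_zero]; intro hcb
  set b : ℝ := 5 / 4 - 1 / 2 / log 2 with hb
  set q := IV.rAs (t ^ 2) s with hq
  set G := log 2 * (s * q * (t ^ 2 * (1 + b * IV.m2s (t ^ 2) s) + b * q))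
    + 1 / 4 * (1 / 2 + t ^ 2 / (3 * (1 - t ^ 2)))
    + IV.eE s * ((1 - t ^ 2) * (log 2 + IV.qhA (t ^ 2))) with hG
  have hm0 : 0 ≤ IV.m2s (t ^ 2) s := by rw [← em2]; positivity
  have ha := sub_pos.2 h.A1
  have hqh : t ^ 2 / 2 ≤ IV.qhA (t ^ 2) := by
    have := log_le_sub_one_of_pos ha
    simp only [IV.qhA]; simp only [IV.nc_real, IV.cst_real, IV.lg_real, IV.mx_real, IV.l2_real,
        Nat.cast_ofNat, Nat.cast_one, Nat.cast_zero]; linarith
  have hG0 : 0 ≤ G := by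
    have : 0 ≤ log 2 + IV.qhA (t ^ 2) := by
      have := log_pos (one_lt_two (α := ℝ)); linarith
    rw [hG]; positivity
  set x1 := IV.x1E (t ^ 2) s with hx1
  have hXle : IV.Xs (t ^ 2) s ≤ 1 + s * s * q * (t ^ 2 * (1 + b * IV.m2s (t ^ 2) s) + b * q) := by
    rw [eXe, Xe, h.Re_eq.trans (by ring : (1 + t ^ 2 * s ^ 2 * (1 - t ^ 2) / (1 - t ^ 2 * s ^ 2)) = 1 + t ^ 2 * (s * s * ((1 - t ^ 2) / (1 - t ^ 2 * s ^ 2)))), ← rAs_eq h]
    simp only [IV.TE, IV.beE, IV.rs, IV.m2s]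
    simp only [IV.nc_real, IV.cst_real, IV.lg_real, IV.mx_real, IV.l2_real,
        Nat.cast_ofNat, Nat.cast_one, Nat.cast_zero]
    rw [← hq, ← hb]
    set c := s ^ 2 * (1 - t ^ 2) ^ 2 / (4 * (1 - t ^ 2 * s ^ 2) ^ 2)
    have c0 : 0 ≤ c := by positivity
    have r0 : 0 ≤ 1 + t ^ 2 * (s * s * q) := by positivity
    have h1 := mul_le_mul_of_nonneg_left (sub_le_self 1 c0) r0
    have h2 := mul_le_mul_of_nonneg_left hfs.2
      (show 0 ≤ s * (b * s * (1 + t ^ 2 * (s * s * q)) * (q * q)) by positivity)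
    linarith
  have hdiff : IV.Xs (t ^ 2) s * log 2 - x1 ≤ s * G := by
    have hl := mul_le_mul_of_nonneg_right hXle (log_pos one_lt_two).le
    have h5 : t ^ 2 + t ^ 2 * t ^ 2 / (3 * (1 - t ^ 2)) - IV.qhA (t ^ 2)
        ≤ s * (1 / 4 * (1 / 2 + t ^ 2 / (3 * (1 - t ^ 2)))) := by
      have h6 := mul_le_mul_of_nonneg_right h4
        (show 0 ≤ 1 / 2 + t ^ 2 / (3 * (1 - t ^ 2)) by positivity)
      have e : t ^ 2 * t ^ 2 / (3 * (1 - t ^ 2)) = t ^ 2 * (t ^ 2 / (3 * (1 - t ^ 2))) := by ring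
      linarith
    rw [hx1, hG]
    simp only [IV.x1E, IV.xlo]
    simp only [IV.nc_real, IV.cst_real, IV.lg_real, IV.mx_real, IV.l2_real,
        Nat.cast_ofNat, Nat.cast_one, Nat.cast_zero]
    linarith
  have hlog : log (max 1 (IV.Xs (t ^ 2) s * log 2 / x1)) ≤ s * G / x1 := by
    rcases le_total (IV.Xs (t ^ 2) s * log 2 / x1) 1 with h1 | h1
    · rw [max_eq_left h1, log_one]; positivity
    · rw [max_eq_right h1]
      refine (log_le_sub_one_of_pos (by linarith)).trans ?_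
      rw [div_sub_one hp1.ne']
      exact div_le_div_of_nonneg_right hdiff hp1.le
  have hΦ : 0 ≤ IV.Phis (t ^ 2) s (kk t s) := by
    simp only [IV.Phis, IV.pPhi]; simp only [IV.nc_real, IV.cst_real, IV.lg_real, IV.mx_real, IV.l2_real,
        Nat.cast_ofNat, Nat.cast_one, Nat.cast_zero]; exact le_max_left _ _
  calc IV.kFst (t ^ 2) s * IV.Phis (t ^ 2) s (kk t s)
        * (49 / 75 * log (max 1 (IV.Xs (t ^ 2) s * log 2 / x1)))
      ≤ IV.kFst (t ^ 2) s * IV.Phis (t ^ 2) s (kk t s) * (49 / 75 * (s * G / x1)) :=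
        mul_le_mul_of_nonneg_left (mul_le_mul_of_nonneg_left hlog (by norm_num))
          (mul_nonneg k0.le hΦ)
    _ = s / x1 * (IV.kFst (t ^ 2) s * IV.Phis (t ^ 2) s (kk t s) * (49 / 75 * G)) := by ring
    _ ≤ s / x1 * (IV.eE s * x1) :=
        mul_le_mul_of_nonneg_left (by linarith) (div_nonneg hs.le hp1.le)
    _ = s * IV.eE s := by field_simp
    _ ≤ _ := le_add_of_nonneg_right (by positivity)

lemma Hard.corner (g : Hard t s mu mv) (hA : t ^ 2 ≤ 1521 / 2500) (_ : t ^ 2 ≤ 1 / 100)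
    (hpl : 0 < IV.xlo (t ^ 2)) (hp1 : 0 < IV.x1E (t ^ 2) s) (h9 : s ≤ 24 / 25)
    (hca : 0 ≤ IV.cornA (t ^ 2) s (kk t s)) (hcb : 0 ≤ IV.cornB (t ^ 2) s (kk t s)) :
    Concl t mu mv :=
  (le_total s (4 * t ^ 2)).elim (g.corner1 hA hpl h9 hca) (g.corner2 hA hp1 h9 hcb)

/-- small `t`. -/
theorem Hard.small (g : Hard t s mu mv) (ht : t ≤ 39 / 50) : Concl t mu mv := by
  have h := g.box
  have hX := g.hX
  have hA0 : 0 ≤ t ^ 2 := sq_nonneg t
  obtain ⟨-, qh⟩ := Qz_At_bounds h.t0 h.t1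
  obtain ⟨hQc, hQl⟩ := Qc_le h hX
  have hA : t ^ 2 ≤ 1521 / 2500 := le_trans (pow_le_pow_left₀ h.t0.le ht 2) (by norm_num)
  have hA' : t ^ 2 ≤ 576 / 625 := hA.trans (by norm_num)
  rcases IV.case0 hA0 hA h.s0 h.s1 with hc | ⟨h9, hc | ⟨hpos, hc⟩ | ⟨hpos, hc⟩⟩ | hc
      | ⟨hA1, hpl, hp1, h9, hca, hcb⟩
  · exact absurd hX (not_lt.2 hc)
  · simp only [IV.condA] at hc
    revert hc; simp only [IV.nc_real, IV.cst_real, IV.lg_real, IV.mx_real, IV.l2_real,
        Nat.cast_ofNat, Nat.cast_one, Nat.cast_zero]; intro hc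
    exact g.useA hA' h9 (hQc.trans (add_le_add qh le_rfl)) hc
  · simp only [IV.condB, IV.lnXl, IV.rE] at hc
    revert hc; simp only [IV.nc_real, IV.cst_real, IV.lg_real, IV.mx_real, IV.l2_real,
        Nat.cast_ofNat, Nat.cast_one, Nat.cast_zero]; intro hc
    exact g.useA hA' h9 (hQl _ hpos (xlo_le h.t0 h.t1)) hc
  · simp only [IV.condC, IV.rE] at hc
    revert hc; simp only [IV.nc_real, IV.cst_real, IV.lg_real, IV.mx_real, IV.l2_real,
        Nat.cast_ofNat, Nat.cast_one, Nat.cast_zero]; intro hc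
    exact g.useC hA' h9 hpos (by linarith)
  · exact g.direct hc
  · exact g.corner hA hA1 hpl hp1 h9 hca hcb

/-- middle `t`. -/
theorem Hard.middle (g : Hard t s mu mv) (ht : 39 / 50 ≤ t) (ht2 : t ≤ 24 / 25) :
    Concl t mu mv := by
  obtain ⟨hs, hrA, hbe, hrs, hfs, hTE, hlnX, he, eRe⟩ := g.signs
  have h := g.box
  obtain ⟨ql, qh⟩ := Qz_At_bounds h.t0 h.t1
  obtain ⟨hQc, -⟩ := Qc_le h g.hX
  have hA : t ^ 2 ≤ 576 / 625 := le_trans (pow_le_pow_left₀ h.t0.le ht2 2) (by norm_num)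
  have hA1 : 1521 / 2500 ≤ t ^ 2 := le_trans (by norm_num) (pow_le_pow_left₀ (by norm_num) ht 2)
  have hbase := edge_base1 h ht ht2
  have lin : ∀ e, 0 ≤ IV.condL (t ^ 2) s (IV.kFst (t ^ 2) s) e (IV.qlA (t ^ 2)) →
      0 ≤ IV.condL (t ^ 2) s (IV.kFst (t ^ 2) s) e (IV.qhA (t ^ 2)) →
      s * IV.TE (t ^ 2) s * Qz (Zi (xz (At t) / IV.Xs (t ^ 2) s))
        ≤ 65 / 1000 * Qz (At t) * (Re t s - 1)
          + t * (t * s * e) * (1 - IV.rhos (t ^ 2) s (kk t s)) := by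
    intro e e1 e2
    have hTEe : IV.TE (t ^ 2) s = (5 / 4 - 1 / 2 / log 2) * s * IV.rs (t ^ 2) s
        * IV.fs (t ^ 2) s * (IV.rAs (t ^ 2) s * IV.rAs (t ^ 2) s) := by
      simp only [IV.TE, IV.beE]; simp only [IV.nc_real, IV.cst_real, IV.lg_real, IV.mx_real, IV.l2_real,
          Nat.cast_ofNat, Nat.cast_one, Nat.cast_zero]
    simp only [IV.condL, IV.c1c, IV.beE] at e1 e2
    revert e1 e2; simp only [IV.nc_real, IV.cst_real, IV.lg_real, IV.mx_real, IV.l2_real,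
        Nat.cast_ofNat, Nat.cast_one, Nat.cast_zero]; intro e1 e2
    set K := s * IV.rAs (t ^ 2) s * (65 / 1000 * t ^ 2
      - (5 / 4 - 1 / 2 / log 2) * IV.rs (t ^ 2) s * IV.fs (t ^ 2) s * IV.rAs (t ^ 2) s) with hK
    set rest := t ^ 2 * (e * (1 - IV.rhos (t ^ 2) s (IV.kFst (t ^ 2) s)))
      - IV.TE (t ^ 2) s * IV.lnX (t ^ 2) s with hrest
    have hlin : 0 ≤ K * Qz (At t) + rest := by
      rcases le_total 0 K with hK0 | hK0
      · linarith [mul_le_mul_of_nonneg_left ql hK0]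
      · linarith [mul_le_mul_of_nonpos_left qh hK0]
    have h1 := mul_le_mul_of_nonneg_left hQc (mul_nonneg hs.le hTE)
    have h2 := mul_nonneg hs.le hlin
    rw [eRe]
    simp only [hK, hrest, hTEe] at h2 h1 ⊢
    linarith
  rcases IV.case1 hA1 hA h.s0 h.s1 with ⟨h9, e1, e2⟩ | hc | ⟨e1, e2⟩
  · exact g.moved h9 hA hbase (lin _ e1 e2)
  · exact g.direct hc
  · exact g.stay hbase (by simpa using lin 0 e1 e2)

/-- large `t`. -/
theorem Hard.large (g : Hard t s mu mv) (ht2 : 24 / 25 ≤ t) : Concl t mu mv := by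
  obtain ⟨k0, k1, -⟩ := g.facts
  obtain ⟨hs, hrA, hbe, hrs, hfs, hTE, hlnX, he, eRe⟩ := g.signs
  have h := g.box
  have hp := At_pos h.t0 h.t1
  have hQp := Qz_nonneg hp.le
  obtain ⟨hQc, -⟩ := Qc_le h g.hX
  have hA1 : 576 / 625 ≤ t ^ 2 := le_trans (by norm_num) (pow_le_pow_left₀ (by norm_num) ht2 2)
  refine g.stay (edge_base2 h ht2) ?_
  have hc := IV.caseT hA1 h.A1.le k0.le k1
  have erk : IV.rak (t ^ 2) (kk t s) = IV.rAs (t ^ 2) s := by
    have := h.D0.ne'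
    simp only [IV.rak]; simp only [IV.nc_real, IV.cst_real, IV.lg_real, IV.mx_real, IV.l2_real,
        Nat.cast_ofNat, Nat.cast_one, Nat.cast_zero]
    rw [rAs_eq h, kk_eq]; field_simp; ring
  have emk : IV.mak (t ^ 2) (kk t s) = IV.m2s (t ^ 2) s := by
    simp only [IV.mak, IV.m2s, erk]; simp only [IV.nc_real, IV.cst_real, IV.lg_real, IV.mx_real, IV.l2_real,
        Nat.cast_ofNat, Nat.cast_one, Nat.cast_zero]; rw [one_sub_kk h]; ring
  have err : IV.rrk (t ^ 2) (kk t s) = IV.rs (t ^ 2) s := by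
    simp only [IV.rrk, IV.rs]; simp only [IV.nc_real, IV.cst_real, IV.lg_real, IV.mx_real, IV.l2_real,
        Nat.cast_ofNat, Nat.cast_one, Nat.cast_zero]; rw [one_sub_kk h]
  have efk : IV.fak (t ^ 2) (kk t s) = IV.fs (t ^ 2) s := by simp only [IV.fak, IV.fs, emk]
  have eXk : IV.Xak (t ^ 2) (kk t s) = IV.Xs (t ^ 2) s := by
    simp only [IV.Xak, IV.Xs, emk, err, efk]
  have hq : 119 / 100 ≤ Qz (At t) := by
    have h1 := IV.qPt_nonneg
    simp only [IV.qPt, IV.qAt, IV.pAt, IV.qhA] at h1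
    have h2 : Qz (At (24 / 25)) ≤ Qz (At t) := Qz_monotone
      (show 0 ≤ At (24 / 25 : ℝ) from (At_pos (by norm_num) (by norm_num)).le) hp.le
      (At_mono (by norm_num) ht2 h.t1)
    have h3 := Qz_At (show (0:ℝ) < 24 / 25 by norm_num) (by norm_num)
    have h4 := xz_At (show (-1:ℝ) < 24 / 25 by norm_num) (by norm_num)
    rw [one_div, log_inv] at h4
    revert h1; simp only [IV.nc_real, IV.cst_real, IV.lg_real, IV.mx_real, IV.l2_real,
        Nat.cast_ofNat, Nat.cast_one, Nat.cast_zero]; intro h1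
    have e : (log (1 + 24 / 25) - log (1 - 24 / 25)) * (1 / 2) = At (24 / 25) := by rw [At]; ring
    rw [e, show (24:ℝ) / 25 * (24 / 25) = (24 / 25) ^ 2 by ring] at h1
    rw [h3, h4] at h2
    linarith
  simp only [IV.condT, IV.c2c, IV.rE, IV.beE, erk, err, efk, eXk] at hc
  revert hc; simp only [IV.nc_real, IV.cst_real, IV.lg_real, IV.mx_real, IV.l2_real,
      Nat.cast_ofNat, Nat.cast_one, Nat.cast_zero]; intro hc
  have hTEe : IV.TE (t ^ 2) s = (5 / 4 - 1 / 2 / log 2) * s * IV.rs (t ^ 2) s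
      * IV.fs (t ^ 2) s * (IV.rAs (t ^ 2) s * IV.rAs (t ^ 2) s) := by
    simp only [IV.TE, IV.beE]; simp only [IV.nc_real, IV.cst_real, IV.lg_real, IV.mx_real, IV.l2_real,
        Nat.cast_ofNat, Nat.cast_one, Nat.cast_zero]
  rw [← lnX_eq] at hc
  have hT0 : 0 ≤ (5 / 4 - 1 / 2 / log 2) * IV.rs (t ^ 2) s * IV.fs (t ^ 2) s
      * IV.rAs (t ^ 2) s := by have := hfs.1; positivity
  have h5 : IV.lnX (t ^ 2) s ≤ Qz (At t) * (IV.lnX (t ^ 2) s / (119 / 100)) := by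
    rw [← mul_div_assoc, le_div_iff₀ (by norm_num)]
    linarith [mul_le_mul_of_nonneg_right hq hlnX]
  have h1 := mul_le_mul_of_nonneg_left hQc (mul_nonneg hs.le hTE)
  have h2 := mul_nonneg (mul_nonneg (mul_nonneg (mul_nonneg hs.le hs.le) hrA) hQp) hc
  have h6 := mul_le_mul_of_nonneg_left h5 (mul_nonneg (mul_nonneg (mul_nonneg hs.le hs.le) hrA) hT0)
  rw [eRe]
  rw [hTEe] at h1 ⊢
  linarith

/-- the joining case in coordinates. -/
theorem join_coord (g : Data t s mu mv) : Concl t mu mv := by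
  obtain ⟨k0, k1, ed, key, em2, b1, b2, b3⟩ := g.facts
  obtain ⟨eW, hgapΦ, hY, eXe⟩ := g.weights
  obtain ⟨hst, hstart⟩ := g.start
  have h := g.box
  have hp := At_pos h.t0 h.t1
  rcases le_or_gt (IV.Xs (t ^ 2) s) 1 with hX | hX
  · exact g.keep (hstart hX)
  rcases le_or_gt (WC ((mu + mv) / 2)) ((WC mu + WC mv) / 2) with hWV | hWV
  · refine g.keep ?_
    have hη : 0 < (mu - mv) / 2 * gz (At t) := by
      have : 0 < gz (At t) := div_pos (xz_pos_of_nonneg hp.le) (tanh_pos' hp)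
      have : 0 < (mu - mv) / 2 := by linarith
      positivity
    have := Pi2_mono (WC_pos (show -1 < (mu + mv) / 2 by linarith) (by linarith)) hη hWV
    have := mul_nonneg k0.le (Ne_nonneg h)
    linarith
  have G : Hard t s mu mv := ⟨g, hX, hWV⟩
  rcases le_total t (39 / 50) with ht | ht
  · exact G.small ht
  rcases le_total t (24 / 25) with ht2 | ht2
  · exact G.middle ht ht2
  · exact G.large ht2

end Join

/-- the joining case of the lowered weight. -/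
theorem joinCase_WC : JoinCase WC := by
  intro mu mv a1 hlt b2 hs
  obtain ⟨t, s, hb, hAt, hmu, hmv⟩ := coord_exists mu mv a1 hlt b2 hs
  rw [← hAt]
  exact Join.join_coord ⟨hb, hmu, hmv⟩

/-- the two point inequality of the lowered weight. -/
theorem tpl_WC : TPL WC :=
  tpl_WC_of_cases (avgCase fun _ a b => ⟨WC_pos a b, WC_mul_log_two_le a b⟩) joinCase_WC

end Vale.Agent.P322.General
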