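import Vale.Agent.P322.General.Final
import Vale.Agent.P322.General.Hess
import Vale.Agent.P322.Reduce

/-!
A linear minorant of the dissipation of a pair, tight at a prescribed pair.
-/

noncomputable section
namespace Vale.Agent.P322.General
open Real Set

lemma ct_sq_sub_one {p : ℝ} (hp : 0 < p) : ct p ^ 2 - 1 = 1 / sinh p ^ 2 := by
  have := (sinh_pos_iff.2 hp).ne'
  rw [ct]
  field_simp
  linarith [cosh_sq_sub_sinh_sq p]

lemma InD_ct {p : ℝ} (hp : 0 < p) : InD p (ct p) :=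
  ⟨hp, by rw [Ee_ct hp]; exact one_pos, (Ee_ct hp).le⟩

lemma log_Ye_ct {p : ℝ} (hp : 0 < p) : log (Ye p (ct p)) = 2 * Lc p := by
  have := (sinh_pos_iff.2 hp).ne'
  rw [Ye, ct_sq_sub_one hp, sinh_two_mul,
    show (2 * sinh p * cosh p) ^ 2 * (1 / sinh p ^ 2) = (2 * cosh p) ^ 2 by field_simp,
    log_pow, Lc]
  norm_num

lemma Gf_ct {p : ℝ} (hp : 0 < p) : Gf p (ct p) = gz p := by
  have hs := (sinh_pos_iff.2 hp).ne'
  have hc := cosh_ne p
  rw [Gf, log_Ye_ct hp, Ee_ct hp, ct_sq_sub_one hp, log_one, gz, xz, sinh_two_mul,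
    tanh_eq_sinh_div_cosh]
  field_simp
  ring

lemma Gp_ct {p : ℝ} (hp : 0 < p) : Gp p (ct p) = -(1 / sg p) := by
  have hs := (sinh_pos_iff.2 hp).ne'
  have hL := (Lc_pos p).ne'
  rw [Gp, log_Ye_ct hp, Ee_ct hp, ct_sq_sub_one hp, sg]
  field_simp

lemma GR_ct {p : ℝ} (hp : 0 < p) : GR p (ct p) = 0 := by
  have hs := (sinh_pos_iff.2 hp).ne'
  have h : sinh (2 * p) * (ct p ^ 2 + 1) - 2 * ct p * cosh (2 * p) = 0 := by
    rw [ct, sinh_two_mul, cosh_two_mul]
    field_simp
    ring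
  rw [GR, h, Ee_ct hp, log_one]
  simp

section segment
variable {p0 R0 a b x y : ℝ}

/-- the derivative along a segment. -/
def dseg (p0 R0 a b l : ℝ) : ℝ :=
  Gp (p0 + l * a) (R0 + l * b) * a + GR (p0 + l * a) (R0 + l * b) * b

lemma dseg_monotoneOn (h : ∀ l ∈ Icc x y, InD (p0 + l * a) (R0 + l * b)) :
    MonotoneOn (dseg p0 R0 a b) (Icc x y) := by
  refine monotoneOn_of_deriv_nonneg (convex_Icc x y)
    (fun l hl => (hasDerivAt_seg2 (h l hl).1 (h l hl).2.1).continuousAt.continuousWithinAt) ?_ ?_ <;>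
    intro l hl <;> rw [interior_Icc] at hl <;> obtain ⟨hp, hE, hE1⟩ := h l (Ioo_subset_Icc_self hl)
  · exact (hasDerivAt_seg2 hp hE).differentiableAt.differentiableWithinAt
  · rw [show dseg p0 R0 a b = fun l => Gp (p0 + l * a) (R0 + l * b) * a
      + GR (p0 + l * a) (R0 + l * b) * b from rfl, (hasDerivAt_seg2 hp hE).deriv]
    exact div_nonneg (hess hp hE hE1 a b) (sq_nonneg _)

lemma seg_tangent (h : ∀ l ∈ Icc x y, InD (p0 + l * a) (R0 + l * b)) (hxy : x ≤ y) :
    Gf (p0 + x * a) (R0 + x * b) + (y - x) * dseg p0 R0 a b x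
        ≤ Gf (p0 + y * a) (R0 + y * b) ∧
      dseg p0 R0 a b x ≤ dseg p0 R0 a b y := by
  refine ⟨?_, dseg_monotoneOn h ⟨le_rfl, hxy⟩ ⟨hxy, le_rfl⟩ hxy⟩
  set c := dseg p0 R0 a b x with hc
  have hd : ∀ l ∈ Icc x y, HasDerivAt (fun l => Gf (p0 + l * a) (R0 + l * b) - l * c)
      (dseg p0 R0 a b l - c) l := fun l hl =>
    ((hasDerivAt_seg (h l hl).1 (h l hl).2.1).sub ((hasDerivAt_id l).mul_const c)).congr_deriv
      (by simp [dseg])
  have hm : MonotoneOn (fun l => Gf (p0 + l * a) (R0 + l * b) - l * c) (Icc x y) := by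
    refine monotoneOn_of_deriv_nonneg (convex_Icc x y)
      (fun l hl => (hd l hl).continuousAt.continuousWithinAt) ?_ ?_ <;>
      intro l hl <;> rw [interior_Icc] at hl <;> have hl' := Ioo_subset_Icc_self hl
    · exact (hd l hl').differentiableAt.differentiableWithinAt
    · rw [(hd l hl').deriv, sub_nonneg, hc]
      exact dseg_monotoneOn h ⟨le_rfl, hxy⟩ hl' hl'.1
  have := hm ⟨le_rfl, hxy⟩ ⟨hxy, le_rfl⟩ hxy
  linarith

end segment

lemma sg_pos {p : ℝ} (hp : 0 < p) : 0 < sg p :=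
  div_pos (pow_pos (sinh_pos_iff.2 hp) 2) (Lc_pos p)

/-- the profile lies above its tangent planes. -/
lemma Gf_tangent {p0 R0 p1 R1 : ℝ} (h0 : InD p0 R0) (h1 : InD p1 R1) :
    Gf p0 R0 + Gp p0 R0 * (p1 - p0) + GR p0 R0 * (R1 - R0) ≤ Gf p1 R1 := by
  set a := p1 - p0 with ha
  set b := R1 - R0 with hb
  have e1 : p0 + 1 * a = p1 := by rw [ha]; ring
  have e2 : R0 + 1 * b = R1 := by rw [hb]; ring
  have ed : dseg p0 R0 a b 0 = Gp p0 R0 * a + GR p0 R0 * b := by simp [dseg]
  rcases segment_cut h0 h1 with h | ⟨l1, l2, z1, h12, z2, hA, hB, c1, c2⟩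
  · have := (seg_tangent (a := a) (b := b) h zero_le_one).1
    rw [e1, e2, zero_mul, zero_mul, add_zero, add_zero, ed] at this
    linarith
  obtain ⟨f1, g1⟩ := seg_tangent (a := a) (b := b) hA z1
  obtain ⟨f3, -⟩ := seg_tangent (a := a) (b := b) hB z2
  rw [zero_mul, zero_mul, add_zero, add_zero, ed] at f1
  rw [ed] at g1
  rw [e1, e2] at f3
  set P1 := p0 + l1 * a with hP1
  set P2 := p0 + l2 * a with hP2
  have p1pos : 0 < P1 := (hA l1 ⟨z1, le_rfl⟩).1
  have p2pos : 0 < P2 := (hB l2 ⟨le_rfl, z2⟩).1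
  have d1 : dseg p0 R0 a b l1 = -(1 / sg P1) * a := by
    rw [dseg, c1, Gp_ct p1pos, GR_ct p1pos]; ring
  have d2 : dseg p0 R0 a b l2 = -(1 / sg P2) * a := by
    rw [dseg, c2, Gp_ct p2pos, GR_ct p2pos]; ring
  rw [c1, Gf_ct p1pos] at f1
  rw [c2, Gf_ct p2pos, d2] at f3
  rw [d1] at g1
  have hs1 := sg_pos p1pos
  have hs2 := sg_pos p2pos
  have hg := gz_tangent p1pos p2pos
  have f2 : gz P1 - (l2 - l1) * (1 / sg P1 * a) ≤ gz P2 := by
    have e : P2 - P1 = (l2 - l1) * a := by rw [hP1, hP2]; ring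
    have h' : gz P1 - gz P2 ≤ (P2 - P1) / sg P1 := by rw [le_div_iff₀ hs1]; linarith
    rw [e] at h'
    have e' : (l2 - l1) * (1 / sg P1 * a) = (l2 - l1) * a / sg P1 := by ring
    linarith
  have g2 : -(1 / sg P1) * a ≤ -(1 / sg P2) * a := by
    rcases le_total 0 a with h | h
    · have : sg P1 ≤ sg P2 := sg_monotone p1pos.le p2pos.le (by
        rw [hP1, hP2]; linarith [mul_le_mul_of_nonneg_right h12 h])
      exact mul_le_mul_of_nonneg_right (neg_le_neg (one_div_le_one_div_of_le hs1 this)) h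
    · have : sg P2 ≤ sg P1 := sg_monotone p2pos.le p1pos.le (by
        rw [hP1, hP2]; linarith [mul_le_mul_of_nonpos_right h12 h])
      exact mul_le_mul_of_nonpos_right (neg_le_neg (one_div_le_one_div_of_le hs2 this)) h
  have := mul_le_mul_of_nonneg_left g1 (sub_nonneg.2 h12)
  have := mul_le_mul_of_nonneg_left (g1.trans g2) (sub_nonneg.2 z2)
  linarith

lemma GR_nonpos {p R : ℝ} (h : InD p R) : GR p R ≤ 0 := by
  obtain ⟨hp, hE, hE1⟩ := h
  have hR : R ≤ ct p := (Ee_le_one_iff hp).1 hE1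
  have hin : ∀ l ∈ Icc R (ct p), InD (p + l * 0) (0 + l * 1) := fun l hl => by
    rw [mul_zero, add_zero, zero_add, mul_one]
    exact ⟨hp, (Ee_pos_iff hp).2 (((Ee_pos_iff hp).1 hE).trans_le hl.1),
      (Ee_le_one_iff hp).2 hl.2⟩
  have := (seg_tangent hin hR).2
  simpa [dseg, GR_ct hp] using this

lemma At_neg (t : ℝ) : At (-t) = -At t := by simp only [At]; ring_nf

lemma hh_neg (t : ℝ) : hh (-t) = hh t := by rw [hh_eq, hh_eq, phi_neg]

lemma cosh_mul_cosh_eq (c p : ℝ) :
    cosh (c + p) * cosh (c - p) = (cosh (2 * p) + cosh (2 * c)) / 2 := by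
  rw [cosh_add, cosh_sub, cosh_two_mul, cosh_two_mul]
  linear_combination (cosh p ^ 2 / 2 + sinh p ^ 2 / 2) * cosh_sq_sub_sinh_sq c
    + (cosh c ^ 2 / 2 + sinh c ^ 2 / 2) * cosh_sq_sub_sinh_sq p

lemma pair_prod (c p : ℝ) :
    (1 + tanh (c + p)) * (1 + tanh (c - p))
      = 2 / (exp (-(2 * c)) * (cosh (2 * p) + cosh (2 * c))) := by
  have h1 : exp (c + p) * exp (c - p) * exp (-(2 * c)) = 1 := by
    rw [← exp_add, ← exp_add]; ring_nf; simp
  have : 0 < cosh (2 * p) + cosh (2 * c) := by positivity [cosh_pos (2 * p), cosh_pos (2 * c)]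
  rw [one_add_tanh, one_add_tanh, div_mul_div_comm, cosh_mul_cosh_eq]
  field_simp
  rw [mul_comm c 2]
  linear_combination h1

/-- a pair in the coordinates of the profile. -/
lemma pair_coords {u v : ℝ} (hv : -1 < v) (h : v < u) (hu : u < 1) (hw : 0 ≤ u + v) :
    InD ((At u - At v) / 2) ((2 - u - v) / (u - v)) ∧
    (hh u + hh v) / 2 = (u - v) / 2 * Gf ((At u - At v) / 2) ((2 - u - v) / (u - v)) ∧
    Ye ((At u - At v) / 2) ((2 - u - v) / (u - v)) * ((1 + u) * (1 + v)) = 4 ∧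
    Ee ((At u - At v) / 2) ((2 - u - v) / (u - v)) * sinh (2 * ((At u - At v) / 2))
      = (u - v) / 2 * Ye ((At u - At v) / 2) ((2 - u - v) / (u - v)) / 2 := by
  have hu' : -1 < u := hv.trans h
  have hv' : v < 1 := h.trans hu
  obtain ⟨hp, -⟩ := half_diff_le_tanh hv h hu
  set p := (At u - At v) / 2 with hpd
  set c := (At u + At v) / 2 with hcd
  have hc : 0 ≤ c := by
    have := At_mono (a := -v) (b := u) (by linarith) (by linarith) hu
    rw [At_neg] at this
    rw [hcd]; linarith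
  have hu2 : tanh (c + p) = u := by
    rw [show c + p = At u by rw [hcd, hpd]; ring, tanh_At hu' hu]
  have hv2 : tanh (c - p) = v := by
    rw [show c - p = At v by rw [hcd, hpd]; ring, tanh_At hv hv']
  set S := sinh (2 * p) with hS
  set C := cosh (2 * p) with hC
  set K := cosh (2 * c) with hK
  set e := exp (-(2 * c)) with he
  have hS0 : 0 < S := sinh_two_pos hp
  have hC0 : 0 < C := cosh_pos _
  have hK0 : 0 < C + K := by linarith [cosh_pos (2 * c)]
  have e0 : 0 < e := exp_pos _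
  have e1 : e ≤ 1 := exp_le_one_iff.2 (by linarith)
  have hd : u - v = 2 * S / (C + K) := by rw [← hu2, ← hv2]; exact hh_two_pair p c
  have hs : u + v = 2 * sinh (2 * c) / (C + K) := by
    have := hh_two_pair c p
    rw [add_comm p c, show p - c = -(c - p) by ring, tanh_neg, hu2, hv2] at this
    rw [add_comm C]; linarith
  have heK : e = K - sinh (2 * c) := (cosh_sub_sinh _).symm
  have hR : (2 - u - v) / (u - v) = (C + e) / S := by
    rw [show 2 - u - v = 2 - (u + v) by ring, hd, hs, heK]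
    field_simp
    ring
  set R := (2 - u - v) / (u - v) with hRd
  have hEe : Ee p R = e := by
    rw [Ee, ← hS, ← hC, hR]; field_simp; ring
  have hY : Ye p R = e * (2 * (C + K)) := by
    have : e * exp (2 * c) = 1 := by rw [he, ← exp_add]; simp
    rw [Ye_eq, hEe, ← hC, hK, cosh_eq (2 * c), ← he]
    linear_combination -this
  have hY4 : Ye p R * ((1 + u) * (1 + v)) = 4 := by
    have hP : (1 + u) * (1 + v) = 2 / (e * (C + K)) := by
      rw [← hu2, ← hv2, hC, hK, he]; exact pair_prod c p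
    rw [hY, hP]; field_simp; ring
  have hES : Ee p R * S = (u - v) / 2 * Ye p R / 2 := by
    rw [hEe, hY, hd]; field_simp
  refine ⟨⟨hp, by rw [hEe]; exact e0, by rw [hEe]; exact e1⟩, ?_, hY4, hES⟩
  have hlY : log (2 * (C + K)) = log (Ye p R) + 2 * c := by
    rw [hY, log_mul e0.ne' (by positivity), he, log_exp]; ring
  have l : Lc (c + p) + Lc (c - p) = log (2 * (C + K)) := by
    rw [Lc, Lc, ← log_mul (by positivity [cosh_pos (c+p)]) (by positivity [cosh_pos (c-p)])]
    congr 1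
    rw [show 2 * cosh (c + p) * (2 * cosh (c - p)) = 4 * (cosh (c + p) * cosh (c - p)) by ring,
      cosh_mul_cosh_eq, hC, hK]
    ring
  have avg : (hh u + hh v) / 2
      = log (Ye p R) / 2 + c * (1 - (u + v) / 2) - p * ((u - v) / 2) := by
    rw [← hu2, ← hv2, hh_tanh, hh_tanh]
    simp only [xz]
    linarith
  have hR2 : R ^ 2 - 1 = Ye p R / S ^ 2 := by rw [Ye, ← hS]; field_simp
  have hlE : log (Ee p R) = -(2 * c) := by rw [hEe, he, log_exp]
  rw [avg, Gf, ← hS, hR2, hlE, hEe]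
  rw [hRd]
  have hd0 : u - v ≠ 0 := by linarith
  generalize log (Ye p R) = w
  rw [show Ye p ((2 - u - v) / (u - v)) = e * (2 * (C + K)) from hRd ▸ hY]
  rw [hd, show 1 - (u + v) / 2 = (2 - u - v) / 2 by ring,
    show 2 - u - v = 2 - (u + v) by ring]
  field_simp
  ring

/-- slope of the minorant tangent at a pair. -/
def lam (u v : ℝ) : ℝ :=
  2 * ((u - v) / 2) ^ 2 / ((1 + u) * (1 + v) * (2 * log 2 - log ((1 + u) * (1 + v))))

/-- the minorant, tight at a pair with nonnegative sum. -/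
lemma dd_plane {u0 v0 : ℝ} (hv0 : -1 < v0) (h0 : v0 < u0) (hu0 : u0 < 1) (hw0 : 0 ≤ u0 + v0) :
    ∃ σ A B : ℝ, σ = lam u0 v0 ∧
      dd u0 v0 + σ * ((hh u0 + hh v0) / 2) = A * ((u0 - v0) / 2) + B * (1 - (u0 + v0) / 2) ∧
      ∀ u v, -1 < u → u < 1 → -1 < v → v < 1 →
        A * ((u - v) / 2) + B * (1 - (u + v) / 2) ≤ dd u v + σ * ((hh u + hh v) / 2) := by
  obtain ⟨hD0, hG0, hY0, hE0⟩ := pair_coords hv0 h0 hu0 hw0
  set p0 := (At u0 - At v0) / 2 with hp0
  set R0 := (2 - u0 - v0) / (u0 - v0) with hR0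
  set σ := -(1 / Gp p0 R0) with hσ
  have hGp := Gp_neg hD0.1 hD0.2.1
  have σ0 : 0 < σ := by rw [hσ, neg_pos]; exact div_neg_of_pos_of_neg one_pos hGp
  have σG : σ * Gp p0 R0 = -1 := by rw [hσ]; field_simp [hGp.ne]
  set B := σ * GR p0 R0 with hB
  set A := p0 + σ * Gf p0 R0 - B * R0 with hA
  have B0 : B ≤ 0 := mul_nonpos_of_nonneg_of_nonpos σ0.le (GR_nonpos hD0)
  have hh0 : ∀ t, -1 < t → t < 1 → 0 ≤ hh t := fun t a b => (hh_pos a b).le
  have hpos : 0 ≤ Gf p0 R0 := by
    have := hh0 u0 (hv0.trans h0) hu0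
    have := hh0 v0 hv0 (h0.trans hu0)
    exact nonneg_of_mul_nonneg_right
      (show 0 ≤ (u0 - v0) / 2 * Gf p0 R0 by rw [← hG0]; positivity) (by linarith)
  have A0 : 0 ≤ A := by
    have := mul_nonneg σ0.le hpos
    have := mul_nonpos_of_nonpos_of_nonneg B0 (zero_le_one.trans (one_lt_R hD0.1 hD0.2.1).le)
    linarith [hD0.1]
  refine ⟨σ, A, B, ?_, ?_, ?_⟩
  · set P := (1 + u0) * (1 + v0) with hP
    have hP0 : 0 < P := mul_pos (by linarith) (by linarith)
    have hY1 := Ye_pos hD0.1 hD0.2.1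
    have hlY : 2 * log 2 - log P = log (Ye p0 R0) := by
      have : log (Ye p0 R0) + log P = log 4 := by
        rw [← log_mul (by linarith) hP0.ne', hY0]
      rw [show (4:ℝ) = 2 ^ 2 by norm_num, log_pow] at this
      push_cast at this
      linarith
    have hS := sinh_two_pos hD0.1
    have hR2 : R0 ^ 2 - 1 = Ye p0 R0 / sinh (2 * p0) ^ 2 := by rw [Ye]; field_simp
    have hl := log_Ye_pos hD0.1 hD0.2.1
    rw [hσ, lam, ← hP, hlY, Gp, hR2]
    generalize log (Ye p0 R0) = w at hl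
    generalize Ye p0 R0 = Y at hY0 hE0 hY1
    generalize Ee p0 R0 = e at hE0
    generalize sinh (2 * p0) = S at hE0 hS
    have he : e = (u0 - v0) / 2 * Y / 2 / S := by rw [eq_div_iff hS.ne']; exact hE0
    have hY' : Y = 4 / P := by rw [eq_div_iff hP0.ne']; exact hY0
    rw [he, hY']
    field_simp
    ring
  · rw [hG0, show dd u0 v0 = (u0 - v0) / 2 * p0 by simp only [dd, hp0]; ring,
      show 1 - (u0 + v0) / 2 = (u0 - v0) / 2 * R0 by
        rw [hR0]; field_simp [show u0 - v0 ≠ 0 by linarith]; ring]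
    rw [hA]; ring
  have core : ∀ u v, -1 < v → v < u → u < 1 → 0 ≤ u + v →
      (u - v) / 2 * (A + B * ((2 - u - v) / (u - v))) ≤ dd u v + σ * ((hh u + hh v) / 2) := by
    intro u v hv h hu hw
    obtain ⟨hD, hG, -, -⟩ := pair_coords hv h hu hw
    have ht := mul_le_mul_of_nonneg_left (Gf_tangent hD0 hD) σ0.le
    rw [hG, show dd u v = (u - v) / 2 * ((At u - At v) / 2) by simp only [dd]; ring]
    calc (u - v) / 2 * (A + B * ((2 - u - v) / (u - v)))
        ≤ (u - v) / 2 * ((At u - At v) / 2 + σ * Gf ((At u - At v) / 2) ((2 - u - v) / (u - v))) := by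
          refine mul_le_mul_of_nonneg_left ?_ (by linarith)
          rw [hA, hB]
          linear_combination ht - ((At u - At v) / 2 - p0) * σG
      _ = _ := by ring
  intro u v hu hu' hv hv'
  rcases lt_trichotomy v u with h | h | h
  · have e : ∀ R, (u - v) / 2 * (A + B * R) = A * ((u - v) / 2) + B * ((u - v) / 2 * R) :=
      fun R => by ring
    have hne : u - v ≠ 0 := by linarith
    rcases le_total 0 (u + v) with hw | hw
    · have := core u v hv h hu' hw
      rw [e, show (u - v) / 2 * ((2 - u - v) / (u - v)) = 1 - (u + v) / 2 by field_simp; ring] at this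
      exact this
    · have := core (-v) (-u) (by linarith) (by linarith) (by linarith) (by linarith)
      rw [hh_neg, hh_neg, show dd (-v) (-u) = dd u v by simp only [dd, At_neg]; ring,
        show (-v - -u) = u - v by ring, show 2 - -v - -u = 2 + (u + v) by ring, e,
        show (u - v) / 2 * ((2 + (u + v)) / (u - v)) = 1 + (u + v) / 2 by field_simp] at this
      have := mul_le_mul_of_nonpos_left (show 1 + (u + v) / 2 ≤ 1 - (u + v) / 2 by linarith) B0
      linarith
  · subst h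
    have := mul_nonneg σ0.le (hh0 v hv hv')
    have := mul_nonpos_of_nonpos_of_nonneg B0 (show 0 ≤ 1 - v by linarith)
    rw [show dd v v = 0 by simp [dd]]
    linarith
  · have hne : v - u ≠ 0 := by linarith
    have hd : 0 ≤ (v - u) / 2 := by linarith
    have hc : A * ((v - u) / 2) + B * (1 - (u + v) / 2) ≤ dd u v + σ * ((hh u + hh v) / 2) := by
      rw [dd_comm]
      rcases le_total 0 (v + u) with hw | hw
      · have := core v u hu h hv' hw
        rw [show (v - u) / 2 * (A + B * ((2 - v - u) / (v - u)))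
          = A * ((v - u) / 2) + B * (1 - (u + v) / 2) by field_simp; ring] at this
        linarith
      · have := core (-u) (-v) (by linarith) (by linarith) (by linarith) (by linarith)
        rw [hh_neg, hh_neg, show dd (-u) (-v) = dd v u by simp only [dd, At_neg]; ring,
          show (-u - -v) = v - u by ring,
          show (v - u) / 2 * (A + B * ((2 - -u - -v) / (v - u)))
            = A * ((v - u) / 2) + B * (1 + (u + v) / 2) by field_simp; ring] at this
        have := mul_le_mul_of_nonpos_left (show 1 + (u + v) / 2 ≤ 1 - (u + v) / 2 by linarith) B0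
        linarith
    have := mul_nonneg A0 hd
    linarith

/-- the dissipation of a pair of functions against a dilated pair. -/
lemma Ex_dd_ge_path {n : ℕ} (U V : Cube n → ℝ) (hU : ∀ x, -1 < U x ∧ U x < 1)
    (hV : ∀ x, -1 < V x ∧ V x < 1) {a u0 v0 : ℝ} (hv0 : -1 < v0) (h0 : v0 < u0) (hu0 : u0 < 1)
    (hw0 : 0 ≤ u0 + v0) (hmu : 1 - Ex U = a * (1 - u0)) (hmv : 1 - Ex V = a * (1 - v0))
    (hη : (Ex (fun x => hh (U x)) + Ex (fun x => hh (V x))) / 2 = a * ((hh u0 + hh v0) / 2)) :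
    a * dd u0 v0 ≤ Ex (fun x => dd (U x) (V x)) := by
  obtain ⟨σ, A, B, -, heq, hmin⟩ := dd_plane hv0 h0 hu0 hw0
  have h := Ex_le (n := n) (fun x => hmin (U x) (V x) (hU x).1 (hU x).2 (hV x).1 (hV x).2)
  have e1 : (fun x => A * ((U x - V x) / 2) + B * (1 - (U x + V x) / 2))
      = fun x => (A / 2 * (U x - V x) + (-(B / 2)) * (U x + V x)) + B := by funext x; ring
  have e2 : (fun x => dd (U x) (V x) + σ * ((hh (U x) + hh (V x)) / 2))
      = fun x => dd (U x) (V x) + σ / 2 * (hh (U x) + hh (V x)) := by funext x; ring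
  rw [e1, e2, Ex_add, Ex_add, Ex_mul_left, Ex_mul_left, Ex_sub, Ex_add, Ex_const, Ex_add,
    Ex_mul_left, Ex_add] at h
  linear_combination h + a * heq + σ * hη + (A / 2 - B / 2) * hmu + (-(A / 2) - B / 2) * hmv

end Vale.Agent.P322.General
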