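import Vale.Agent.P322.Cell

/-!
Certificates for the edge derivative inequality with a slack.
-/

namespace Vale.Agent.P322.Cert
open Real

/-- the edge derivative inequality with slack `c * Qz`. -/
def GoalC (c t s : ℝ) : Prop :=
  max 0 (1 - kapR (t ^ 2) (s ^ 2) / 4) *
      (Qz (At t) + log 2 * log (1 + t ^ 2 * s ^ 2 * (1 - t ^ 2) / (1 - t ^ 2 * s ^ 2))) + c * Qz (At t)
    ≤ TTt (t ^ 2) s + max 0 (gyR (t ^ 2) (s ^ 2)) / 2 *
      max 0 (log ((1 + t ^ 2 * s ^ 2) / (1 - t ^ 2 * s ^ 2) * phiR (t ^ 2) (s ^ 2) * log 2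
        / (xz (At t) / (1 - t ^ 2))))

def cellOkC (c t0 t1 s0 s1 : ℕ) : Bool :=
  let al := mD t0 t0
  let ah := mU t1 t1
  let bl := mD s0 s0
  let bh := mU s1 s1
  let a1l := mD t1 t1
  let b1l := mD s1 s1
  let d00 := PP - mD al bl
  let d11 := PP - mU ah bh
  Nat.ble 1 al && Nat.ble (ah + 1) PP && Nat.ble s1 PP && Nat.ble 1 d11 && Nat.ble 1 (pLo t1)
    && Nat.ble (upHi al ah bl bh d00 d11 t1 + mU c (qHi t1))
        (tLo al ah b1l bh d11 s1 + dnLo al ah bl bh a1l b1l d00 d11 t1)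

def CT.checkC : CT → ℕ → ℕ → ℕ → ℕ → ℕ → Bool
  | .leaf, c, t0, t1, s0, s1 => cellOkC c t0 t1 s0 s1
  | .ct m l r, c, t0, t1, s0, s1 => l.checkC c t0 m s0 s1 && r.checkC c m t1 s0 s1
  | .cs m l r, c, t0, t1, s0, s1 => l.checkC c t0 t1 s0 m && r.checkC c t0 t1 m s1

lemma cell_soundC {c t0 t1 s0 s1 : ℕ} (hc : cellOkC c t0 t1 s0 s1 = true) {t s : ℝ}
    (ht0 : rv t0 ≤ t) (ht1 : t ≤ rv t1) (hs0 : rv s0 ≤ s) (hs1 : s ≤ rv s1)
    (spos : 0 < s) (slt : s < 1) : GoalC (rv c) t s := by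
  simp only [cellOkC, Bool.and_eq_true, Nat.ble_eq] at hc
  obtain ⟨⟨⟨⟨⟨gal, gah⟩, gs1⟩, g11⟩, gp⟩, hmain⟩ := hc
  have hmainR := rv_le hmain
  rw [rv_add, rv_add] at hmainR
  have h1 := up_sound gal gah gs1 g11 gp ht0 ht1 hs0 hs1 spos slt
  have h2 := t_sound gal gah gs1 g11 gp ht0 ht1 hs0 hs1 spos slt
  have h3 := dn_sound gal gah gs1 g11 gp ht0 ht1 hs0 hs1 spos slt
  have tn := rv_nonneg t0
  have a0 : (0:ℝ) < rv (mD t0 t0) := one_le_rv gal
  have tpos : 0 < t := by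
    nlinarith [rv_mD_le t0 t0]
  have t1lt : t1 + 1 ≤ PP := by
    by_contra h
    have h1 : (1:ℝ) ≤ rv t1 := by rw [← rv_PP]; exact rv_le (by omega)
    nlinarith [le_rv_mU t1 t1, rv_lt_one gah]
  have t1' := rv_lt_one t1lt
  have hQ : Qz (At t) ≤ rv (qHi t1) := (Qz_monotone (Set.mem_Ici.2 (At_pos tpos (by linarith)).le)
    (Set.mem_Ici.2 (At_pos (tpos.trans_le ht1) t1').le)
    (At_mono (by linarith) ht1 t1')).trans (le_qHi t1lt gp)
  have h4 := (mul_le_mul_of_nonneg_left hQ (rv_nonneg c)).trans (le_rv_mU c (qHi t1))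
  unfold GoalC
  linarith

lemma CT.soundC : ∀ (tr : CT) (c t0 t1 s0 s1 : ℕ), tr.checkC c t0 t1 s0 s1 = true → ∀ t s : ℝ,
    rv t0 ≤ t → t ≤ rv t1 → rv s0 ≤ s → s ≤ rv s1 → 0 < s → s < 1 → GoalC (rv c) t s := by
  intro tr
  induction tr with
  | leaf => intro c t0 t1 s0 s1 h t s a b d e f g; exact cell_soundC h a b d e f g
  | ct m l r ihl ihr =>
    intro c t0 t1 s0 s1 h t s a b d e f g
    simp only [CT.checkC, Bool.and_eq_true] at h
    rcases le_total t (rv m) with hm | hm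
    · exact ihl _ _ _ _ _ h.1 t s a hm d e f g
    · exact ihr _ _ _ _ _ h.2 t s hm b d e f g
  | cs m l r ihl ihr =>
    intro c t0 t1 s0 s1 h t s a b d e f g
    simp only [CT.checkC, Bool.and_eq_true] at h
    rcases le_total s (rv m) with hm | hm
    · exact ihl _ _ _ _ _ h.1 t s a b d hm f g
    · exact ihr _ _ _ _ _ h.2 t s a b hm e f g

end Vale.Agent.P322.Cert
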