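import Vale.Agent.P322.General.Path

/-!
The tensorised bound follows from a scalar two point inequality.
-/

noncomputable section
namespace Vale.Agent.P322.General
open Real Set Finset

/-- the scalar two point inequality of a weight. -/
def TP (W : ℝ → ℝ) : Prop :=
  ∀ mu mv η C : ℝ, -1 < mv → mv < mu → mu < 1 → 0 ≤ mu + mv → 0 < η →
    η ≤ (hh mu + hh mv) / 2 → dd mu mv ≤ C →
    (∀ z, 0 < z → |mu - mv| / 2 * (z + sg z * gz z) - sg z * η ≤ C) →
    (∀ a u0 v0 : ℝ, -1 < v0 → v0 < u0 → u0 < 1 → 0 ≤ u0 + v0 → 1 - mu = a * (1 - u0) →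
      1 - mv = a * (1 - v0) → η = a * ((hh u0 + hh v0) / 2) → a * dd u0 v0 ≤ C) →
    2 * hh ((mu + mv) / 2) - (hh mu + hh mv) + Pi2 (W ((mu + mv) / 2)) η
      ≤ C + Pi2 ((W mu + W mv) / 2) η

variable {W : ℝ → ℝ}

/-- the conclusion for a pair of functions. -/
def PairIneq (W : ℝ → ℝ) {n : ℕ} (U V : Cube n → ℝ) : Prop :=
  2 * hh ((Ex U + Ex V) / 2) - (hh (Ex U) + hh (Ex V))
      + Pi2 (W ((Ex U + Ex V) / 2)) ((Ex (fun x => hh (U x)) + Ex (fun x => hh (V x))) / 2)
    ≤ Ex (fun x => dd (U x) (V x))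
      + Pi2 ((W (Ex U) + W (Ex V)) / 2) ((Ex (fun x => hh (U x)) + Ex (fun x => hh (V x))) / 2)

lemma PairIneq.swap {n : ℕ} {U V : Cube n → ℝ} (h : PairIneq W V U) : PairIneq W U V := by
  unfold PairIneq at h ⊢
  simp only [dd_comm (V _)] at h
  rwa [add_comm (Ex V), add_comm (hh (Ex V)), add_comm (W (Ex V)),
    add_comm (Ex fun x => hh (V x))] at h

lemma Ex_neg {n : ℕ} (U : Cube n → ℝ) : Ex (fun x => -U x) = -Ex U := by
  have := Ex_mul_left (-1) U
  simpa using this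

lemma PairIneq.neg (hev : ∀ m, W (-m) = W m) {n : ℕ} {U V : Cube n → ℝ}
    (h : PairIneq W (fun x => -U x) (fun x => -V x)) : PairIneq W U V := by
  unfold PairIneq at h ⊢
  have e : ∀ a b : ℝ, dd (-a) (-b) = dd a b := fun a b => by simp only [dd, At_neg]; ring
  simp only [Ex_neg, hh_neg, hev, e, show (-Ex U + -Ex V) / 2 = -((Ex U + Ex V) / 2) by ring] at h
  exact h

/-- the pair inequality for an ordered pair of functions. -/
def Core (W : ℝ → ℝ) : Prop :=
  ∀ (n : ℕ) (U V : Cube n → ℝ), (∀ x, -1 < U x ∧ U x < 1) → (∀ x, -1 < V x ∧ V x < 1) →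
    Ex V < Ex U → 0 ≤ Ex U + Ex V → PairIneq W U V

lemma core_of_TP (hK : TP W) : Core W := by
  intro n U V hU hV hlt hs
  obtain ⟨a1, a2⟩ := Ex_mem hU
  obtain ⟨b1, b2⟩ := Ex_mem hV
  have eu0 : 0 < Ex (fun x => hh (U x)) := Ex_pos fun x => hh_pos (hU x).1 (hU x).2
  have ev0 : 0 < Ex (fun x => hh (V x)) := Ex_pos fun x => hh_pos (hV x).1 (hV x).2
  have hh1 := hh_concave_mem U hU
  have hh2 := hh_concave_mem V hV
  exact hK _ _ _ _ b1 hlt a2 hs (by linarith) (by linarith) (Ex_dd_ge_mean U V hU hV)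
    (fun z hz => Ex_dd_ge_line U V hU hV hz)
    (fun a u0 v0 h1 h2 h3 h4 h5 h6 h7 => Ex_dd_ge_path U V hU hV h1 h2 h3 h4 h5 h6 h7)

lemma pair_of_core (hev : ∀ m, W (-m) = W m) (hC : Core W) {n : ℕ} (U V : Cube n → ℝ)
    (hU : ∀ x, -1 < U x ∧ U x < 1) (hV : ∀ x, -1 < V x ∧ V x < 1) : PairIneq W U V := by
  have core := hC n
  have hn : ∀ f : Cube n → ℝ, (∀ x, -1 < f x ∧ f x < 1) → ∀ x, -1 < -f x ∧ -f x < 1 :=
    fun f hf x => ⟨by linarith [(hf x).2], by linarith [(hf x).1]⟩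
  rcases lt_trichotomy (Ex V) (Ex U) with h | h | h
  · rcases le_total 0 (Ex U + Ex V) with hs | hs
    · exact core U V hU hV h hs
    · exact (core _ _ (hn V hV) (hn U hU) (by rw [Ex_neg, Ex_neg]; linarith)
        (by rw [Ex_neg, Ex_neg]; linarith)).swap.neg hev
  · have hd := Ex_dd_ge_mean U V hU hV
    rw [h, show dd (Ex U) (Ex U) = 0 by simp [dd]] at hd
    unfold PairIneq
    rw [h, show (Ex U + Ex U) / 2 = Ex U by ring, show (W (Ex U) + W (Ex U)) / 2 = W (Ex U) by ring]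
    linarith
  · rcases le_total 0 (Ex U + Ex V) with hs | hs
    · exact (core V U hV hU h (by linarith)).swap
    · exact (core _ _ (hn U hU) (hn V hV) (by rw [Ex_neg, Ex_neg]; linarith)
        (by rw [Ex_neg, Ex_neg]; linarith)).neg hev

/-- tensorisation. -/
theorem disGe_of_core (hpos : ∀ m, -1 < m → m < 1 → 0 < W m ∧ W m * log 2 ≤ hh m)
    (hev : ∀ m, W (-m) = W m) (hC : Core W) : DisGe W := by
  intro n
  induction n with
  | zero =>
    intro g hg
    have e1 : Ex g = g default := by simp [Ex]; exact congrArg g (Subsingleton.elim _ _)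
    have e2 : Ex (fun x => hh (g x)) = hh (g default) := by
      simp [Ex]; exact congrArg (fun y => hh (g y)) (Subsingleton.elim _ _)
    obtain ⟨a, b⟩ := hg default
    obtain ⟨w0, wb⟩ := hpos _ a b
    rw [e1, e2, Pi2_of_le w0 wb]
    simp [Dis]
  | succ n ih =>
    intro g hg
    set U := fun x => g (Fin.cons true x) with hUdef
    set V := fun x => g (Fin.cons false x) with hVdef
    have hU : ∀ x, -1 < U x ∧ U x < 1 := fun x => hg _
    have hV : ∀ x, -1 < V x ∧ V x < 1 := fun x => hg _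
    obtain ⟨a1, a2⟩ := Ex_mem hU
    obtain ⟨b1, b2⟩ := Ex_mem hV
    set eu := Ex (fun x => hh (U x)) with heu
    set ev := Ex (fun x => hh (V x)) with hev'
    have eu0 : 0 < eu := Ex_pos fun x => hh_pos (hU x).1 (hU x).2
    have ev0 : 0 < ev := Ex_pos fun x => hh_pos (hV x).1 (hV x).2
    have key := pair_of_core hev hC U V hU hV
    have mid := Pi2_midpoint (hpos _ a1 a2).1 (hpos _ b1 b2).1 eu0 ev0
    have i1 := ih U hU
    have i2 := ih V hV
    have em : Ex g = (Ex U + Ex V) / 2 := by rw [Ex_succ, hUdef, hVdef]; ring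
    have ee : Ex (fun x => hh (g x)) = (eu + ev) / 2 := by rw [Ex_succ, heu, hev']; ring
    rw [Dis_succ, em, ee]
    unfold PairIneq at key
    rw [← heu, ← hev'] at key
    rw [← heu] at i1
    rw [← hev'] at i2
    linarith

lemma Wk_neg (m : ℝ) : Wk (-m) = Wk m := by simp [Wk]

theorem disGe_of_TP (hW : GoodW W) (hev : ∀ m, W (-m) = W m) (hK : TP W) : DisGe W :=
  disGe_of_core (fun m a b => ⟨(hW m a b).1, (hW m a b).2.2.1⟩) hev (core_of_TP hK)

theorem disGe_Wk (hK : TP Wk) : DisGe Wk := disGe_of_TP goodW_Wk Wk_neg hK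

end Vale.Agent.P322.General
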